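import Vale.Agent.P268.Hol

/-!
# P277, TB: dividing by a power of a coordinate
-/

open Set Filter Metric
open scoped Topology

noncomputable section

namespace Vale.Agent.P277.H884

variable {n : ℕ}

theorem update_mem_ball {w₀ w : Fin (n + 1) → ℂ} {r : ℝ} (h0 : w₀ 0 = 0) (hw : w ∈ ball w₀ r)
    {t : ℂ} (ht : ‖t‖ < r) : Function.update w 0 t ∈ ball w₀ r := by
  have hr : 0 < r := dist_nonneg.trans_lt (mem_ball.1 hw)
  rw [mem_ball, dist_pi_lt_iff hr] at hw ⊢
  intro i
  rcases eq_or_ne i 0 with rfl | hi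
  · simpa [h0] using ht
  · simpa [Function.update_of_ne hi] using hw i

theorem norm_coord_lt {w₀ w : Fin (n + 1) → ℂ} {r : ℝ} (h0 : w₀ 0 = 0) (hw : w ∈ ball w₀ r) :
    ‖w 0‖ < r := by
  have hr : 0 < r := dist_nonneg.trans_lt (mem_ball.1 hw)
  rw [mem_ball, dist_pi_lt_iff hr] at hw
  simpa [h0] using hw 0

/-- the quotient by the coordinate `w 0` -/
def quo (H : (Fin (n + 1) → ℂ) → ℂ) (w : Fin (n + 1) → ℂ) : ℂ :=
  dslope (fun t => H (Function.update w 0 t)) 0 (w 0)

theorem differentiable_update (w : Fin (n + 1) → ℂ) :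
    Differentiable ℂ fun t : ℂ => Function.update w 0 t := by
  refine differentiable_pi.2 fun i => ?_
  rcases eq_or_ne i 0 with rfl | hi
  · simp
  · simp [Function.update_of_ne hi]

theorem differentiable_update₂ :
    Differentiable ℂ fun p : (Fin (n + 1) → ℂ) × ℂ => Function.update p.1 0 p.2 := by
  refine differentiable_pi.2 fun i => ?_
  rcases eq_or_ne i 0 with rfl | hi
  · simp
  · simp only [Function.update_of_ne hi]
    fun_prop

theorem mul_quo {H : (Fin (n + 1) → ℂ) → ℂ} {w : Fin (n + 1) → ℂ}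
    (h0 : H (Function.update w 0 0) = 0) : w 0 * quo H w = H w := by
  rcases eq_or_ne (w 0) 0 with h | h
  · rw [h, zero_mul, ← h0]
    conv_rhs => rw [← Function.update_eq_self 0 w, h]
  · rw [quo, dslope_of_ne _ h, slope_def_field]
    simp only [sub_zero, Function.update_eq_self, h0]
    field_simp

theorem differentiableOn_quo {H : (Fin (n + 1) → ℂ) → ℂ} {w₀ : Fin (n + 1) → ℂ} {r : ℝ}
    (h0 : w₀ 0 = 0) (hH : DifferentiableOn ℂ H (ball w₀ r)) :
    DifferentiableOn ℂ (quo H) (ball w₀ r) := by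
  intro p hp
  refine DifferentiableAt.differentiableWithinAt ?_
  have hpr := norm_coord_lt h0 hp
  obtain ⟨s, hps, hsr⟩ := exists_between hpr
  have hs0 : 0 < s := (norm_nonneg _).trans_lt hps
  obtain ⟨s', hs', hss'⟩ := exists_between hps
  -- the integrand
  set U : Set (Fin (n + 1) → ℂ) := ball w₀ r ∩ {w | ‖w 0‖ < s'} with hU
  set T : Set ℂ := {t | s' < ‖t‖ ∧ ‖t‖ < r} with hT
  have hs'0 : 0 < s' := (norm_nonneg _).trans_lt hs'
  have hUo : IsOpen U := isOpen_ball.inter (isOpen_lt (by fun_prop) continuous_const)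
  have hTo : IsOpen T := (isOpen_lt continuous_const continuous_norm).inter
    (isOpen_lt continuous_norm continuous_const)
  have hsT : sphere (0 : ℂ) s ⊆ T := by
    intro t ht
    rw [mem_sphere_zero_iff_norm] at ht
    exact ⟨by rw [ht]; exact hss', by rw [ht]; exact hsr⟩
  have hG : DifferentiableOn ℂ (fun p : (Fin (n + 1) → ℂ) × ℂ =>
      (p.2 - p.1 0)⁻¹ • ((H (Function.update p.1 0 p.2) - H (Function.update p.1 0 0)) / p.2))
      (U ×ˢ T) := by
    rintro ⟨w, t⟩ ⟨⟨hw1, hw2⟩, ht1, ht2⟩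
    have ht0 : t ≠ 0 := by
      rintro rfl
      simp at ht1
      linarith
    have h1 : t - w 0 ≠ 0 := by
      intro h
      have h2 : ‖w 0‖ < s' := hw2
      rw [← sub_eq_zero.1 h] at h2
      exact lt_asymm ht1 h2
    have h2 : DifferentiableAt ℂ (fun p : (Fin (n + 1) → ℂ) × ℂ => H (Function.update p.1 0 p.2))
        (w, t) :=
      DifferentiableAt.comp (g := H) (f := fun p : (Fin (n + 1) → ℂ) × ℂ => Function.update p.1 0 p.2)
        (w, t) (hH.differentiableAt (isOpen_ball.mem_nhds (update_mem_ball h0 hw1 ht2)))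
        (differentiable_update₂ _)
    have h3 : DifferentiableAt ℂ (fun p : (Fin (n + 1) → ℂ) × ℂ => H (Function.update p.1 0 0))
        (w, t) := by
      refine DifferentiableAt.comp (g := H)
        (f := fun p : (Fin (n + 1) → ℂ) × ℂ => Function.update p.1 0 (0 : ℂ)) (w, t)
        (hH.differentiableAt (isOpen_ball.mem_nhds (update_mem_ball h0 hw1 (by simpa using hs'0.trans (hss'.trans hsr))))) ?_
      exact DifferentiableAt.comp (g := fun p : (Fin (n + 1) → ℂ) × ℂ => Function.update p.1 0 p.2)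
        (f := fun p : (Fin (n + 1) → ℂ) × ℂ => (p.1, (0 : ℂ))) (w, t)
        (differentiable_update₂ _) (by fun_prop)
    have h4 : DifferentiableAt ℂ (fun p : (Fin (n + 1) → ℂ) × ℂ => p.2 - p.1 0) (w, t) := by
      fun_prop
    exact ((h4.inv h1).smul ((h2.sub h3).mul (differentiableAt_snd.inv ht0) |>.congr_of_eventuallyEq
      (Eventually.of_forall fun q => by simp [div_eq_mul_inv]))).differentiableWithinAt
  have h5 := P268.differentiableOn_circleIntegral (c := 0) (R := s) hs0.le hUo hTo hsT hG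
  have hpU : p ∈ U := ⟨hp, hs'⟩
  have h6 := (h5.differentiableAt (hUo.mem_nhds hpU)).const_mul (2 * Real.pi * Complex.I : ℂ)⁻¹
  refine h6.congr_of_eventuallyEq ?_
  filter_upwards [hUo.mem_nhds hpU] with w hw
  have hd : DifferentiableOn ℂ (fun t => H (Function.update w 0 t)) (ball 0 r) := by
    intro t ht
    refine (DifferentiableAt.comp (g := H) t ?_ (differentiable_update w t)).differentiableWithinAt
    exact hH.differentiableAt (isOpen_ball.mem_nhds (update_mem_ball h0 hw.1 (by simpa using ht)))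
  have hd' : DifferentiableOn ℂ (dslope (fun t => H (Function.update w 0 t)) 0) (ball 0 r) :=
    (Complex.differentiableOn_dslope (ball_mem_nhds _ (hs0.trans hsr))).2 hd
  have h7 : DiffContOnCl ℂ (dslope (fun t => H (Function.update w 0 t)) 0) (ball 0 s) :=
    (hd'.mono (closedBall_subset_ball hsr)).diffContOnCl_ball Subset.rfl
  have h8 := h7.circleIntegral_sub_inv_smul (w := w 0) (by
    simpa using (show ‖w 0‖ < s' from hw.2).trans hss')
  have h9 : (∮ t in C(0, s), (t - w 0)⁻¹ •
      ((H (Function.update w 0 t) - H (Function.update w 0 0)) / t)) =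
      ∮ t in C(0, s), (t - w 0)⁻¹ • dslope (fun t => H (Function.update w 0 t)) 0 t := by
    refine circleIntegral.integral_congr hs0.le fun t ht => ?_
    have ht0 : t ≠ 0 := by
      rintro rfl
      rw [mem_sphere_zero_iff_norm, norm_zero] at ht
      exact hs0.ne ht
    simp only [dslope_of_ne _ ht0, slope_def_field, sub_zero]
  change quo H w = _ * _
  rw [h9, h8, smul_eq_mul, ← mul_assoc, inv_mul_cancel₀ Complex.two_pi_I_ne_zero, one_mul]
  rfl

/-- Division by the highest power of the coordinate `w 0`. -/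
theorem exists_div {w₀ : Fin (n + 1) → ℂ} {r : ℝ} (h0 : w₀ 0 = 0) {ι : Type}
    (H : ι → (Fin (n + 1) → ℂ) → ℂ) (hH : ∀ i, DifferentiableOn ℂ (H i) (ball w₀ r)) {i₀ : ι}
    {w' : Fin (n + 1) → ℂ} (hw' : w' ∈ ball w₀ r) (hne : H i₀ w' ≠ 0) :
    ∃ (κ : ℕ) (G : ι → (Fin (n + 1) → ℂ) → ℂ), (∀ i, DifferentiableOn ℂ (G i) (ball w₀ r)) ∧
      (∀ i, ∀ w ∈ ball w₀ r, H i w = w 0 ^ κ * G i w) ∧
      ∃ i, ∃ w₁ ∈ ball w₀ r, w₁ 0 = 0 ∧ G i w₁ ≠ 0 := by
  classical
  have hr : 0 < r := dist_nonneg.trans_lt (mem_ball.1 hw')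
  set P : ℕ → Prop := fun k => ∃ G : ι → (Fin (n + 1) → ℂ) → ℂ,
    (∀ i, DifferentiableOn ℂ (G i) (ball w₀ r)) ∧
      ∀ i, ∀ w ∈ ball w₀ r, H i w = w 0 ^ k * G i w with hP
  have hP0 : P 0 := ⟨H, hH, fun i w _ => by simp⟩
  have hex : ∃ k, ¬ P k := by
    by_contra hall
    push Not at hall
    set h : ℂ → ℂ := fun t => H i₀ (Function.update w' 0 t) with hh
    have hda : ∀ (G : (Fin (n + 1) → ℂ) → ℂ), DifferentiableOn ℂ G (ball w₀ r) →
        AnalyticOnNhd ℂ (fun t => G (Function.update w' 0 t)) (ball 0 r) := by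
      intro G hG
      refine DifferentiableOn.analyticOnNhd (fun t ht => ?_) isOpen_ball
      refine (DifferentiableAt.comp (g := G) t ?_
        (differentiable_update w' t)).differentiableWithinAt
      exact hG.differentiableAt (isOpen_ball.mem_nhds (update_mem_ball h0 hw' (by simpa using ht)))
    have han : AnalyticOnNhd ℂ h (ball 0 r) := hda _ (hH i₀)
    have h00 : (0 : ℂ) ∈ ball (0 : ℂ) r := mem_ball_self hr
    have htop : analyticOrderAt h 0 = ⊤ := by
      rw [ENat.eq_top_iff_forall_ge]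
      intro k
      rw [natCast_le_analyticOrderAt (han 0 h00)]
      obtain ⟨G, hG, hG'⟩ := hall k
      refine ⟨fun t => G i₀ (Function.update w' 0 t), hda _ (hG i₀) 0 h00, ?_⟩
      filter_upwards [isOpen_ball.mem_nhds h00] with t ht
      have h1 := hG' i₀ (Function.update w' 0 t) (update_mem_ball h0 hw' (by simpa using ht))
      simpa using h1
    have hz : ∀ᶠ t in 𝓝 (0 : ℂ), h t = 0 := analyticOrderAt_eq_top.1 htop
    have h1 := han.eqOn_zero_of_preconnected_of_eventuallyEq_zero
      (convex_ball (0 : ℂ) r).isPreconnected h00 hz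
    have h2 : w' 0 ∈ ball (0 : ℂ) r := by simpa using norm_coord_lt h0 hw'
    have h3 := h1 h2
    simp only [hh, Function.update_eq_self, Pi.zero_apply] at h3
    exact hne h3
  have hk0 : Nat.find hex ≠ 0 := by
    intro h
    exact (h ▸ Nat.find_spec hex) hP0
  obtain ⟨k, hk⟩ := Nat.exists_eq_succ_of_ne_zero hk0
  have hPk : P k := by
    by_contra h
    have := Nat.find_min' hex h
    omega
  have hnk : ¬ P (k + 1) := by
    have := Nat.find_spec hex
    rwa [hk] at this
  obtain ⟨G, hG, hG'⟩ := hPk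
  refine ⟨k, G, hG, hG', ?_⟩
  by_contra hno
  push Not at hno
  refine hnk ⟨fun i => quo (G i), fun i => differentiableOn_quo h0 (hG i), fun i w hw => ?_⟩
  have h1 : Function.update w 0 0 ∈ ball w₀ r := update_mem_ball h0 hw (by simpa using hr)
  rw [hG' i w hw, pow_succ, mul_assoc, mul_quo (hno i _ h1 (by simp))]

end Vale.Agent.P277.H884
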