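import Vale.Agent.P277.H884.Lift
import Vale.Agent.P277.H884.Div

/-!
# P277, TB: lifting wedges through a flip
-/

open scoped Manifold ContDiff Topology
open Vale.Agent.P272.K Vale.Agent.P285.H281.FD Set Filter

noncomputable section

namespace Vale.Agent.P277.H884

theorem stTB : StTB := by
  intro X Z X' f f' A L L' hF hA t ht W hW w₀ hw₀ hw00 γ' hγ' hdense
  have hf := hF.small
  have hf' := hF.small'
  set ζ : Cm 4 → Z.pt := fun w => f' (γ' w) with hζdef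
  have hζ : ∀ w ∈ W, HolAt Z ζ w := fun w hw => (hγ' w hw).holMap (hf'.holMap _)
  obtain ⟨V₁, k₁, N, s, hV₁, hzV₁, hk₁, hs, hsnz, hssep, hsemb⟩ := hF.ample (ζ w₀)
  obtain ⟨V₂, k₂, N₂, σ₀, hV₂, hzV₂, hk₂, hσs, hσnz, -, -⟩ := hF.ample' (ζ w₀)
  obtain ⟨n, rfl⟩ : ∃ n, k₂ = n + 1 := ⟨k₂ - 1, by omega⟩
  set V := V₁ ∩ V₂ with hVdef
  have hV : IsOpen V := hV₁.inter hV₂
  have hAmp : Amp X Z f L V k₁ N s :=
    (⟨hs, hsnz, hssep, hsemb⟩ : Amp X Z f L V₁ k₁ N s).mono inter_subset_left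
  obtain ⟨j₀, hj₀⟩ := hF.lb'.cover (γ' w₀)
  obtain ⟨l₀, hl₀⟩ := hσnz (γ' w₀) j₀ hzV₂ hj₀
  set k := k₁ * (n + 1) with hk
  set σ : L'.ι → X'.pt → ℂ := fun j x => σ₀ l₀ j x ^ k₁ with hσdef
  have hσ : IsSecx X' (f' ⁻¹' V) (L'.pow k) σ := by
    refine ⟨fun j x hx hj => hol_pow ((hσs l₀).holo j x hx.2 hj) k₁, fun i j x hx hi hj => ?_⟩
    have h1 : σ₀ l₀ i x = L'.g i j x ^ (n + 1) * σ₀ l₀ j x := (hσs l₀).change i j x hx.2 hi hj
    change σ₀ l₀ i x ^ k₁ = L'.g i j x ^ (k₁ * (n + 1)) * σ₀ l₀ j x ^ k₁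
    rw [h1, mul_pow, ← pow_mul, mul_comm (n + 1) k₁]
  obtain ⟨τ, hτ, hτσ⟩ := transport hF.normal hf hf' hF.lb hF.lb' ht hV hσ
  -- the ball
  have hev : ∀ᶠ w in 𝓝 w₀, w ∈ W ∧ ζ w ∈ V ∧ γ' w ∈ L'.U j₀ ∧ σ j₀ (γ' w) ≠ 0 := by
    have e1 : ContinuousAt (fun w => σ j₀ (γ' w)) w₀ :=
      ((hγ' w₀ hw₀).analyticAt (hσ.holo j₀ _ ⟨hzV₁, hzV₂⟩ hj₀)).continuousAt
    exact (hW.eventually_mem hw₀).and (((hζ w₀ hw₀).1.eventually (hV.mem_nhds ⟨hzV₁, hzV₂⟩)).and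
      (((hγ' w₀ hw₀).1.eventually ((hF.lb'.isOpen j₀).mem_nhds hj₀)).and
        (e1.eventually_ne (pow_ne_zero k₁ hl₀))))
  obtain ⟨r, hr, hball⟩ := Metric.eventually_nhds_iff_ball.1 hev
  set B := Metric.ball w₀ r with hB
  obtain ⟨w', hw'B, hw'W, hw'A⟩ : ∃ w', w' ∈ B ∧ w' ∈ W ∧ ζ w' ∉ A := by
    obtain ⟨v, hv, hv'⟩ := mem_closure_iff_nhds.1 (hdense hw₀) B (Metric.ball_mem_nhds _ hr)
    exact ⟨v, hv, hv'.1, hv'.2⟩
  have hsec' : f (hf.sec (ζ w')) = ζ w' := hf.sec_eq _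
  have hw'V : f (hf.sec (ζ w')) ∈ V := by rw [hsec']; exact (hball w' hw'B).2.1
  obtain ⟨a', ha'⟩ := hF.lb.cover (hf.sec (ζ w'))
  obtain ⟨m, hm⟩ := hAmp.nz _ a' hw'V ha'
  choose h hh hh' using fun l => hAmp.exists_fun hF.normal hF.normalZ hf hF.lb hV hτ l m
  set H : Fin (N + 1) → Cm 4 → ℂ := fun l w => h l (ζ w) with hHdef
  have hH : ∀ l, ∀ w ∈ B, AnalyticAt ℂ (H l) w := fun l w hw =>
    (hζ w (hball w hw).1).analyticAt (hh l _ (hball w hw).2.1)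
  have hτne : ∀ w ∈ B, ζ w ∉ A → ∀ x a, f x = ζ w → x ∈ L.U a → τ a x ≠ 0 := by
    intro w hw hwA x a hx ha h0
    have h1 := hτσ x (γ' w) a j₀ (by rw [hx]; exact (hball w hw).2.1) (by rw [hx]; exact hwA)
      hx.symm ha (hball w hw).2.2.1
    rw [h0, zero_mul] at h1
    exact (hball w hw).2.2.2 h1
  have hHm : H m w' ≠ 0 := by
    have h1 := hh' m _ a' hw'V ha'
    rw [hsec'] at h1
    change h m (ζ w') ≠ 0
    rw [h1]
    exact mul_ne_zero (mul_ne_zero hm (pow_ne_zero _ hm)) (hτne w' hw'B hw'A _ a' hsec' ha')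
  obtain ⟨κ, G, hG, hHG, i₁, w₁, hw₁B, hw₁0, hGw₁⟩ := exists_div hw00 H
    (fun l w hw => (hH l w hw).differentiableAt.differentiableWithinAt) hw'B hHm
  have hGan : ∀ l, ∀ w ∈ B, AnalyticAt ℂ (G l) w := fun l w hw =>
    P268.analyticAt_of_differentiableOn Metric.isOpen_ball (hG l) hw
  set W₁ : Set (Cm 4) := B ∩ G i₁ ⁻¹' {0}ᶜ with hW₁def
  have hW₁ : IsOpen W₁ :=
    (hG i₁).continuousOn.isOpen_inter_preimage Metric.isOpen_ball isOpen_compl_singleton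
  set D : Set (Cm 4) := {w | ζ w ∉ A ∧ H m w ≠ 0} with hDdef
  have hD : W₁ ⊆ closure D := by
    intro w hw
    rw [mem_closure_iff_nhds]
    intro T hT
    by_contra hno
    rw [not_nonempty_iff_eq_empty] at hno
    have hz : H m =ᶠ[𝓝 w] 0 := by
      have hT' : ∀ᶠ v in 𝓝 w, v ∈ T ∧ v ∈ B := inter_mem hT (Metric.isOpen_ball.mem_nhds hw.1)
      filter_upwards [hT'.eventually_nhds] with v hv
      by_contra hHv
      have e1 : ∀ᶠ u in 𝓝 v, H m u ≠ 0 :=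
        (hH m v hv.self_of_nhds.2).continuousAt.eventually_ne hHv
      obtain ⟨u, ⟨hu1, hu2⟩, hu3⟩ := mem_closure_iff_nhds.1
        (hdense (hball v hv.self_of_nhds.2).1) _ (hv.and e1)
      have hu4 : u ∈ T ∩ D := ⟨hu1.1, hu3.2, hu2⟩
      rw [hno] at hu4
      exact hu4
    have h1 : AnalyticOnNhd ℂ (H m) B := hH m
    exact hHm (h1.eqOn_zero_of_preconnected_of_eventuallyEq_zero
      (convex_ball w₀ r).isPreconnected hw.1 hz hw'B)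
  have hDL : ∀ w ∈ W₁, w ∈ D → ∃ x, Lies f L s ζ G i₁ w x := by
    rintro w ⟨hwB, hwG⟩ ⟨hwA, hwH⟩
    have hfx : f (hf.sec (ζ w)) = ζ w := hf.sec_eq _
    refine ⟨hf.sec (ζ w), hfx, fun a ha i => ?_⟩
    set x := hf.sec (ζ w) with hx
    have e : ∀ i, w 0 ^ κ * G i w = s i a x * (s m a x ^ n * τ a x) := by
      intro i
      rw [← hHG i w hwB]
      have h1 := hh' i x a (by rw [hfx]; exact (hball w hwB).2.1) ha
      rw [hfx] at h1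
      change h i (ζ w) = _
      rw [h1, mul_assoc]
    have hem : w 0 ^ κ * G m w ≠ 0 := by rw [← hHG m w hwB]; exact hwH
    have h0 : w 0 ^ κ ≠ 0 := left_ne_zero_of_mul hem
    have hc : s m a x ^ n * τ a x ≠ 0 := by
      rw [e m] at hem
      exact right_ne_zero_of_mul hem
    refine mul_right_cancel₀ (mul_ne_zero h0 hc) ?_
    calc s i a x * G i₁ w * (w 0 ^ κ * (s m a x ^ n * τ a x))
        = (s i a x * (s m a x ^ n * τ a x)) * (w 0 ^ κ * G i₁ w) := by ring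
      _ = (w 0 ^ κ * G i w) * (s i₁ a x * (s m a x ^ n * τ a x)) := by rw [e i, e i₁]
      _ = _ := by ring
  have : Nonempty X.pt := ⟨hf.sec (ζ w')⟩
  obtain ⟨γ, hγ⟩ := exists_lift hAmp hf.cont hF.lb hW₁ (fun w hw => hζ w (hball w hw.1).1)
    (fun w hw => (hball w hw.1).2.1) (fun l w hw => hGan l w hw.1) (fun w hw => hw.2) hD hDL
  refine ⟨w₁, (hball w₁ hw₁B).1, hw₁0, W₁, γ, k, hW₁, ⟨hw₁B, hGw₁⟩,
    fun w hw => (hball w hw.1).1, fun w hw => ⟨(hγ w hw).1, (hγ w hw).2.1⟩, ?_, ?_⟩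
  · rw [hk]
    exact Nat.one_le_iff_ne_zero.2 (Nat.mul_ne_zero (by omega) (by omega))
  intro i j hi hj
  have hfV : ∀ w ∈ W₁, f (γ w) ∈ V := fun w hw => by
    rw [(hγ w hw).2.1]; exact (hball w hw.1).2.1
  have hσj : ∀ w ∈ W₁, σ j (γ' w) ≠ 0 := by
    intro w hw h0
    have h1 : σ j₀ (γ' w) = L'.g j₀ j (γ' w) ^ k * σ j (γ' w) :=
      hσ.change j₀ j (γ' w) (hball w hw.1).2.1 (hball w hw.1).2.2.1 (hj w hw)
    rw [h0, mul_zero] at h1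
    exact (hball w hw.1).2.2.2 h1
  refine ⟨fun w => τ i (γ w) / σ j (γ' w), fun w hw => ?_, fun w hw hwA => ?_,
    fun hWA w hw hw0 => ?_⟩
  · exact ((hγ w hw).1.analyticAt (hτ.holo i _ (hfV w hw) (hi w hw))).fun_div
      ((hγ' w (hball w hw.1).1).analyticAt (hσ.holo j _ (hball w hw.1).2.1 (hj w hw))) (hσj w hw)
  · have h1 := hτσ (γ w) (γ' w) i j (hfV w hw) hwA (hγ w hw).2.1.symm (hi w hw) (hj w hw)
    have h2 := hτne w hw.1 (by rw [← (hγ w hw).2.1]; exact hwA) (γ w) i (hγ w hw).2.1 (hi w hw)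
    have h3 := (ht.holo (γ w) (γ' w) i j hwA (hγ w hw).2.1.symm (hi w hw) (hj w hw)).2
    have h4 : t i j (f (γ w)) ^ k ≠ 0 := pow_ne_zero k h3
    simp only
    rw [h1]
    field_simp
  · have h1 : f (γ w) ∈ Amin f := by
      rw [← hA, (hγ w hw).2.1]
      exact hWA w (hball w hw.1).1 hw0
    have h2 := hAmp.vanish hF.normal hF.normalZ hf hF.lb hV hτ (hfV w hw) h1 (hi w hw)
    simp only [h2, zero_div]

end Vale.Agent.P277.H884
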