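import Vale.Agent.P277.H884.Min5
import Vale.Agent.P277.H335.COV5
import Vale.Agent.P277.H19.Rank

/-!
# P277, TX-MIN, final form
-/

open scoped Manifold ContDiff Topology
open Vale.Agent.P272.K Vale.Agent.P285.H281.FD Set

namespace Vale.Agent.P277.TX

/-- Good coverings inside an open set `U₀` which meets `S` in a set of dimension two. -/
theorem stMinLoc_final (Y : Type) [TopologicalSpace Y] [T2Space Y] [CompactSpace Y]
    [ChartedSpace (Cm 4) Y] [IsManifold 𝓘(ℂ, Cm 4) ω Y] (X : CSp) (hX : IsNormal 4 X) (O : Set Y)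
    (v : Y → X.pt) (hv : IsOpenEmb X O v) (hdim : DimLe X 2 (v '' O)ᶜ) (S : Set X.pt)
    (hSan : IsAn X univ S) (U₀ : Set X.pt) (hU₀ : IsOpen U₀) (hSO : S ∩ U₀ ⊆ (v '' O)ᶜ)
    (hS1 : ¬ DimLe X 1 (S ∩ U₀)) :
    ∃ (V : Set X.pt) (G : X.pt → Cm 4) (c : Cm 4) (r : ℝ) (d : ℕ) (lam : X.pt → ℂ)
      (θ : Cm 4 → ℂ) (n : ℕ) (ζ : Fin n → X.pt → ℂ),
      V ⊆ U₀ ∧ IsGood X S V G c r d lam θ ∧ IsCoord X V ζ :=
  stMinLoc H335.stCovP H335.stCov H335.stCovLoc H335.stCovRes H19.stRank Y X hX O v hv hdim S hSan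
    U₀ hU₀ hSO hS1

theorem stMin_final : StMin :=
  stMin H335.stCovP H335.stCov H335.stCovLoc H335.stCovRes H19.stRank

end Vale.Agent.P277.TX
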