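import Vale.Agent.P277.H884.CovLift
import Vale.Agent.P277.H884.PuiA

/-!
# P277, TX-PUI: parametrisation of the sheets of a branched covering
-/

open scoped Manifold ContDiff Topology
open Vale.Agent.P272.K Vale.Agent.P285.H281.FD Set Filter
open Vale.Agent.P298.H983 Vale.Agent.P277.H884

noncomputable section

namespace Vale.Agent.P277.TX

theorem differentiable_bl : Differentiable ℂ bl := by
  refine differentiable_pi.2 fun i => ?_
  fin_cases i <;> simp only [bl] <;> simp <;> fun_prop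

theorem cons_mem_ball {w₀ : Cm 4} (h0 : w₀ 0 = 0) {ε : ℝ} (hε : 0 < ε) {t : ℂ} {x : Cm 3}
    (ht : ‖t‖ < ε) (hx : x ∈ Metric.ball (Fin.tail w₀ : Cm 3) ε) :
    (Fin.cons t x : Cm 4) ∈ Metric.ball w₀ ε := by
  rw [Metric.mem_ball, dist_pi_lt_iff hε] at hx ⊢
  refine Fin.cases ?_ (fun j => ?_)
  · simpa [h0] using ht
  · exact hx j

theorem tail_mem_ball {w₀ w : Cm 4} {ε : ℝ} (hε : 0 < ε) (hw : w ∈ Metric.ball w₀ ε) :
    (Fin.tail w : Cm 3) ∈ Metric.ball (Fin.tail w₀ : Cm 3) ε := by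
  rw [Metric.mem_ball, dist_pi_lt_iff hε] at hw ⊢
  exact fun i => hw i.succ

theorem zero_lt_of_mem {w₀ w : Cm 4} (h0 : w₀ 0 = 0) {ε : ℝ} (hε : 0 < ε)
    (hw : w ∈ Metric.ball w₀ ε) : ‖w 0‖ < ε := by
  rw [Metric.mem_ball, dist_pi_lt_iff hε] at hw
  simpa [h0] using hw 0

theorem stPui : StPui := by
  intro X V G c r d lam θ h w₀ h0 hbl m Φ hΦ hΦ0 hθ
  obtain ⟨P, hP1, hP2, hP3⟩ := h.sym lam h.lamHol
  have hopenB : IsOpen (Metric.ball c r) := Metric.isOpen_ball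
  have hblc : Continuous bl := differentiable_bl.continuous
  obtain ⟨A₁, hA₁, hAb⟩ := Metric.eventually_nhds_iff_ball.1 (hθ.and
    ((hblc.continuousAt.eventually (hopenB.mem_nhds hbl)).and (hΦ.continuousAt.eventually_ne hΦ0)))
  set A : ℝ := min A₁ 1 with hAdef
  have hA : 0 < A := lt_min hA₁ one_pos
  have hA1 : A ≤ 1 := min_le_right _ _
  have hAball : ∀ w ∈ Metric.ball w₀ A, θ (bl w) = w 0 ^ m * Φ w ∧ bl w ∈ Metric.ball c r ∧
      Φ w ≠ 0 := fun w hw => hAb w (Metric.ball_subset_ball (min_le_left _ _) hw)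
  set Ω₁ : Set (Cm 3) := Metric.ball (Fin.tail w₀ : Cm 3) A with hΩ₁
  -- the family of polynomials
  have hcons : Differentiable ℂ fun q : Cm 3 × ℂ => (Fin.cons q.2 q.1 : Cm 4) := by
    refine differentiable_pi.2 fun i => ?_
    refine Fin.cases ?_ (fun j => ?_) i
    · simp
    · simp only [Fin.cons_succ]; fun_prop
  have hβ : Differentiable ℂ fun q : Cm 3 × ℂ => bl (Fin.cons q.2 q.1) :=
    differentiable_bl.comp hcons
  have hmem : ∀ q ∈ Ω₁ ×ˢ Metric.ball (0 : ℂ) A, (Fin.cons q.2 q.1 : Cm 4) ∈ Metric.ball w₀ A :=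
    fun q hq => cons_mem_ball h0 hA (by simpa using hq.2) hq.1
  have hmaps : MapsTo (fun q : Cm 3 × ℂ => bl (Fin.cons q.2 q.1)) (Ω₁ ×ˢ Metric.ball (0 : ℂ) A)
      (Metric.ball c r) := fun q hq => (hAball _ (hmem q hq)).2.1
  have hPF : PFam (Ω₁ ×ˢ Metric.ball (0 : ℂ) A) d fun q => P (bl (Fin.cons q.2 q.1)) := by
    refine ⟨fun q hq => (hP1 _ (hmaps hq)).1, fun q hq => (hP1 _ (hmaps hq)).2.1, fun i => ?_⟩
    have h1 : DifferentiableOn ℂ (fun z => (P z).coeff i) (Metric.ball c r) := fun z hz =>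
      ((hP1 z hz).2.2 i).differentiableAt.differentiableWithinAt
    exact h1.comp hβ.differentiableOn hmaps
  have hθne : ∀ w ∈ Metric.ball w₀ A, w 0 ≠ 0 → θ (bl w) ≠ 0 := by
    intro w hw hw0
    rw [(hAball w hw).1]
    exact mul_ne_zero (pow_ne_zero _ hw0) (hAball w hw).2.2
  have hsimple : Simple ((Ω₁ ×ˢ Metric.ball (0 : ℂ) A) ∩ {q | q.2 ≠ 0})
      fun q => P (bl (Fin.cons q.2 q.1)) := by
    rintro q ⟨hq, hq0⟩ z hz
    have hθq : θ (bl (Fin.cons q.2 q.1)) ≠ 0 := hθne _ (hmem q hq) (by simpa using hq0)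
    obtain ⟨x, hx⟩ := h.enum _ (hmaps hq) hθq
    have h1 := hP3 _ (hmaps hq) hθq x hx
    have h2 : Function.Injective fun k => lam (x k) := by
      intro k l hkl
      exact hx.1 (h.sep _ (hmaps hq) hθq ((hx.2 _).1 ⟨k, rfl⟩) ((hx.2 _).1 ⟨l, rfl⟩) hkl)
    have h3 : (P (bl (Fin.cons q.2 q.1))).Separable := by
      rw [h1]
      exact Polynomial.separable_prod_X_sub_C_iff.2 h2
    intro h4
    have h5 := h3.aeval_derivative_ne_zero (x := z) (by simpa [Polynomial.aeval_def] using hz)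
    exact h5 (by simpa [Polynomial.aeval_def] using h4)
  obtain ⟨N, s, η, hN0, hs, hη1, hη2, hη3⟩ :=
    roots_puiseux (Metric.isOpen_ball (x := (Fin.tail w₀ : Cm 3)) (ε := A))
      (convex_ball _ _) hA hPF hsimple
  have hN : 1 ≤ N := Nat.one_le_iff_ne_zero.2 hN0
  -- powers stay in the ball
  have hpowlt : ∀ {t : ℂ} {j : ℕ}, 1 ≤ j → ‖t‖ < A → ‖t ^ j‖ < A := by
    intro t j hj ht
    rw [norm_pow]
    refine lt_of_le_of_lt ?_ ht
    exact pow_le_of_le_one (norm_nonneg t) (ht.le.trans hA1) (by omega)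
  have hvec : ∀ (w : Cm 4) (j : ℕ), (![w 0 ^ j, w 1, w 2, w 3] : Cm 4) =
      Fin.cons (w 0 ^ j) (Fin.tail w) := by
    intro w j
    ext i
    fin_cases i <;> rfl
  have hvecmem : ∀ w ∈ Metric.ball w₀ A, ∀ j : ℕ, 1 ≤ j →
      (![w 0 ^ j, w 1, w 2, w 3] : Cm 4) ∈ Metric.ball w₀ A := by
    intro w hw j hj
    rw [hvec]
    exact cons_mem_ball h0 hA (hpowlt hj (zero_lt_of_mem h0 hA hw)) (tail_mem_ball hA hw)
  have hblvec : ∀ (w : Cm 4) (j : ℕ), bl ![w 0 ^ j, w 1, w 2, w 3] =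
      ![w 0 ^ j, w 1 * w 0 ^ j, w 2, w 3] := by
    intro w j
    ext i
    fin_cases i <;> simp [bl, mul_comm]
  have hbdiff : ∀ j : ℕ, Differentiable ℂ fun w : Cm 4 =>
      (![w 0 ^ j, w 1 * w 0 ^ j, w 2, w 3] : Cm 4) := by
    intro j
    refine differentiable_pi.2 fun i => ?_
    fin_cases i <;> simp <;> fun_prop
  have hban : ∀ (j : ℕ) (w : Cm 4), AnalyticAt ℂ (fun w : Cm 4 =>
      (![w 0 ^ j, w 1 * w 0 ^ j, w 2, w 3] : Cm 4)) w := fun j w =>
    P268.analyticAt_of_differentiableOn isOpen_univ (hbdiff j).differentiableOn (mem_univ w)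
  set S : Set (Cm 4) := {w | w ∈ Metric.ball w₀ A ∧ w 0 ≠ 0} with hS
  have hSo : IsOpen S := Metric.isOpen_ball.inter
    (isOpen_ne_fun (continuous_apply 0) continuous_const)
  have hlift : ∀ k, ∃ φ : Cm 4 → X.pt, (∀ w ∈ Metric.ball w₀ A, HolAt X φ w ∧ φ w ∈ V ∧
      G (φ w) = ![w 0 ^ s k, w 1 * w 0 ^ s k, w 2, w 3]) ∧
      ∀ w ∈ Metric.ball w₀ A, w 0 ≠ 0 → lam (φ w) = η k (Fin.tail w, w 0) := by
    intro k
    have hbr : ∀ w ∈ Metric.ball w₀ A,
        (![w 0 ^ s k, w 1 * w 0 ^ s k, w 2, w 3] : Cm 4) ∈ Metric.ball c r := by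
      intro w hw
      rw [← hblvec]
      exact (hAball _ (hvecmem w hw _ (hs k).1)).2.1
    have hηm : MapsTo (fun w : Cm 4 => ((Fin.tail w, w 0) : Cm 3 × ℂ)) (Metric.ball w₀ A)
        (Ω₁ ×ˢ powBall (s k) A) := by
      intro w hw
      refine ⟨tail_mem_ball hA hw, ?_⟩
      change ‖w 0‖ ^ s k < A
      rw [← norm_pow]
      exact hpowlt (hs k).1 (zero_lt_of_mem h0 hA hw)
    have hηc : ContinuousOn (fun w : Cm 4 => η k (Fin.tail w, w 0)) S := by
      have h1 : Continuous fun w : Cm 4 => ((Fin.tail w, w 0) : Cm 3 × ℂ) := by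
        refine Continuous.prodMk ?_ (continuous_apply 0)
        exact continuous_pi fun i => continuous_apply _
      exact ((hη1 k).continuousOn.comp h1.continuousOn hηm).mono fun w hw => hw.1
    obtain ⟨ψ, hψ⟩ := h.lift hP3 hSo (b := fun w => ![w 0 ^ s k, w 1 * w 0 ^ s k, w 2, w 3])
      (fun w _ => hban _ w) (fun w hw => hbr w hw.1) (fun w hw => by
        rw [← hblvec]
        exact hθne _ (hvecmem w hw.1 _ (hs k).1) (by simpa using pow_ne_zero _ hw.2)) hηc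
      (fun w hw => by
        have h1 := hη2 k (Fin.tail w, w 0) (hηm hw.1)
        simp only at h1
        rw [← hvec, hblvec] at h1
        exact h1)
    obtain ⟨Ψ, hΨ, hΨψ⟩ := h.extend (Metric.isOpen_ball (x := w₀) (ε := A))
      (b := fun w => ![w 0 ^ s k, w 1 * w 0 ^ s k, w 2, w 3])
      (fun w _ => (hban _ w).continuousAt) hbr (ψ := ψ)
      (fun w hw hw0 => ⟨(hψ w ⟨hw, hw0⟩).1, (hψ w ⟨hw, hw0⟩).2.1, (hψ w ⟨hw, hw0⟩).2.2.1⟩)
    exact ⟨Ψ, hΨ, fun w hw hw0 => by rw [hΨψ w hw hw0]; exact (hψ w ⟨hw, hw0⟩).2.2.2⟩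
  choose φ hφ hφl using hlift
  refine ⟨N, s, A, φ, hN, hA, hA1, hs, hφ, fun w hw hw0 => ?_⟩
  set z : Cm 4 := ![w 0 ^ N, w 1 * w 0 ^ N, w 2, w 3] with hz
  have hNs : ∀ k, 1 ≤ N / s k := fun k =>
    (Nat.one_le_div_iff (hs k).1).2 (Nat.le_of_dvd hN (hs k).2.2)
  set y : Fin d → X.pt := fun k => φ k ![w 0 ^ (N / s k), w 1, w 2, w 3] with hy
  have hzmem : z ∈ Metric.ball c r := by
    rw [hz, ← hblvec]
    exact (hAball _ (hvecmem w hw _ hN)).2.1
  have hzθ : θ z ≠ 0 := by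
    rw [hz, ← hblvec]
    exact hθne _ (hvecmem w hw _ hN) (by simpa using pow_ne_zero _ hw0)
  have hyV : ∀ k, y k ∈ V ∧ G (y k) = z := by
    intro k
    have h1 := hφ k _ (hvecmem w hw _ (hNs k))
    refine ⟨h1.2.1, ?_⟩
    rw [hy]
    simp only
    rw [h1.2.2, hz]
    have h2 : (w 0 ^ (N / s k)) ^ s k = w 0 ^ N := by
      rw [← pow_mul, Nat.div_mul_cancel (hs k).2.2]
    ext i
    fin_cases i <;> simp [h2]
  have hyl : ∀ k, lam (y k) = η k (Fin.tail w, w 0 ^ (N / s k)) := by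
    intro k
    have h0' : (![w 0 ^ (N / s k), w 1, w 2, w 3] : Cm 4) 0 ≠ 0 := pow_ne_zero (N / s k) hw0
    have h1 := hφl k _ (hvecmem w hw _ (hNs k)) h0'
    rw [hy]
    simp only
    rw [h1, hvec, Fin.tail_cons, Fin.cons_zero]
  have hyinj : Function.Injective y := by
    intro k l hkl
    have h1 : lam (y k) = lam (y l) := by rw [hkl]
    rw [hyl, hyl] at h1
    refine hη3 (Fin.tail w) (tail_mem_ball hA hw) (w 0) ?_ hw0 h1
    change ‖w 0‖ ^ N < A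
    rw [← norm_pow]
    exact hpowlt hN (zero_lt_of_mem h0 hA hw)
  obtain ⟨x, hx⟩ := h.enum z hzmem hzθ
  refine ⟨hyinj, fun p => ⟨?_, fun hp => ?_⟩⟩
  · rintro ⟨k, rfl⟩
    exact hyV k
  · -- counting
    have h1 : ∀ k, ∃ l, x l = y k := fun k => (hx.2 (y k)).2 (hyV k)
    choose f hf using h1
    have hfinj : Function.Injective f := by
      intro k l hkl
      exact hyinj (by rw [← hf k, ← hf l, hkl])
    have hfsurj := Finite.surjective_of_injective hfinj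
    obtain ⟨l, hl⟩ := (hx.2 p).2 hp
    obtain ⟨k, rfl⟩ := hfsurj l
    exact ⟨k, by rw [← hf k, hl]⟩

end Vale.Agent.P277.TX
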