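import Vale.Agent.P277.H622.B2
import Vale.Agent.P277.H73.IFT
import Vale.Agent.P277.Stmts6

/-!
# P277, CONN: complements of thin subsets of connected hypersurfaces
-/

open scoped Manifold ContDiff Topology
open Vale.Agent.P272.K Vale.Agent.P285.H281.FD Set Filter Metric

noncomputable section

namespace Vale.Agent.P277.H884

theorem ball_cons {n : ℕ} {c x : Cm n} {a : ℂ} {r : ℝ} (hr : 0 < r) :
    (Fin.cons a x : Cm (n + 1)) ∈ ball (Fin.cons 0 c : Cm (n + 1)) r ↔ ‖a‖ < r ∧ x ∈ ball c r := by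
  rw [mem_ball, mem_ball, dist_pi_lt_iff hr, dist_pi_lt_iff hr, Fin.forall_fin_succ]
  simp only [Fin.cons_zero, Fin.cons_succ, dist_zero_right]

theorem continuous_cons {n : ℕ} : Continuous fun p : ℂ × Cm n => (Fin.cons p.1 p.2 : Cm (n + 1)) := by
  refine continuous_pi fun i => ?_
  refine Fin.cases ?_ (fun j => ?_) i
  · simpa using continuous_fst
  · simp only [Fin.cons_succ]; fun_prop

theorem continuous_tail {n : ℕ} : Continuous fun z : Cm (n + 1) => (Fin.tail z : Cm n) :=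
  continuous_pi fun i => continuous_apply i.succ

/-- `StB2` in dimension three. -/
theorem b2_three {c : Cm 3} {r : ℝ} {W : ℕ → Set (Cm 2)} {g : ℕ → Cm 2 → Cm 3} (hr : 0 < r)
    (hW : ∀ k, IsOpen (W k)) (hg : ∀ k, ContDiffOn ℝ 1 (g k) (W k)) :
    IsPreconnected (ball c r \ ⋃ k, g k '' W k) ∧
      ball c r ⊆ closure (ball c r \ ⋃ k, g k '' W k) := by
  set E := ⋃ k, g k '' W k with hE
  let W' : ℕ → Set (Cm 3) := fun k => {u | Fin.tail u ∈ W k}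
  let g' : ℕ → Cm 3 → Cm 4 := fun k u => Fin.cons (u 0) (g k (Fin.tail u))
  have hW' : ∀ k, IsOpen (W' k) := fun k => (hW k).preimage continuous_tail
  have hg' : ∀ k, ContDiffOn ℝ 1 (g' k) (W' k) := by
    intro k
    have h1 : ContDiffOn ℝ 1 (fun u : Cm 3 => g k (Fin.tail u)) (W' k) := by
      refine (hg k).comp ?_ fun u hu => hu
      exact (contDiff_pi.2 fun i : Fin 2 => contDiff_apply ℝ ℂ i.succ).contDiffOn
    refine contDiffOn_pi.2 fun i => ?_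
    refine Fin.cases ?_ (fun j => ?_) i
    · exact (contDiff_apply ℝ ℂ 0).contDiffOn
    · exact (contDiffOn_pi.1 h1) j
  obtain ⟨h1, h2⟩ := H622.stB2 (Fin.cons 0 c) r W' g' hr hW' hg'
  have hE' : ∀ z : Cm 4, z ∈ (⋃ k, g' k '' W' k) ↔ Fin.tail z ∈ E := by
    intro z
    constructor
    · intro hz
      obtain ⟨k, u, hu, rfl⟩ := mem_iUnion.1 hz
      exact mem_iUnion.2 ⟨k, Fin.tail u, hu, rfl⟩
    · intro hz
      obtain ⟨k, p, hp, hpz⟩ := mem_iUnion.1 hz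
      refine mem_iUnion.2 ⟨k, Fin.cons (z 0) p, hp, ?_⟩
      show Fin.cons (z 0) (g k p) = z
      rw [hpz, Fin.cons_self_tail]
  have himg : Fin.tail '' (ball (Fin.cons 0 c : Cm 4) r \ ⋃ k, g' k '' W' k) = ball c r \ E := by
    ext x
    constructor
    · rintro ⟨z, ⟨hz1, hz2⟩, rfl⟩
      rw [← Fin.cons_self_tail z, ball_cons hr] at hz1
      exact ⟨hz1.2, fun h => hz2 ((hE' z).2 h)⟩
    · rintro ⟨hx1, hx2⟩
      refine ⟨Fin.cons 0 x, ⟨(ball_cons hr).2 ⟨by simpa using hr, hx1⟩, fun h => hx2 ?_⟩, rfl⟩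
      exact (hE' _).1 h
  constructor
  · rw [← himg]
    exact h1.image _ continuous_tail.continuousOn
  · intro x hx
    have h3 : (Fin.cons 0 x : Cm 4) ∈ closure (ball (Fin.cons 0 c : Cm 4) r \ ⋃ k, g' k '' W' k) :=
      h2 ((ball_cons hr).2 ⟨by simpa using hr, hx⟩)
    have h4 := image_closure_subset_closure_image continuous_tail
      (mem_image_of_mem Fin.tail h3)
    rw [himg] at h4
    exact h4

variable {Y : Type} [TopologicalSpace Y] [ChartedSpace (Cm 4) Y]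

/-- local statement -/
theorem local_conn {G B : Set Y} {ξ : Cm 4 → Y} {w₀ : Cm 4} {r : ℝ} (h : T2.IsPar G ξ w₀ r)
    (hB : T2.ThinY (G ∩ B)) :
    IsPreconnected (ξ '' ball w₀ r ∩ (G \ B)) ∧
      ξ '' ball w₀ r ∩ G ⊆ closure (ξ '' ball w₀ r ∩ (G \ B)) := by
  classical
  obtain ⟨Ω, g, hΩ, hg, hcov⟩ := hB
  set σ : Y → Cm 4 := Function.invFunOn ξ (ball w₀ r) with hσ
  have hσξ : ∀ w ∈ ball w₀ r, σ (ξ w) = w := fun w hw => h.inj.leftInvOn_invFunOn hw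
  have hNo : IsOpen (ξ '' ball w₀ r) := h.openMap _ Subset.rfl isOpen_ball
  have hσc : ∀ w ∈ ball w₀ r, ContinuousAt σ (ξ w) := by
    intro w hw T hT
    rw [hσξ w hw] at hT
    obtain ⟨T', hT'T, hT'o, hwT'⟩ := _root_.mem_nhds_iff.1 (inter_mem hT (isOpen_ball.mem_nhds hw))
    have h1 : ξ '' T' ∈ 𝓝 (ξ w) :=
      (h.openMap T' (fun z hz => (hT'T hz).2) hT'o).mem_nhds ⟨w, hwT', rfl⟩
    refine mem_map.2 (mem_of_superset h1 ?_)
    rintro _ ⟨z, hz, rfl⟩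
    rw [mem_preimage, hσξ z (hT'T hz).2]
    exact (hT'T hz).1
  let W : ℕ → Set (Cm 2) := fun k => {p | p ∈ Ω k ∧ g k p ∈ ξ '' ball w₀ r}
  let g' : ℕ → Cm 2 → Cm 3 := fun k p => Fin.tail (σ (g k p))
  have hW : ∀ k, IsOpen (W k) := by
    intro k
    rw [isOpen_iff_eventually]
    rintro p ⟨hp1, hp2⟩
    exact ((hΩ k).eventually_mem hp1).and ((hg k p hp1).1.eventually (hNo.mem_nhds hp2))
  have han : ∀ k, ∀ p ∈ W k, AnalyticAt ℂ (fun p => σ (g k p)) p := by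
    rintro k p ⟨hp1, w, hw, hwp⟩
    set e : Chart 4 Y := chartAt (Cm 4) (ξ w) with he
    have heA : At e (ξ w) := ⟨chart_mem_atlas _ _, mem_chart_source _ _⟩
    obtain ⟨h1, h2⟩ := h.an w hw e heA
    have h3 : Function.Injective (fderiv ℂ (fun w => e (ξ w)) w) := by
      have h4 := LinearMap.isUnit_iff_isUnit_det
        (fderiv ℂ (fun w => e (ξ w)) w : Cm 4 →ₗ[ℂ] Cm 4)
      have h5 : IsUnit (fderiv ℂ (fun w => e (ξ w)) w : Cm 4 →ₗ[ℂ] Cm 4) :=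
        h4.2 (isUnit_iff_ne_zero.2 h2)
      exact ((Module.End.isUnit_iff _).1 h5).injective
    obtain ⟨E, hE, hwE, -, hEs⟩ := H73.exists_localInv h1 h3
    have h4 : ContinuousAt (fun p => σ (g k p)) p := by
      have h5 : ContinuousAt σ (g k p) := by rw [← hwp]; exact hσc w hw
      exact ContinuousAt.comp (g := σ) h5 (hg k p hp1).1
    have h5 : σ (g k p) = w := by rw [← hwp, hσξ w hw]
    have h6 : AnalyticAt ℂ (fun p => e (g k p)) p := (hg k p hp1).2 e (by rw [← hwp]; exact heA)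
    have h7 : AnalyticAt ℂ (fun p => E.symm (e (g k p))) p := by
      refine AnalyticAt.fun_comp (g := E.symm) (f := fun p => e (g k p)) (hEs _ ?_) h6
      rw [← hwp]
      have := E.map_source hwE
      rwa [hE] at this
    refine h7.congr ?_
    have h8 : ∀ᶠ q in 𝓝 p, σ (g k q) ∈ E.source := by
      refine h4.eventually_mem ?_
      rw [h5]
      exact E.open_source.mem_nhds hwE
    filter_upwards [h8, (hW k).mem_nhds ⟨hp1, w, hw, hwp⟩] with q hq1 hq2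
    obtain ⟨-, w', hw', hwq⟩ := hq2
    have h9 : σ (g k q) = w' := by rw [← hwq, hσξ w' hw']
    rw [h9] at hq1 ⊢
    have h10 := E.left_inv hq1
    rw [hE] at h10
    rw [← hwq]
    exact h10
  have hg' : ∀ k, ContDiffOn ℝ 1 (g' k) (W k) := by
    intro k p hp
    have h1 : AnalyticAt ℂ (g' k) p := by
      refine AnalyticAt.pi fun i => ?_
      exact ((ContinuousLinearMap.proj (R := ℂ) (φ := fun _ : Fin 4 => ℂ)
        i.succ).analyticAt _).comp (han k p hp)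
    exact (h1.restrictScalars (𝕜 := ℝ)).contDiffAt.contDiffWithinAt
  obtain ⟨h1, h2⟩ := b2_three (c := Fin.tail w₀) (r := r) h.pos hW hg'
  set j : Cm 3 → Y := fun u => ξ (Fin.cons 0 u) with hj
  have hw₀ : (Fin.cons 0 (Fin.tail w₀) : Cm 4) = w₀ := by
    rw [← h.zero, Fin.cons_self_tail]
  have hjb : ∀ u ∈ ball (Fin.tail w₀) r, (Fin.cons 0 u : Cm 4) ∈ ball w₀ r := by
    intro u hu
    rw [← hw₀, ball_cons h.pos]
    exact ⟨by simpa using h.pos, hu⟩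
  have hjc : ContinuousOn j (ball (Fin.tail w₀) r) := by
    intro u hu
    have h3 : Continuous fun u : Cm 3 => (Fin.cons 0 u : Cm 4) :=
      continuous_cons.comp (by fun_prop : Continuous fun u : Cm 3 => ((0 : ℂ), u))
    exact (ContinuousAt.comp (g := ξ) (h.cont _ (hjb u hu)) h3.continuousAt).continuousWithinAt
  set S : Set (Cm 3) := {u | u ∈ ball (Fin.tail w₀) r ∧ j u ∉ B} with hS
  have hsub1 : ball (Fin.tail w₀) r \ ⋃ k, g' k '' W k ⊆ S := by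
    rintro u ⟨hu1, hu2⟩
    refine ⟨hu1, fun huB => hu2 ?_⟩
    have h3 : j u ∈ G := (h.mem _ (hjb u hu1)).2 rfl
    obtain ⟨k, p, hp, hpu⟩ := mem_iUnion.1 (hcov ⟨h3, huB⟩)
    refine mem_iUnion.2 ⟨k, p, ⟨hp, _, hjb u hu1, hpu.symm⟩, ?_⟩
    show Fin.tail (σ (g k p)) = u
    rw [hpu, hj, hσξ _ (hjb u hu1), Fin.tail_cons]
  have hsub2 : S ⊆ closure (ball (Fin.tail w₀) r \ ⋃ k, g' k '' W k) := fun u hu => h2 hu.1
  have hSc : IsPreconnected S := h1.subset_closure hsub1 hsub2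
  have himg : ξ '' ball w₀ r ∩ (G \ B) = j '' S := by
    ext y
    constructor
    · rintro ⟨⟨w, hw, rfl⟩, hyG, hyB⟩
      have h3 : w 0 = 0 := (h.mem w hw).1 hyG
      have h4 : (Fin.cons 0 (Fin.tail w) : Cm 4) = w := by rw [← h3, Fin.cons_self_tail]
      refine ⟨Fin.tail w, ⟨?_, ?_⟩, ?_⟩
      · rw [← h4, ← hw₀, ball_cons h.pos] at hw
        exact hw.2
      · show ξ (Fin.cons 0 (Fin.tail w)) ∉ B
        rw [h4]; exact hyB
      · show ξ (Fin.cons 0 (Fin.tail w)) = ξ w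
        rw [h4]
    · rintro ⟨u, ⟨hu1, hu2⟩, rfl⟩
      exact ⟨⟨_, hjb u hu1, rfl⟩, (h.mem _ (hjb u hu1)).2 rfl, hu2⟩
  constructor
  · rw [himg]
    exact hSc.image j (hjc.mono fun u hu => hu.1)
  · rintro y ⟨⟨w, hw, rfl⟩, hyG⟩
    have h3 : w 0 = 0 := (h.mem w hw).1 hyG
    have h4 : (Fin.cons 0 (Fin.tail w) : Cm 4) = w := by rw [← h3, Fin.cons_self_tail]
    have h5 : Fin.tail w ∈ ball (Fin.tail w₀) r := by
      rw [← h4, ← hw₀, ball_cons h.pos] at hw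
      exact hw.2
    rw [himg]
    have h6 : Fin.tail w ∈ closure S := closure_mono hsub1 (h2 h5)
    have h7 : j (Fin.tail w) ∈ closure (j '' S) :=
      (hjc.continuousAt (isOpen_ball.mem_nhds h5)).continuousWithinAt.mem_closure_image h6
    have h8 : j (Fin.tail w) = ξ w := by rw [hj]; simp only [h4]
    rwa [h8] at h7

theorem stConn : T2.StConn := by
  intro Y _ _ _ _ _ G hG hGc B hB
  have hloc : ∀ y ∈ G, ∃ N : Set Y, IsOpen N ∧ y ∈ N ∧ IsPreconnected (N ∩ (G \ B)) ∧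
      N ∩ G ⊆ closure (N ∩ (G \ B)) := by
    intro y hy
    obtain ⟨ξ, w₀, r, h, hξ⟩ := hG y hy
    exact ⟨ξ '' ball w₀ r, h.openMap _ Subset.rfl isOpen_ball, ⟨w₀, mem_ball_self h.pos, hξ⟩,
      local_conn h hB⟩
  have hdense : G ⊆ closure (G \ B) := by
    intro y hy
    obtain ⟨N, -, hyN, -, hcl⟩ := hloc y hy
    exact closure_mono inter_subset_right (hcl ⟨hyN, hy⟩)
  refine ⟨hdense, fun _ => ?_⟩
  intro U₁ U₂ hU₁ hU₂ hsub hne₁ hne₂
  by_contra hcon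
  rw [not_nonempty_iff_eq_empty] at hcon
  let O : Set Y → Set Y := fun U => {y | ∃ N : Set Y, IsOpen N ∧ y ∈ N ∧ N ∩ (G \ B) ⊆ U}
  have hO : ∀ U, IsOpen (O U) := by
    intro U
    rw [isOpen_iff_forall_mem_open]
    rintro y ⟨N, hN, hyN, hNU⟩
    exact ⟨N, fun z hz => ⟨N, hN, hz, hNU⟩, hN, hyN⟩
  have hcov : G ⊆ O U₁ ∪ O U₂ := by
    intro y hy
    obtain ⟨N, hN, hyN, hNc, -⟩ := hloc y hy
    by_cases h1 : (N ∩ (G \ B) ∩ U₁).Nonempty
    · by_cases h2 : (N ∩ (G \ B) ∩ U₂).Nonempty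
      · obtain ⟨z, hz1, hz2, hz3⟩ := hNc U₁ U₂ hU₁ hU₂ (fun z hz => hsub hz.2) h1 h2
        exact ((hcon ▸ (⟨hz1.2, hz2, hz3⟩ : z ∈ G \ B ∩ (U₁ ∩ U₂)) : z ∈ (∅ : Set Y))).elim
      · refine Or.inl ⟨N, hN, hyN, fun z hz => ?_⟩
        rcases hsub hz.2 with h3 | h3
        · exact h3
        · exact (h2 ⟨z, hz, h3⟩).elim
    · refine Or.inr ⟨N, hN, hyN, fun z hz => ?_⟩
      rcases hsub hz.2 with h3 | h3
      · exact (h1 ⟨z, hz, h3⟩).elim
      · exact h3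
  have hmem : ∀ U, ∀ y ∈ G \ B, y ∈ O U → y ∈ U := by
    rintro U y hy ⟨N, -, hyN, hNU⟩
    exact hNU ⟨hyN, hy⟩
  obtain ⟨y₁, hy₁, hy₁U⟩ := hne₁
  obtain ⟨y₂, hy₂, hy₂U⟩ := hne₂
  have h1 : (G ∩ O U₁).Nonempty := by
    refine ⟨y₁, hy₁.1, ?_⟩
    rcases hcov hy₁.1 with h | h
    · exact h
    · exact ((hcon ▸ (⟨hy₁, hy₁U, hmem U₂ y₁ hy₁ h⟩ : y₁ ∈ G \ B ∩ (U₁ ∩ U₂)) :
        y₁ ∈ (∅ : Set Y))).elim
  have h2 : (G ∩ O U₂).Nonempty := by
    refine ⟨y₂, hy₂.1, ?_⟩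
    rcases hcov hy₂.1 with h | h
    · exact ((hcon ▸ (⟨hy₂, hmem U₁ y₂ hy₂ h, hy₂U⟩ : y₂ ∈ G \ B ∩ (U₁ ∩ U₂)) :
        y₂ ∈ (∅ : Set Y))).elim
    · exact h
  obtain ⟨y, hyG, ⟨N, hN, hyN, hNU⟩, N', hN', hyN', hNU'⟩ := hGc _ _ (hO U₁) (hO U₂) hcov h1 h2
  obtain ⟨z, ⟨hz1, hz2⟩, hz3⟩ := mem_closure_iff.1 (hdense hyG) (N ∩ N') (hN.inter hN') ⟨hyN, hyN'⟩
  exact ((hcon ▸ (⟨hz3, hNU ⟨hz1, hz3⟩, hNU' ⟨hz2, hz3⟩⟩ : z ∈ G \ B ∩ (U₁ ∩ U₂)) :
        z ∈ (∅ : Set Y))).elim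

end Vale.Agent.P277.H884
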