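import Vale.Agent.P277.H884.Amp

/-!
# P277, TB: lifting maps through the closed embedding given by a relatively ample bundle
-/

open scoped Manifold ContDiff Topology
open Vale.Agent.P272.K Vale.Agent.P285.H281.FD Set Filter

noncomputable section

namespace Vale.Agent.P277.H884

variable {X Z X' : CSp} {f : X.pt → Z.pt} {A : Set Z.pt}

/-- `x` is the point over `ζ w` with homogeneous coordinates `G w`. -/
def Lies (f : X.pt → Z.pt) (L : Bd X.pt) {N : ℕ} (s : Fin (N + 1) → L.ι → X.pt → ℂ) {d : ℕ}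
    (ζ : Cm d → Z.pt) (G : Fin (N + 1) → Cm d → ℂ) (i₁ : Fin (N + 1)) (w : Cm d) (x : X.pt) : Prop :=
  f x = ζ w ∧ ∀ a, x ∈ L.U a → ∀ i, s i a x * G i₁ w = s i₁ a x * G i w

theorem Lies.ne_zero {L : Bd X.pt} {V : Set Z.pt} {k N : ℕ} {s : Fin (N + 1) → L.ι → X.pt → ℂ}
    (h : Amp X Z f L V k N s) {d : ℕ} {ζ : Cm d → Z.pt} {G : Fin (N + 1) → Cm d → ℂ}
    {i₁ : Fin (N + 1)} {w : Cm d} {x : X.pt} (hx : Lies f L s ζ G i₁ w x) (hV : ζ w ∈ V)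
    (hG : G i₁ w ≠ 0) {a : L.ι} (ha : x ∈ L.U a) : s i₁ a x ≠ 0 := by
  intro h0
  obtain ⟨l, hl⟩ := h.nz x a (by rw [hx.1]; exact hV) ha
  have h1 := hx.2 a ha l
  rw [h0, zero_mul] at h1
  exact (mul_ne_zero hl hG) h1

theorem Lies.unique {L : Bd X.pt} (hL : IsLBx X L) {V : Set Z.pt} {k N : ℕ}
    {s : Fin (N + 1) → L.ι → X.pt → ℂ} (h : Amp X Z f L V k N s) {d : ℕ} {ζ : Cm d → Z.pt}
    {G : Fin (N + 1) → Cm d → ℂ} {i₁ : Fin (N + 1)} {w : Cm d} {x x' : X.pt}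
    (hx : Lies f L s ζ G i₁ w x) (hx' : Lies f L s ζ G i₁ w x') (hV : ζ w ∈ V)
    (hG : G i₁ w ≠ 0) : x' = x := by
  by_contra hne
  obtain ⟨i, hi⟩ := hL.cover x
  obtain ⟨j, hj⟩ := hL.cover x'
  obtain ⟨l, m, hlm⟩ := h.sep x x' i j (by rw [hx.1]; exact hV) (by rw [hx.1, hx'.1]) hne hi hj
  have h1 := hx.2 i hi l
  have h2 := hx.2 i hi m
  have h3 := hx'.2 j hj l
  have h4 := hx'.2 j hj m
  refine hlm (mul_right_cancel₀ (mul_ne_zero hG hG) ?_)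
  calc s l i x * s m j x' * (G i₁ w * G i₁ w) = (s l i x * G i₁ w) * (s m j x' * G i₁ w) := by ring
    _ = (s m i x * G i₁ w) * (s l j x' * G i₁ w) := by rw [h1, h2, h3, h4]; ring
    _ = _ := by ring

theorem Lies.closed {L : Bd X.pt} {V : Set Z.pt} {k N : ℕ} {s : Fin (N + 1) → L.ι → X.pt → ℂ}
    (h : Amp X Z f L V k N s) (hf : Continuous f) (hL : IsLBx X L) {d : ℕ} {ζ : Cm d → Z.pt}
    {G : Fin (N + 1) → Cm d → ℂ} {i₁ : Fin (N + 1)} {w : Cm d} (hζ : ContinuousAt ζ w)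
    (hV : ζ w ∈ V) (hG : ∀ i, ContinuousAt (G i) w) {U : Ultrafilter (Cm d)} (hU : ↑U ≤ 𝓝 w)
    {ξ : Cm d → X.pt} (hξ : ∀ᶠ v in (U : Filter (Cm d)), Lies f L s ζ G i₁ v (ξ v)) {x : X.pt}
    (hx : Tendsto ξ U (𝓝 x)) : Lies f L s ζ G i₁ w x := by
  have h1 : f x = ζ w := by
    have h2 : Tendsto (fun v => f (ξ v)) U (𝓝 (f x)) := (hf.tendsto x).comp hx
    have h3 : Tendsto ζ U (𝓝 (ζ w)) := hζ.mono_left hU
    refine tendsto_nhds_unique h2 (h3.congr' ?_)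
    filter_upwards [hξ] with v hv using hv.1.symm
  refine ⟨h1, fun a ha i => ?_⟩
  have hs : ∀ i, Tendsto (fun v => s i a (ξ v)) U (𝓝 (s i a x)) := fun i =>
    (hol_continuousAt ((h.sec i).holo a x (by rw [mem_preimage, h1]; exact hV) ha)).tendsto.comp hx
  have hG' : ∀ i, Tendsto (G i) U (𝓝 (G i w)) := fun i => (hG i).mono_left hU
  refine tendsto_nhds_unique ((hs i).mul (hG' i₁)) (((hs i₁).mul (hG' i)).congr' ?_)
  filter_upwards [hξ, hx.eventually ((hL.isOpen a).mem_nhds ha)] with v hv hv'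
  exact (hv.2 a hv' i).symm

/-- Lifting a map through the closed embedding `f⁻¹ V → V × ℙ^N`. -/
theorem exists_lift [Nonempty X.pt] {L : Bd X.pt} {V : Set Z.pt} {k N : ℕ}
    {s : Fin (N + 1) → L.ι → X.pt → ℂ}
    (h : Amp X Z f L V k N s) (hf : Continuous f) (hL : IsLBx X L) {d : ℕ} {B D : Set (Cm d)}
    (hB : IsOpen B) {ζ : Cm d → Z.pt} (hζ : ∀ w ∈ B, HolAt Z ζ w) (hV : ∀ w ∈ B, ζ w ∈ V)
    {G : Fin (N + 1) → Cm d → ℂ} (hG : ∀ i, ∀ w ∈ B, AnalyticAt ℂ (G i) w) {i₁ : Fin (N + 1)}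
    (hG₁ : ∀ w ∈ B, G i₁ w ≠ 0) (hD : B ⊆ closure D)
    (hDL : ∀ w ∈ B, w ∈ D → ∃ x, Lies f L s ζ G i₁ w x) :
    ∃ γ : Cm d → X.pt, ∀ w ∈ B, HolAt X γ w ∧ Lies f L s ζ G i₁ w (γ w) := by
  classical
  have hlim : ∀ (U : Ultrafilter (Cm d)) (ξ : Cm d → X.pt), ∃ x, Tendsto ξ U (𝓝 x) := by
    intro U ξ
    obtain ⟨x, -, hx⟩ := isCompact_univ.ultrafilter_le_nhds (U.map ξ) (by simp)
    exact ⟨x, hx⟩
  have hex : ∀ w ∈ B, ∃ x, Lies f L s ζ G i₁ w x := by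
    intro w hw
    choose! ξ hξ using hDL
    have h1 : (𝓝[D ∩ B] w).NeBot := by
      rw [← mem_closure_iff_nhdsWithin_neBot]
      rw [mem_closure_iff_nhds]
      intro T hT
      obtain ⟨v, hv, hvD⟩ := mem_closure_iff_nhds.1 (hD hw) _ (inter_mem hT (hB.mem_nhds hw))
      exact ⟨v, hv.1, hvD, hv.2⟩
    obtain ⟨U, hU⟩ := Ultrafilter.exists_le (𝓝[D ∩ B] w)
    obtain ⟨x, hx⟩ := hlim U ξ
    refine ⟨x, Lies.closed h hf hL (hζ w hw).1 (hV w hw) (fun i => (hG i w hw).continuousAt)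
      (hU.trans nhdsWithin_le_nhds) (ξ := ξ) ?_ hx⟩
    have h2 : ∀ᶠ v in (U : Filter (Cm d)), v ∈ D ∩ B := hU self_mem_nhdsWithin
    filter_upwards [h2] with v hv using hξ v hv.2 hv.1
  choose! γ hγ using hex
  have hcont : ∀ w ∈ B, ContinuousAt γ w := by
    intro w hw
    rw [ContinuousAt, tendsto_iff_ultrafilter]
    intro U hU
    obtain ⟨x, hx⟩ := hlim U γ
    have h1 : Lies f L s ζ G i₁ w x := by
      refine Lies.closed h hf hL (hζ w hw).1 (hV w hw) (fun i => (hG i w hw).continuousAt)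
        hU (ξ := γ) ?_ hx
      have h2 : ∀ᶠ v in (U : Filter (Cm d)), v ∈ B := hU (hB.mem_nhds hw)
      filter_upwards [h2] with v hv using hγ v hv
    rwa [← Lies.unique hL h (hγ w hw) h1 (hV w hw) (hG₁ w hw)]
  refine ⟨γ, fun w hw => ⟨⟨hcont w hw, fun g hg => ?_⟩, hγ w hw⟩⟩
  obtain ⟨a, ha⟩ := hL.cover (γ w)
  have hfV : f (γ w) ∈ V := by rw [(hγ w hw).1]; exact hV w hw
  have hs₁ : s i₁ a (γ w) ≠ 0 := (hγ w hw).ne_zero h (hV w hw) (hG₁ w hw) ha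
  obtain ⟨M, b, Φ, hb, hΦ, hgΦ⟩ := h.emb (γ w) a i₁ hfV ha hs₁ g hg
  have hev : g ∘ γ =ᶠ[𝓝 w] fun v => Φ (fun c => b c (ζ v), fun m => G m v / G i₁ v) := by
    filter_upwards [(hcont w hw).eventually hgΦ, hB.mem_nhds hw,
      (hcont w hw).eventually ((hL.isOpen a).mem_nhds ha)] with v h1 h2 h3
    have h4 : ∀ m, s m a (γ v) / s i₁ a (γ v) = G m v / G i₁ v := by
      intro m
      have h5 := (hγ v h2).ne_zero h (hV v h2) (hG₁ v h2) h3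
      rw [div_eq_div_iff h5 (hG₁ v h2), (hγ v h2).2 a h3 m, mul_comm]
    simp only [Function.comp, h1, h4, (hγ v h2).1]
  have hval : ((fun c => b c (f (γ w)), fun m => s m a (γ w) / s i₁ a (γ w)) :
      Cm M × Cm (N + 1)) = (fun c => b c (ζ w), fun m => G m w / G i₁ w) := by
    have h4 : ∀ m, s m a (γ w) / s i₁ a (γ w) = G m w / G i₁ w := by
      intro m
      rw [div_eq_div_iff hs₁ (hG₁ w hw), (hγ w hw).2 a ha m, mul_comm]
    simp only [h4, (hγ w hw).1]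
  rw [hval] at hΦ
  refine AnalyticAt.congr ?_ hev.symm
  refine AnalyticAt.fun_comp (g := Φ) (f := fun v => ((fun c => b c (ζ v), fun m => G m v / G i₁ v) :
      Cm M × Cm (N + 1))) hΦ ?_
  refine AnalyticAt.prod (AnalyticAt.pi fun c => ?_) (AnalyticAt.pi fun m => ?_)
  · exact (hζ w hw).analyticAt (by rw [← (hγ w hw).1]; exact hb c)
  · exact (hG m w hw).fun_div (hG i₁ w hw) (hG₁ w hw)

end Vale.Agent.P277.H884
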