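import Vale.Agent.P277.H884.Lift
import Vale.Agent.P277.H884.Div
import Vale.Agent.P277.A.Emb
import Vale.Agent.P277.Stmts6

/-!
# P277, L0: lifting wedges to the resolution
-/

open scoped Manifold ContDiff Topology
open Vale.Agent.P272.K Vale.Agent.P285.H281.FD Set Filter

noncomputable section

namespace Vale.Agent.P277.H884

theorem isSecx_inv_inv {X : CSp} {P : Bd X.pt} {V : Set X.pt} {k : ℕ} {s : P.ι → X.pt → ℂ}
    (hs : IsSecx X V (P.pow k) s) : IsSecx X V ((Bd.inv (Bd.inv P)).pow k) s where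
  holo i x hx hi := hs.holo i x hx hi
  change i j x hx hi hj := by
    change s i x = ((P.g i j x)⁻¹)⁻¹ ^ k * s j x
    rw [inv_inv]
    exact hs.change i j x hx hi hj

theorem isLBx_inv {X : CSp} {P : Bd X.pt} (h : IsLBx X P) : IsLBx X (Bd.inv P) where
  isOpen := h.isOpen
  cover := h.cover
  holo i j x hi hj := hol_inv (h.holo i j x hi hj) (h.ne_zero i j x hi hj)
  ne_zero i j x hi hj := inv_ne_zero (h.ne_zero i j x hi hj)
  cocycle i j k x hi hj hk := by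
    change (P.g i j x)⁻¹ * (P.g j k x)⁻¹ = (P.g i k x)⁻¹
    rw [← h.cocycle i j k x hi hj hk, mul_inv]

/-- functions on `p⁻¹ V` come from functions on `V` -/
theorem descend_res {Y : Type} [TopologicalSpace Y] [ChartedSpace (Cm 4) Y] {W X : CSp}
    (hX : IsNormal 4 X) {r : ℕ} {v : Y → W.pt} {p : W.pt → X.pt} {P : Bd W.pt}
    {G : Fin r → Set Y} (hp : T2.IsRes v p P G) {V : Set X.pt} (hV : IsOpen V) {F : W.pt → ℂ}
    (hF : ∀ x, p x ∈ V → W.Hol F x) :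
    ∃ g : X.pt → ℂ, (∀ z ∈ V, X.Hol g z) ∧ ∀ y ∉ ⋃ l, G l, p (v y) ∈ V → g (p (v y)) = F (v y) := by
  set sec : X.pt → W.pt := Function.surjInv hp.psurj with hsec
  have hpsec : ∀ z, p (sec z) = z := Function.surjInv_eq hp.psurj
  have hsecv : ∀ y ∉ ⋃ l, G l, sec (p (v y)) = v y := fun y hy => hp.inj y _ hy (hpsec _)
  set T : Set X.pt := (fun y => p (v y)) '' ⋃ l, G l with hT
  have hcl : IsClosed (⋃ l, G l) := isClosed_iUnion_of_finite hp.closed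
  have hvinj : Function.Injective v := injOn_univ.1 hp.emb.inj
  have hnT : ∀ y ∉ ⋃ l, G l, p (v y) ∉ T := by
    rintro y hy ⟨y', hy', hyy'⟩
    have h1 := hp.inj y (v y') hy hyy'
    exact hy (hvinj h1 ▸ hy')
  have hcase : ∀ z, z ∉ T → ∃ y ∉ ⋃ l, G l, p (v y) = z := by
    intro z hz
    obtain ⟨x, rfl⟩ := hp.psurj z
    obtain ⟨y, rfl⟩ := hp.surj x
    exact ⟨y, fun hy => hz ⟨y, hy, rfl⟩, rfl⟩
  have h1 : ∀ z ∈ V \ T, X.Hol (F ∘ sec) z := by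
    rintro z ⟨hzV, hzT⟩
    obtain ⟨y, hy, rfl⟩ := hcase z hzT
    have he : At (chartAt (Cm 4) y) y := ⟨chart_mem_atlas _ _, mem_chart_source _ _⟩
    set e : Chart 4 Y := chartAt (Cm 4) y
    refine (hp.emb'.hol_iff hy he).2 ?_
    refine ((hp.emb.hol_iff (mem_univ y) he).1 (hF _ hzV)).congr ?_
    have h2 : ∀ᶠ z in 𝓝 (e y), e.symm z ∈ (⋃ l, G l)ᶜ := by
      refine (e.continuousAt_symm (e.map_source he.2)).eventually_mem ?_
      rw [e.left_inv he.2]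
      exact hcl.isOpen_compl.mem_nhds hy
    filter_upwards [h2] with z hz
    simp only [Function.comp]
    rw [hsecv _ hz]
  obtain ⟨g, hg, hg'⟩ := hX.ext V T hV (hp.an.mono (subset_univ V)) (hp.dim.mono inter_subset_right)
    _ h1
  exact ⟨g, hg, fun y hy hyV => by rw [hg' _ ⟨hyV, hnT y hy⟩]; simp only [Function.comp, hsecv y hy]⟩

theorem stL0 : T2.StL0 := by
  intro Y _ _ _ _ _ W X hX r v p P Gd hp B₀ hB₀ w₀ hw₀ hw00 γ hγ hdense
  set L := Bd.inv P with hLdef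
  have hL : IsLBx W L := isLBx_inv hp.lb
  obtain ⟨V₁, k, N, s, hV₁, hzV₁, hk, hs, hsnz, hssep, hsemb⟩ := hp.ample (γ w₀)
  obtain ⟨V₂, τ, hV₂, hzV₂, hτ, hτne⟩ := hp.eff (γ w₀)
  set V := V₁ ∩ V₂ with hVdef
  have hV : IsOpen V := hV₁.inter hV₂
  have hAmp : Amp W X p L V k N s :=
    (⟨fun l => isSecx_inv_inv (hs l), hsnz, hssep, hsemb⟩ : Amp W X p L V₁ k N s).mono
      inter_subset_left
  have hev : ∀ᶠ w in 𝓝 w₀, w ∈ B₀ ∧ γ w ∈ V :=
    (hB₀.eventually_mem hw₀).and ((hγ w₀ hw₀).1.eventually (hV.mem_nhds ⟨hzV₁, hzV₂⟩))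
  obtain ⟨ρ, hρ, hball⟩ := Metric.eventually_nhds_iff_ball.1 hev
  set B := Metric.ball w₀ ρ with hB
  set R : Set X.pt := (fun y => p (v y)) '' (⋃ l, Gd l)ᶜ with hR
  obtain ⟨w', hw'B, hw'W, hw'R⟩ : ∃ w', w' ∈ B ∧ w' ∈ B₀ ∧ γ w' ∈ R := by
    obtain ⟨v, hv, hv'⟩ := mem_closure_iff_nhds.1 (hdense hw₀) B (Metric.ball_mem_nhds _ hρ)
    exact ⟨v, hv, hv'.1, hv'.2⟩
  -- the functions
  have hfun : ∀ l, ∃ F : W.pt → ℂ, (∀ x ∈ p ⁻¹' V, W.Hol F x) ∧
      ∀ a x, x ∈ p ⁻¹' V → x ∈ L.U a → F x = s l a x * τ a x ^ k := by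
    intro l
    refine glue hL (hV.preimage hp.cont) (fun a x => s l a x * τ a x ^ k) (fun a x hx ha => ?_) ?_
    · exact hol_mul ((hAmp.sec l).holo a x hx ha) (hol_pow (hτ.holo a x hx.2 ha) k)
    · intro a b x hx ha hb
      have h1 : s l a x = (L.g a b x)⁻¹ ^ k * s l b x := (hAmp.sec l).change a b x hx ha hb
      have h2 : τ a x = L.g a b x * τ b x := hτ.change a b x hx.2 ha hb
      have h3 : L.g a b x ≠ 0 := hL.ne_zero a b x ha hb
      rw [h1, h2, mul_pow, inv_pow]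
      field_simp
  choose F hF hF' using hfun
  choose h hh hh' using fun l => descend_res hX hp hV (F := F l) fun x hx => hF l x hx
  set H : Fin (N + 1) → Cm 4 → ℂ := fun l w => h l (γ w) with hHdef
  have hH : ∀ l, ∀ w ∈ B, AnalyticAt ℂ (H l) w := fun l w hw =>
    (hγ w (hball w hw).1).analyticAt (hh l _ (hball w hw).2)
  have hval : ∀ w ∈ B, ∀ y ∉ ⋃ l, Gd l, p (v y) = γ w → ∀ a, v y ∈ L.U a →
      τ a (v y) ≠ 0 ∧ ∀ l, H l w = s l a (v y) * τ a (v y) ^ k := by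
    intro w hw y hy hyw a ha
    have hyV : p (v y) ∈ V := by rw [hyw]; exact (hball w hw).2
    refine ⟨hτne y a hyV.2 hy ha, fun l => ?_⟩
    show h l (γ w) = _
    rw [← hyw, hh' l y hy hyV, hF' l a _ hyV ha]
  obtain ⟨y', hy', hyw'⟩ := hw'R
  obtain ⟨a', ha'⟩ := hL.cover (v y')
  obtain ⟨m, hm⟩ := hAmp.nz (v y') a' (by
    have h1 : p (v y') = γ w' := hyw'
    rw [h1]; exact (hball w' hw'B).2) ha'
  have hHm : H m w' ≠ 0 := by
    obtain ⟨h1, h2⟩ := hval w' hw'B y' hy' hyw' a' ha'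
    rw [h2 m]
    exact mul_ne_zero hm (pow_ne_zero _ h1)
  obtain ⟨κ, G, hG, hHG, i₁, w₁, hw₁B, hw₁0, hGw₁⟩ := exists_div hw00 H
    (fun l w hw => (hH l w hw).differentiableAt.differentiableWithinAt) hw'B hHm
  have hGan : ∀ l, ∀ w ∈ B, AnalyticAt ℂ (G l) w := fun l w hw =>
    P268.analyticAt_of_differentiableOn Metric.isOpen_ball (hG l) hw
  set W₁ : Set (Cm 4) := B ∩ G i₁ ⁻¹' {0}ᶜ with hW₁def
  have hW₁ : IsOpen W₁ :=
    (hG i₁).continuousOn.isOpen_inter_preimage Metric.isOpen_ball isOpen_compl_singleton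
  set D : Set (Cm 4) := {w | γ w ∈ R ∧ H m w ≠ 0} with hDdef
  have hD : W₁ ⊆ closure D := by
    intro w hw
    rw [mem_closure_iff_nhds]
    intro T hT
    by_contra hno
    rw [not_nonempty_iff_eq_empty] at hno
    have hz : H m =ᶠ[𝓝 w] 0 := by
      have hT' : ∀ᶠ v in 𝓝 w, v ∈ T ∧ v ∈ B := inter_mem hT (Metric.isOpen_ball.mem_nhds hw.1)
      filter_upwards [hT'.eventually_nhds] with v hv
      by_contra hHv
      have e1 : ∀ᶠ u in 𝓝 v, H m u ≠ 0 :=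
        (hH m v hv.self_of_nhds.2).continuousAt.eventually_ne hHv
      obtain ⟨u, ⟨hu1, hu2⟩, hu3⟩ := mem_closure_iff_nhds.1
        (hdense (hball v hv.self_of_nhds.2).1) _ (hv.and e1)
      have hu4 : u ∈ T ∩ D := ⟨hu1.1, hu3.2, hu2⟩
      rw [hno] at hu4
      exact hu4
    have h1 : AnalyticOnNhd ℂ (H m) B := hH m
    exact hHm (h1.eqOn_zero_of_preconnected_of_eventuallyEq_zero
      (convex_ball w₀ ρ).isPreconnected hw.1 hz hw'B)
  have hDL : ∀ w ∈ W₁, w ∈ D → ∃ x, Lies p L s γ G i₁ w x := by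
    rintro w ⟨hwB, hwG⟩ ⟨⟨y, hy, hyw⟩, hwH⟩
    refine ⟨v y, hyw, fun a ha i => ?_⟩
    obtain ⟨hτ0, hHv⟩ := hval w hwB y hy hyw a ha
    set x := v y with hx
    have e : ∀ i, w 0 ^ κ * G i w = s i a x * τ a x ^ k := fun i => by
      rw [← hHG i w hwB, hHv i]
    have h0 : w 0 ^ κ ≠ 0 := by
      have h1 : w 0 ^ κ * G m w ≠ 0 := by rw [← hHG m w hwB]; exact hwH
      exact left_ne_zero_of_mul h1
    have hc : τ a x ^ k ≠ 0 := pow_ne_zero _ hτ0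
    refine mul_right_cancel₀ (mul_ne_zero h0 hc) ?_
    calc s i a x * G i₁ w * (w 0 ^ κ * τ a x ^ k)
        = (s i a x * τ a x ^ k) * (w 0 ^ κ * G i₁ w) := by ring
      _ = (w 0 ^ κ * G i w) * (s i₁ a x * τ a x ^ k) := by rw [e i, e i₁]
      _ = _ := by ring
  have : Nonempty W.pt := ⟨v y'⟩
  obtain ⟨ξ, hξ⟩ := exists_lift hAmp hp.cont hL hW₁ (fun w hw => hγ w (hball w hw.1).1)
    (fun w hw => (hball w hw.1).2) (fun l w hw => hGan l w hw.1) (fun w hw => hw.2) hD hDL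
  have hvinv : ∀ x, v (hp.emb.inv y' x) = x := fun x => by
    obtain ⟨y, rfl⟩ := hp.surj x
    exact hp.emb.apply_inv y' ⟨y, mem_univ y, rfl⟩
  refine ⟨w₁, (hball w₁ hw₁B).1, hw₁0, W₁, fun w => hp.emb.inv y' (ξ w), hW₁, ⟨hw₁B, hGw₁⟩,
    fun w hw => (hball w hw.1).1, fun w hw => ⟨?_, ?_, fun e he => ?_⟩⟩
  · obtain ⟨y, hy⟩ := hp.surj (ξ w)
    have h1 := hp.emb.inv_continuousAt y' (mem_univ y)
    rw [hy] at h1
    exact ContinuousAt.comp (g := hp.emb.inv y') h1 (hξ w hw).1.1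
  · show p (v (hp.emb.inv y' (ξ w))) = γ w
    rw [hvinv]
    exact (hξ w hw).2.1
  · refine AnalyticAt.pi fun i => ?_
    have h1 := hp.emb.hol_chart y' (mem_univ _) he i
    have h2 : v (hp.emb.inv y' (ξ w)) = ξ w := hvinv _
    rw [h2] at h1
    exact (hξ w hw).1.analyticAt h1

end Vale.Agent.P277.H884
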