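import Vale.Agent.P277.H884.PL3
import Vale.Agent.P277.H762.L1b
import Vale.Agent.P298.H983.AJ5
import Vale.Agent.P277.H622.B1

/-!
# P277, T3, PLACE: Puiseux places of hypersurfaces along a surface
-/

open Set Filter Metric Topology Polynomial
open Vale.Agent.P298.H983 Vale.Agent.P272.K
open Vale.Agent.P277.H762 (Cv cv_of_local cons3 tl3 cons3_zero tl3_cons3 cons3_tl3 continuous_cons3
  continuous_tl3 analyticAt_tl3 analyticAt_cons3_left analyticAt_cons3_right exists_dir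
  eventually_root_small)

noncomputable section

namespace Vale.Agent.P277.H884.PL

/-- coordinates adapted to a vector -/
theorem exists_coord2 {v : Cm 2} (hv : v ≠ 0) : ∃ L : (ℂ × ℂ) ≃L[ℂ] Cm 2, L (1, 0) = v := by
  have h : Module.finrank ℂ (ℂ × ℂ) = Module.finrank ℂ (Cm 2) := by
    rw [Module.finrank_prod, Module.finrank_self, Module.finrank_fin_fun]
  set L₀ : (ℂ × ℂ) ≃L[ℂ] Cm 2 := ContinuousLinearEquiv.ofFinrankEq h
  have h1 : L₀ (1, 0) ≠ 0 := by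
    rw [Ne, L₀.map_eq_zero_iff]
    intro h2
    have := congrArg Prod.fst h2
    simp at this
  obtain ⟨A, hA⟩ := SeparatingDual.exists_continuousLinearEquiv_apply_eq (R := ℂ) h1 hv
  exact ⟨L₀.trans A, hA⟩

theorem continuous_emb4 : Continuous fun p : Cm 2 × Cm 2 => emb4 p.1 p.2 :=
  differentiable_emb4.continuous

theorem analyticAt_emb4 (p : Cm 2 × Cm 2) :
    AnalyticAt ℂ (fun p : Cm 2 × Cm 2 => emb4 p.1 p.2) p :=
  P268.analyticAt_of_differentiableOn isOpen_univ differentiable_emb4.differentiableOn (mem_univ p)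

/-- the local statement at a point where the order in the direction `v` is constant -/
theorem key_place {σ : Cm 4 → ℂ} {v : Cm 2} (hv : v ≠ 0) {c₁ : Cm 2}
    (hσ : AnalyticAt ℂ σ (emb4 0 c₁)) {b : ℕ} {h : Cm 3 → ℂ} (hh : AnalyticAt ℂ h (cons3 0 c₁))
    (hh0 : h (cons3 0 c₁) ≠ 0)
    (hΦ : ∀ᶠ w in 𝓝 (cons3 0 c₁), σ (emb4 (w 0 • v) (tl3 w)) = w 0 ^ b * h w) :
    ∃ U ∈ 𝓝 c₁, Cv 1 {c | c ∈ U ∧ ¬ T3.PlaceAt σ (emb4 0 c)} := by
  have hB1 : StB1 := H622.stB1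
  obtain ⟨L, hL⟩ := exists_coord2 hv
  have hLt : ∀ t : ℂ, L (t, 0) = t • v := by
    intro t
    have : ((t, 0) : ℂ × ℂ) = t • (1, 0) := by ext <;> simp
    rw [this, map_smul, hL]
  set F : ℂ × (Cm 2 × ℂ) → ℂ := fun z => σ (emb4 (L (z.1, z.2.2)) z.2.1) with hF
  have hL0 : L ((0 : ℂ), (0 : ℂ)) = 0 := L.map_zero
  have hmapa : AnalyticAt ℂ (fun z : ℂ × (Cm 2 × ℂ) => emb4 (L (z.1, z.2.2)) z.2.1) (0, (c₁, 0)) := by
    have h1 : Differentiable ℂ (fun z : ℂ × (Cm 2 × ℂ) => emb4 (L (z.1, z.2.2)) z.2.1) := by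
      refine differentiable_emb4.comp (Differentiable.prodMk ?_ ?_)
      · exact L.differentiable.comp (by fun_prop)
      · fun_prop
    exact P268.analyticAt_of_differentiableOn isOpen_univ h1.differentiableOn (mem_univ _)
  have hFa : AnalyticAt ℂ F (0, (c₁, 0)) :=
    AnalyticAt.comp_of_eq (g := σ) hσ hmapa (by show emb4 (L ((0 : ℂ), (0 : ℂ))) c₁ = _; rw [hL0])
  have hu : AnalyticAt ℂ (fun t => h (cons3 t c₁)) 0 :=
    AnalyticAt.comp_of_eq (g := h) (f := fun t => cons3 t c₁) hh (analyticAt_cons3_left c₁ 0) rfl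
  have hFΦ : ∀ (t : ℂ) (c : Cm 2), F (t, (c, 0)) = σ (emb4 ((cons3 t c) 0 • v) (tl3 (cons3 t c))) := by
    intro t c
    simp only [hF, cons3_zero, tl3_cons3, hLt]
  have hFu : ∀ᶠ t in 𝓝 (0 : ℂ), F (t, (c₁, 0)) = t ^ b * h (cons3 t c₁) := by
    have h1 : Tendsto (fun t => cons3 t c₁) (𝓝 0) (𝓝 (cons3 0 c₁)) :=
      (analyticAt_cons3_left c₁ 0).continuousAt
    filter_upwards [h1.eventually hΦ] with t ht
    rw [hFΦ, ht, cons3_zero]
  obtain ⟨P, w, hP, hPa, hP1, hwa, hw0, hPw⟩ :=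
    Vale.Agent.P267.H823.weierstrass hFa hu hh0 hFu
  have hwne : ∀ᶠ z : ℂ × (Cm 2 × ℂ) in 𝓝 (0, (c₁, 0)), w z ≠ 0 := hwa.continuousAt.eventually_ne hw0
  obtain ⟨ε₁, hε₁, hball₁⟩ := Metric.eventually_nhds_iff_ball.1 (hPw.and hwne)
  obtain ⟨ε₂, hε₂, hball₂⟩ := Metric.eventually_nhds_iff_ball.1
    (hΦ.and (hh.continuousAt.eventually_ne hh0))
  set ε : ℝ := min ε₁ ε₂ with hε
  have hε0 : 0 < ε := lt_min hε₁ hε₂
  -- the domain
  have hdom : ∀ᶠ q : Cm 2 × ℂ in 𝓝 (c₁, 0), (∀ α, (P q).eval α = 0 → ‖α‖ < ε) ∧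
      ∀ i : Fin (b + 1), AnalyticAt ℂ (fun y => (P y).coeff i) q :=
    (eventually_root_small hP (fun i => (hPa i).continuousAt) hP1 hε0).and
      (eventually_all.2 fun i => (hPa i).eventually_analyticAt)
  obtain ⟨A₀, hA₀, hdomb⟩ := Metric.eventually_nhds_iff_ball.1 hdom
  set A : ℝ := min A₀ ε with hA
  have hA0 : 0 < A := lt_min hA₀ hε0
  set V : Set (Cm 2 × ℂ) := ball c₁ A ×ˢ ball 0 A with hV
  have hVo : IsOpen V := isOpen_ball.prod isOpen_ball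
  have hVc : Convex ℝ V := (convex_ball c₁ A).prod (convex_ball 0 A)
  have hVn : V.Nonempty := ⟨(c₁, 0), mem_ball_self hA0, mem_ball_self hA0⟩
  have hVb : V ⊆ ball (c₁, 0) A := by
    rintro ⟨c, s⟩ ⟨h1, h2⟩
    rw [mem_ball, Prod.dist_eq, max_lt_iff]
    exact ⟨h1, h2⟩
  have hPF : PFam V b P := by
    refine ⟨fun q _ => (hP q).1, fun q _ => (hP q).2, fun i => ?_⟩
    by_cases hi : i < b + 1
    · intro q hq
      exact ((hdomb q (ball_subset_ball (min_le_left _ _) (hVb hq))).2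
        ⟨i, hi⟩).differentiableAt.differentiableWithinAt
    · have h1 : ∀ q, (P q).coeff i = 0 := fun q =>
        coeff_eq_zero_of_natDegree_lt (by rw [(hP q).2]; omega)
      simp only [h1]
      exact differentiableOn_const _
  have hsmall : ∀ q ∈ V, ∀ α, (P q).eval α = 0 → ‖α‖ < ε := fun q hq =>
    (hdomb q (ball_subset_ball (min_le_left _ _) (hVb hq))).1
  have hFP : ∀ t : ℂ, ‖t‖ < ε → ∀ q ∈ V, (F (t, q) = 0 ↔ (P q).eval t = 0) := by
    intro t ht q hq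
    have h1 : ((t, q) : ℂ × (Cm 2 × ℂ)) ∈ ball (0, (c₁, 0)) ε₁ := by
      rw [mem_ball, Prod.dist_eq, max_lt_iff]
      refine ⟨by simpa using ht.trans_le (min_le_left _ _), ?_⟩
      exact ball_subset_ball ((min_le_right _ _).trans (min_le_left _ _)) (hVb hq)
    obtain ⟨h2, h3⟩ := hball₁ _ h1
    rw [← h2, mul_eq_zero, or_iff_left h3]
  have hP0 : ∀ c ∈ ball c₁ A, ∀ t, (P (c, 0)).eval t = 0 → t = 0 := by
    intro c hc t ht
    have hcV : (c, (0 : ℂ)) ∈ V := ⟨hc, mem_ball_self hA0⟩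
    have h1 := hsmall _ hcV t ht
    have h2 := (hFP t h1 _ hcV).2 ht
    have h3 : cons3 t c ∈ ball (cons3 0 c₁) ε₂ := by
      have hc' : c ∈ ball c₁ ε := ball_subset_ball (min_le_right _ _) hc
      rw [mem_ball, dist_pi_lt_iff hε0] at hc'
      rw [mem_ball, dist_pi_lt_iff hε₂]
      intro i
      fin_cases i
      · simpa [cons3] using h1.trans_le (min_le_right _ _)
      · exact (hc' 0).trans_le (min_le_right _ _)
      · exact (hc' 1).trans_le (min_le_right _ _)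
    obtain ⟨h4, h5⟩ := hball₂ _ h3
    rw [hFΦ, h4, mul_eq_zero, or_iff_left h5, cons3_zero] at h2
    exact eq_zero_of_pow_eq_zero h2
  -- reduction
  obtain ⟨k, Dd, R, hDd, ⟨⟨x₀, s₀⟩, hxs, hDne⟩, hRF, hRD⟩ :=
    exists_reduced hVo hVc.isPreconnected hVn hPF
  -- division by the second variable
  have hline : AnalyticOnNhd ℂ (fun s : ℂ => Dd (x₀, s)) (ball 0 A) := by
    intro s hs
    have h1 : AnalyticAt ℂ Dd (x₀, s) := P268.analyticAt_of_differentiableOn hVo hDd ⟨hxs.1, hs⟩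
    exact h1.comp_of_eq (analyticAt_const.prod analyticAt_id) rfl
  have hne0 : ∀ᶠ s in 𝓝[≠] (0 : ℂ), Dd (x₀, s) ≠ 0 := by
    rcases (hline 0 (mem_ball_self hA0)).eventually_eq_zero_or_eventually_ne_zero with h0 | h0
    · exact absurd (hline.eqOn_zero_of_preconnected_of_eventuallyEq_zero
        (convex_ball _ _).isPreconnected (mem_ball_self hA0) h0 hxs.2) hDne
    · exact h0
  obtain ⟨p, g, hg, hDg, ⟨x₁, s₁⟩, hx₁, hs₁, hgne⟩ :=
    div_snd_max hVo hDd (x₀ := x₀) ⟨hxs.1, mem_ball_self hA0⟩ hne0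
  simp only at hs₁
  subst hs₁
  have hga : ∀ c ∈ ball c₁ A, AnalyticAt ℂ (fun c => g (c, 0)) c := by
    intro c hc
    have h1 : AnalyticAt ℂ g (c, 0) :=
      P268.analyticAt_of_differentiableOn hVo hg ⟨hc, mem_ball_self hA0⟩
    exact h1.comp_of_eq (analyticAt_id.prod analyticAt_const) rfl
  have hgz : ∀ c ∈ ball c₁ A, ¬ (fun c => g (c, 0)) =ᶠ[𝓝 c] 0 := by
    intro c hc h0
    have h1 : AnalyticOnNhd ℂ (fun c => g (c, 0)) (ball c₁ A) := hga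
    exact hgne (h1.eqOn_zero_of_preconnected_of_eventuallyEq_zero
      (convex_ball _ _).isPreconnected hc h0 hx₁.1)
  obtain ⟨W, G, hW, hG, hWG⟩ := hB1 1 (ball c₁ A) (fun c => g (c, 0)) isOpen_ball hga hgz
  refine ⟨ball c₁ A, ball_mem_nhds c₁ hA0, W, G, hW, fun k p hp => (hG k p hp).1, ?_⟩
  refine Subset.trans ?_ hWG
  rintro c₂ ⟨hc₂, hbad⟩
  refine ⟨hc₂, ?_⟩
  by_contra hgc
  apply hbad
  -- a good point
  have hnear : ∀ᶠ q : Cm 2 × ℂ in 𝓝 (c₂, 0), q ∈ V ∧ g q ≠ 0 := by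
    have hmem : (c₂, (0 : ℂ)) ∈ V := ⟨hc₂, mem_ball_self hA0⟩
    exact (hVo.eventually_mem hmem).and
      ((hg.continuousOn.continuousAt (hVo.mem_nhds hmem)).eventually_ne hgc)
  obtain ⟨A₂, hA₂, hb₂⟩ := Metric.eventually_nhds_iff_ball.1 hnear
  have hsub : ball c₂ A₂ ×ˢ ball (0 : ℂ) A₂ ⊆ ball (c₂, 0) A₂ := by
    rintro ⟨c, s⟩ ⟨h1, h2⟩
    rw [mem_ball, Prod.dist_eq, max_lt_iff]
    exact ⟨h1, h2⟩
  have hsubV : ball c₂ A₂ ×ˢ ball (0 : ℂ) A₂ ⊆ V := fun q hq => (hb₂ q (hsub hq)).1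
  have hDne' : ∀ q ∈ ball c₂ A₂ ×ˢ ball (0 : ℂ) A₂, q.2 ≠ 0 → Dd q ≠ 0 := by
    intro q hq hq0
    rw [hDg q (hsubV hq)]
    exact mul_ne_zero (pow_ne_zero _ hq0) (hb₂ q (hsub hq)).2
  refine place_of L hA₂ hε0 (hPF.mono hsubV) (hRF.mono hsubV) (fun t ht q hq => ?_)
    (fun c hc t ht => ?_) (fun q hq => (hRD q (hsubV hq.1) (hDne' q hq.1 hq.2)).1)
    fun q hq hq0 => (hRD q (hsubV hq) (hDne' q hq hq0)).2
  · exact hFP t ht q (hsubV hq)
  · have h1 : (c, (0 : ℂ)) ∈ V := hsubV ⟨hc, mem_ball_self hA₂⟩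
    exact hP0 c h1.1 t ht

theorem tendsto_emb4 (c₀ : Cm 2) : Tendsto (fun c : Cm 2 => emb4 0 c) (𝓝 c₀) (𝓝 (emb4 0 c₀)) :=
  (continuous_emb4.comp (continuous_const.prodMk continuous_id)).tendsto' _ _ rfl

theorem local_place {σ : Cm 4 → ℂ} {c₀ : Cm 2} (hσ : AnalyticAt ℂ σ (emb4 0 c₀))
    (hne : ¬ σ =ᶠ[𝓝 (emb4 0 c₀)] 0) :
    ∃ U ∈ 𝓝 c₀, Cv 1 {c | c ∈ U ∧ ¬ T3.PlaceAt σ (emb4 0 c)} := by
  have hB1 : StB1 := H622.stB1
  set F : Cm 2 × Cm 2 → ℂ := fun p => σ (emb4 p.1 p.2) with hF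
  have hFa : AnalyticAt ℂ F (0, c₀) := AnalyticAt.comp_of_eq (g := σ) hσ (analyticAt_emb4 _) rfl
  have hFne : ¬ F =ᶠ[𝓝 ((0 : Cm 2), c₀)] 0 := by
    intro h0
    refine hne ?_
    have h1 : Tendsto (fun y : Cm 4 => ((![y 0, y 1], ![y 2, y 3]) : Cm 2 × Cm 2)) (𝓝 (emb4 0 c₀))
        (𝓝 (0, c₀)) := by
      have hc : Continuous (fun y : Cm 4 => ((![y 0, y 1], ![y 2, y 3]) : Cm 2 × Cm 2)) := by
        refine Continuous.prodMk (continuous_pi fun i => ?_) (continuous_pi fun i => ?_)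
        · fin_cases i
          · exact continuous_apply (0 : Fin 4)
          · exact continuous_apply (1 : Fin 4)
        · fin_cases i
          · exact continuous_apply (2 : Fin 4)
          · exact continuous_apply (3 : Fin 4)
      refine hc.tendsto' _ _ ?_
      ext i
      · fin_cases i <;> rfl
      · fin_cases i <;> rfl
    filter_upwards [h1.eventually h0] with y hy
    have h2 : σ (emb4 ![y 0, y 1] ![y 2, y 3]) = 0 := hy
    rwa [emb4_eta] at h2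
  -- a direction
  obtain ⟨v, hv0, hv⟩ : ∃ v : Cm 2, v ≠ 0 ∧
      ¬ (fun w : Cm 3 => F (w 0 • v, tl3 w)) =ᶠ[𝓝 (cons3 0 c₀)] 0 := by
    obtain ⟨v, hv⟩ := exists_dir hFa hFne
    by_cases hv0 : v = 0
    · subst hv0
      refine ⟨![1, 0], fun h => one_ne_zero (congrFun h 0), fun h => hv ?_⟩
      have h1 : ∀ᶠ w in 𝓝 (cons3 0 c₀), (cons3 0 (tl3 w)) ∈
          {w : Cm 3 | F (w 0 • ![1, 0], tl3 w) = 0} := by
        have h2 : Tendsto (fun w => cons3 0 (tl3 w)) (𝓝 (cons3 0 c₀)) (𝓝 (cons3 0 c₀)) := by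
          refine (continuous_cons3.comp (continuous_const.prodMk continuous_tl3)).tendsto' _ _ ?_
          simp only [Function.comp_apply, tl3_cons3]
        exact h2.eventually h
      filter_upwards [h1] with w hw
      have h3 : F ((cons3 0 (tl3 w)) 0 • ![1, 0], tl3 (cons3 0 (tl3 w))) = 0 := hw
      rw [cons3_zero, tl3_cons3, zero_smul] at h3
      show F (w 0 • (0 : Cm 2), tl3 w) = 0
      rw [smul_zero]
      exact h3
    · exact ⟨v, hv0, hv⟩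
  set Φ : Cm 3 → ℂ := fun w => F (w 0 • v, tl3 w) with hΦ
  have hΦmap : ∀ w : Cm 3, AnalyticAt ℂ
      (fun w : Cm 3 => ((w 0 • v, tl3 w) : Cm 2 × Cm 2)) w := fun w =>
    (((ContinuousLinearMap.proj (R := ℂ) (φ := fun _ : Fin 3 => ℂ) 0).analyticAt w).smul
      analyticAt_const).prod (analyticAt_tl3 w)
  have hΦ0 : ((cons3 0 c₀ 0 • v, tl3 (cons3 0 c₀)) : Cm 2 × Cm 2) = (0, c₀) := by
    rw [cons3_zero, tl3_cons3, zero_smul]
  have hΦa : AnalyticAt ℂ Φ (cons3 0 c₀) :=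
    AnalyticAt.comp_of_eq (g := F)
      (f := fun w : Cm 3 => ((w 0 • v, tl3 w) : Cm 2 × Cm 2)) hFa (hΦmap _) hΦ0
  obtain ⟨b, h, hha, hhΦ, hh0⟩ := H19.exists_max_pow hΦa rfl hv
  set a : Cm 2 → ℂ := fun c => h (cons3 0 c) with ha
  have hac : Tendsto (fun c : Cm 2 => cons3 0 c) (𝓝 c₀) (𝓝 (cons3 0 c₀)) :=
    (analyticAt_cons3_right 0 c₀).continuousAt
  have hane : ¬ a =ᶠ[𝓝 c₀] 0 := by
    intro h0
    refine hh0 ?_
    have h1 : Tendsto tl3 (𝓝 (cons3 0 c₀)) (𝓝 c₀) :=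
      continuous_tl3.tendsto' _ _ (tl3_cons3 0 c₀)
    filter_upwards [h1.eventually h0] with w hw hw0
    have h2 : h (cons3 0 (tl3 w)) = 0 := hw
    have h3 : cons3 0 (tl3 w) = w := by
      conv_rhs => rw [← cons3_tl3 w, hw0]
    rwa [h3] at h2
  obtain ⟨ρ, hρ, hgood⟩ := Metric.eventually_nhds_iff_ball.1
    (((tendsto_emb4 c₀).eventually hσ.eventually_analyticAt).and
      ((hac.eventually hha.eventually_analyticAt).and
        (hac.eventually (eventually_eventually_nhds.2 hhΦ))))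
  refine ⟨ball c₀ ρ, ball_mem_nhds c₀ hρ, ?_⟩
  have haan : ∀ c ∈ ball c₀ ρ, AnalyticAt ℂ a c := fun c hc =>
    AnalyticAt.comp_of_eq (g := h) (f := fun c => cons3 0 c) (hgood c hc).2.1
      (analyticAt_cons3_right 0 c) rfl
  have hane' : ∀ c ∈ ball c₀ ρ, ¬ a =ᶠ[𝓝 c] 0 := by
    intro c hc h0
    refine hane ?_
    have h1 : AnalyticOnNhd ℂ a (ball c₀ ρ) := haan
    have h2 := h1.eqOn_zero_of_preconnected_of_eventuallyEq_zero
      (convex_ball c₀ ρ).isPreconnected hc h0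
    filter_upwards [ball_mem_nhds c₀ hρ] with z hz using h2 hz
  obtain ⟨W, G, hW, hG, hWG⟩ := hB1 1 (ball c₀ ρ) a isOpen_ball haan hane'
  have hfirst : Cv 1 {c | c ∈ ball c₀ ρ ∧ a c = 0} :=
    ⟨W, G, hW, fun k p hp => (hG k p hp).1, hWG⟩
  refine (hfirst.union (cv_of_local (k := 1) (S := {c | c ∈ ball c₀ ρ ∧ a c ≠ 0 ∧
    ¬ T3.PlaceAt σ (emb4 0 c)}) fun c hc => ?_)).mono ?_
  · obtain ⟨g1, g2, g3⟩ := hgood c hc.1
    obtain ⟨U₁, hU₁, hcv⟩ := key_place hv0 g1 g2 hc.2.1 g3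
    exact ⟨U₁, hU₁, hcv.mono fun c' hc' => ⟨hc'.1, hc'.2.2.2⟩⟩
  · rintro c ⟨hc, hcb⟩
    by_cases h0 : a c = 0
    · exact Or.inl ⟨hc, h0⟩
    · exact Or.inr ⟨hc, h0, hcb⟩

/-- (PLACE) -/
theorem stPlace : T3.StPlace := by
  intro D hD σ hσ hne
  have key : Cv 1 {c : Cm 2 | emb4 0 c ∈ D ∧ ¬ T3.PlaceAt σ (emb4 0 c)} := by
    refine cv_of_local fun c₀ hc₀ => ?_
    obtain ⟨U, hU, hcv⟩ := local_place (hσ _ hc₀.1) (hne _ hc₀.1)
    exact ⟨U, hU, hcv.mono fun c hc => ⟨hc.1, hc.2.2⟩⟩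
  have hemb : ∀ c : Cm 2, AnalyticAt ℂ (fun c : Cm 2 => emb4 0 c) c := by
    intro c
    exact (analyticAt_emb4 (0, c)).comp_of_eq (analyticAt_const.prod analyticAt_id) rfl
  obtain ⟨Ω, g, hΩ, hg, hcov⟩ := key.image isOpen_univ (subset_univ _) (F := fun c => emb4 0 c)
    fun c _ => hemb c
  refine ⟨Ω, g, hΩ, hg, Subset.trans ?_ hcov⟩
  rintro x ⟨hxD, hx0, hx1, hx⟩
  have h1 : emb4 0 ![x 2, x 3] = x := by
    funext i
    fin_cases i
    · exact hx0.symm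
    · exact hx1.symm
    · rfl
    · rfl
  refine ⟨![x 2, x 3], ?_, h1⟩
  show emb4 0 ![x 2, x 3] ∈ D ∧ ¬ T3.PlaceAt σ (emb4 0 ![x 2, x 3])
  rw [h1]
  exact ⟨hxD, hx⟩

end Vale.Agent.P277.H884.PL
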