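import Vale.Agent.P277.H884.Dis1
import Vale.Agent.P277.H884.Conn

/-!
# P277, DIS: the order of a section of a `q`-th power is divisible by `q`
-/

open scoped Manifold ContDiff Topology
open Vale.Agent.P272.K Vale.Agent.P285.H281.FD Set Filter Metric

noncomputable section

namespace Vale.Agent.P277.H884

theorem lb_continuousAt {Y : Type} [TopologicalSpace Y] [ChartedSpace (Cm 4) Y] {M : Bd Y}
    (hM : IsLB 4 M) {i j : M.ι} {y : Y} (hi : y ∈ M.U i) (hj : y ∈ M.U j) :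
    ContinuousAt (M.g i j) y := by
  set e : Chart 4 Y := chartAt (Cm 4) y with he
  have heA : At e y := ⟨chart_mem_atlas _ _, mem_chart_source _ _⟩
  have h1 : ContinuousAt (fun z => M.g i j (e.symm z)) (e y) := (hM.holo i j e y heA hi hj).continuousAt
  have h2 : ContinuousAt (fun x => M.g i j (e.symm (e x))) y :=
    ContinuousAt.comp (g := fun z => M.g i j (e.symm z)) (f := e) h1 (e.continuousAt heA.2)
  refine h2.congr ?_
  filter_upwards [e.open_source.mem_nhds heA.2] with x hx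
  rw [e.left_inv hx]

theorem stDis : T2.StDis := by
  intro Y _ _ _ _ _ M hM q hq r hr E₀ hE₀ Ω g hΩ hg hE₀g ρ hρ n hn hnc w₀ hw00 hblw₀ γ₀ hγ₀ hγ₀an
    hγρ i hi κ Φ hΦ hΦ0 hev
  set s : ℂ := w₀ 1 with hs
  -- neighbourhoods of `w₀`
  have hη : ∀ᶠ w in 𝓝 w₀, (bl w ∉ E₀ → γ₀ w = ρ (bl w)) ∧ (bl w ∉ E₀ → n i (bl w) * w 0 ^ κ = Φ w) ∧
      γ₀ w ∈ M.U i ∧ ‖Φ w / Φ w₀ - 1‖ < 1 := by
    refine hγρ.and (hev.and ((hγ₀.eventually_mem ((hM.isOpen i).mem_nhds hi)).and ?_))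
    have h1 : ContinuousAt (fun w => ‖Φ w / Φ w₀ - 1‖) w₀ :=
      ((hΦ.div_const _).sub continuousAt_const).norm
    refine h1.eventually_lt continuousAt_const ?_
    rw [div_self hΦ0, sub_self, norm_zero]
    exact one_pos
  obtain ⟨η, hη0, hηb⟩ := Metric.eventually_nhds_iff_ball.1 hη
  let D' : Cm 4 → Cm 4 := fun u => ![u 0, u 0 * s + u 1, u 2, u 3]
  have hD'c : Continuous D' := by
    refine continuous_pi fun k => ?_
    fin_cases k
    · exact continuous_apply 0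
    · exact ((continuous_apply 0).mul continuous_const).add (continuous_apply 1)
    · exact continuous_apply 2
    · exact continuous_apply 3
  let p₀ : Cm 4 := ![0, 0, w₀ 2, w₀ 3]
  have hp₀ : D' p₀ = bl w₀ := by
    ext k
    fin_cases k <;> simp [D', p₀, bl, hw00]
  have hη1 : ∀ᶠ u in 𝓝 p₀, D' u ∈ ball (0 : Cm 4) r := by
    refine hD'c.continuousAt.eventually_mem ?_
    rw [hp₀]
    exact isOpen_ball.mem_nhds hblw₀
  obtain ⟨η₁, hη10, hη1b⟩ := Metric.eventually_nhds_iff_ball.1 hη1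
  set ε : ℝ := min η η₁ / 2 with hε
  have hε0 : 0 < ε := half_pos (lt_min hη0 hη10)
  have hεη : ε < η := by
    have := min_le_left η η₁
    have h2 : 0 < min η η₁ := lt_min hη0 hη10
    linarith
  have hεη1 : ε < η₁ := by
    have := min_le_right η η₁
    have h2 : 0 < min η η₁ := lt_min hη0 hη10
    linarith
  set η₂ : ℝ := min (min η η₁) (ε * η) with hη₂
  have hη20 : 0 < η₂ := lt_min (lt_min hη0 hη10) (mul_pos hε0 hη0)
  have hη2η : η₂ ≤ η := (min_le_left _ _).trans (min_le_left _ _)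
  have hη2η1 : η₂ ≤ η₁ := (min_le_left _ _).trans (min_le_right _ _)
  have hη2ε : η₂ ≤ ε * η := min_le_right _ _
  -- generic lines
  let F : Cm 4 → Cm 3 := fun z => ![z 1 - z 0 * s, z 2, z 3]
  have hFan : ∀ z, AnalyticAt ℂ F z := by
    intro z
    have hp : ∀ k, AnalyticAt ℂ (fun z : Cm 4 => z k) z := fun k =>
      (ContinuousLinearMap.proj (R := ℂ) (φ := fun _ : Fin 4 => ℂ) k).analyticAt z
    refine AnalyticAt.pi fun k => ?_
    fin_cases k
    · exact (hp 1).sub ((hp 0).mul analyticAt_const)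
    · exact hp 2
    · exact hp 3
  have hFg : ∀ k, ContDiffOn ℝ 1 (fun p => F (g k p)) (Ω k) := fun k p hp =>
    (((hFan _).fun_comp (hg k p hp)).restrictScalars (𝕜 := ℝ)).contDiffAt.contDiffWithinAt
  obtain ⟨-, hdense⟩ := b2_three (c := ![0, w₀ 2, w₀ 3]) (r := η₂) hη20 hΩ hFg
  obtain ⟨u, hub, huE⟩ : ∃ u : Cm 3, u ∈ ball (![0, w₀ 2, w₀ 3] : Cm 3) η₂ ∧
      u ∉ ⋃ k, (fun p => F (g k p)) '' Ω k := by
    have h1 := hdense (mem_ball_self hη20)
    obtain ⟨u, hu⟩ := (closure_nonempty_iff.1 ⟨_, h1⟩)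
    exact ⟨u, hu.1, hu.2⟩
  rw [mem_ball, dist_pi_lt_iff hη20] at hub
  have hu0 : ‖u 0‖ < η₂ := by simpa using hub 0
  have hu1 : dist (u 1) (w₀ 2) < η₂ := hub 1
  have hu2 : dist (u 2) (w₀ 3) < η₂ := hub 2
  let D : ℂ → Cm 4 := fun ζ => ![ζ, ζ * s + u 0, u 1, u 2]
  have hDE : ∀ ζ, D ζ ∉ E₀ := by
    intro ζ hζ
    obtain ⟨k, p, hp, hpz⟩ := mem_iUnion.1 (hE₀g hζ)
    refine huE (mem_iUnion.2 ⟨k, p, hp, ?_⟩)
    show F (g k p) = u
    rw [hpz]
    ext l
    fin_cases l <;> simp [F, D]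
  have hDr : ∀ ζ ∈ closedBall (0 : ℂ) ε, D ζ ∈ ball (0 : Cm 4) r := by
    intro ζ hζ
    rw [mem_closedBall_zero_iff] at hζ
    refine hη1b ![ζ, u 0, u 1, u 2] ?_
    rw [mem_ball, dist_pi_lt_iff hη10]
    intro l
    fin_cases l
    · simpa [p₀] using hζ.trans_lt hεη1
    · simpa [p₀] using hu0.trans_le hη2η1
    · exact hu1.trans_le hη2η1
    · exact hu2.trans_le hη2η1
  have hDc : Continuous D := by
    refine continuous_pi fun k => ?_
    fin_cases k
    · exact continuous_id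
    · exact (continuous_id.mul continuous_const).add continuous_const
    · exact continuous_const
    · exact continuous_const
  have hρD : ∀ ζ ∈ closedBall (0 : ℂ) ε, ContinuousAt (fun ζ => ρ (D ζ)) ζ := fun ζ hζ =>
    ContinuousAt.comp (g := ρ) (hρ _ ⟨hDr ζ hζ, hDE ζ⟩).1 hDc.continuousAt
  have hTor : Tor M.ι q (closedBall 0 ε) (fun j => {ζ | ρ (D ζ) ∈ M.U j})
      (fun j k ζ => M.g j k (ρ (D ζ))) (fun j ζ => n j (D ζ)) :=
    { pos := hq
      cover := fun x _ => hM.cover _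
      nhds := fun x hx j hj => (hρD x hx).eventually_mem ((hM.isOpen j).mem_nhds hj)
      gcont := fun x hx j k hj hk => ContinuousAt.comp (g := M.g j k) (f := fun ζ => ρ (D ζ))
        (lb_continuousAt hM hj hk) (hρD x hx)
      gne := fun x hx j k hj hk => hM.ne_zero j k _ hj hk
      coc := fun x hx j k l hj hk hl => hM.cocycle j k l _ hj hk hl
      ncont := fun x hx j hj => ContinuousAt.comp (g := n j)
        (hn j _ ⟨hDr x hx, hDE x⟩ hj).1.continuousAt hDc.continuousAt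
      nne := fun x hx j hj => (hn j _ ⟨hDr x hx, hDE x⟩ hj).2
      change := fun x hx j k hj hk => hnc j k _ ⟨hDr x hx, hDE x⟩ hj hk }
  choose J hJ using fun x : ℂ => hM.cover (ρ (D x))
  obtain ⟨σ, hσ⟩ := hTor.exists_root hε0 (J := J) fun x _ => hJ x
  -- the circle
  let ζ : ℝ → ℂ := fun t => ε * Complex.exp (t * Complex.I)
  have hζn : ∀ t, ‖ζ t‖ = ε := by
    intro t
    simp only [ζ, norm_mul, Complex.norm_exp_ofReal_mul_I, mul_one, Complex.norm_real,
      Real.norm_of_nonneg hε0.le]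
  have hζΔ : ∀ t, ζ t ∈ closedBall (0 : ℂ) ε := fun t => by
    rw [mem_closedBall_zero_iff, hζn]
  have hζc : Continuous ζ := by fun_prop
  have hζ0 : ∀ t, ζ t ≠ 0 := fun t h0 => by
    have := hζn t
    rw [h0, norm_zero] at this
    exact hε0.ne this
  have hwb : ∀ t, ![ζ t, s + u 0 / ζ t, u 1, u 2] ∈ ball w₀ η := by
    intro t
    rw [mem_ball, dist_pi_lt_iff hη0]
    intro l
    fin_cases l
    · show dist (ζ t) (w₀ 0) < η
      rw [hw00, dist_zero_right, hζn]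
      exact hεη
    · show dist (s + u 0 / ζ t) (w₀ 1) < η
      rw [dist_eq_norm, ← hs, add_sub_cancel_left, norm_div, hζn, div_lt_iff₀ hε0, mul_comm]
      exact hu0.trans_le hη2ε
    · exact hu1.trans_le hη2η
    · exact hu2.trans_le hη2η
  have hblw : ∀ t, bl ![ζ t, s + u 0 / ζ t, u 1, u 2] = D (ζ t) := by
    intro t
    have := hζ0 t
    ext l
    fin_cases l
    · rfl
    · show ζ t * (s + u 0 / ζ t) = ζ t * s + u 0
      field_simp
    · rfl
    · rfl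
  have hUi : ∀ t, ρ (D (ζ t)) ∈ M.U i := by
    intro t
    obtain ⟨h1, -, h3, -⟩ := hηb _ (hwb t)
    rw [hblw] at h1
    rw [← h1 (hDE _)]
    exact h3
  let b : ℝ → ℂ := fun t => M.g i (J (ζ t)) (ρ (D (ζ t))) * σ (ζ t)
  have hbc : Continuous b := by
    rw [continuous_iff_continuousAt]
    intro t
    have h1 := (hσ (ζ t) (hζΔ t)).2
    have h2 : Tendsto ζ (𝓝 t) (𝓝[closedBall 0 ε] (ζ t)) :=
      tendsto_nhdsWithin_iff.2 ⟨hζc.continuousAt, Eventually.of_forall hζΔ⟩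
    have h3 : ContinuousAt (fun t' => M.g i (J (ζ t)) (ρ (D (ζ t')))) t :=
      ContinuousAt.comp (g := fun x => M.g i (J (ζ t)) (ρ (D x)))
        (hTor.gcont _ (hζΔ t) i (J (ζ t)) (hUi t) (hJ _)) hζc.continuousAt
    have h4 : Tendsto (fun t' => M.g (J (ζ t)) (J (ζ t')) (ρ (D (ζ t'))) * σ (ζ t')) (𝓝 t)
        (𝓝 (M.g (J (ζ t)) (J (ζ t)) (ρ (D (ζ t))) * σ (ζ t))) := h1.tendsto.comp h2
    have h5 := h3.tendsto.mul h4
    have h6 : M.g (J (ζ t)) (J (ζ t)) (ρ (D (ζ t))) = 1 := hTor.gself (hζΔ t) (hJ _)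
    rw [h6, one_mul] at h5
    refine h5.congr' ?_
    have h7 : ∀ᶠ t' in 𝓝 t, ρ (D (ζ t')) ∈ M.U (J (ζ t)) :=
      (ContinuousAt.comp (g := fun x => ρ (D x)) (hρD _ (hζΔ t)) hζc.continuousAt).eventually_mem
        ((hM.isOpen _).mem_nhds (hJ _))
    filter_upwards [h7] with t' ht'
    rw [← mul_assoc, hM.cocycle _ _ _ _ (hUi t') ht' (hJ _)]
  have hbq : ∀ t, b t ^ q = n i (D (ζ t)) := by
    intro t
    have h1 := hTor.change (ζ t) (hζΔ t) i (J (ζ t)) (hUi t) (hJ _)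
    show (M.g i (J (ζ t)) (ρ (D (ζ t))) * σ (ζ t)) ^ q = _
    rw [mul_pow, (hσ _ (hζΔ t)).1, h1]
  have hεC : (ε : ℂ) ≠ 0 := by exact_mod_cast hε0.ne'
  set C : ℂ := Φ w₀ / ε ^ κ with hC
  have hC0 : C ≠ 0 := div_ne_zero hΦ0 (pow_ne_zero _ hεC)
  have hval : ∀ t, b t ^ q * Complex.exp (t * Complex.I) ^ κ =
      C * (Φ ![ζ t, s + u 0 / ζ t, u 1, u 2] / Φ w₀) := by
    intro t
    obtain ⟨-, h2, -, -⟩ := hηb _ (hwb t)
    rw [hblw] at h2
    have h3 : n i (D (ζ t)) * (ζ t) ^ κ = Φ ![ζ t, s + u 0 / ζ t, u 1, u 2] := h2 (hDE _)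
    rw [hbq, ← h3, hC]
    show _ = Φ w₀ / ε ^ κ * (n i (D (ζ t)) * (ε * Complex.exp (t * Complex.I)) ^ κ / Φ w₀)
    rw [mul_pow]
    field_simp
  have hper : ζ (2 * Real.pi) = ζ 0 := by
    have h1 : Complex.exp (((2 * Real.pi : ℝ) : ℂ) * Complex.I) = 1 := by
      push_cast
      exact Complex.exp_two_pi_mul_I
    simp only [ζ, h1, Complex.ofReal_zero, zero_mul, Complex.exp_zero]
  refine dvd_of_circle (b := b) (m := fun t => b t ^ q * Complex.exp (t * Complex.I) ^ κ / C) hq hbc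
    ?_ ?_ ?_ ?_ hC0 ?_
  · simp only [b, hper]
  · refine ((hbc.pow q).mul ?_).div_const C
    fun_prop
  · have h1 : Complex.exp (((2 * Real.pi : ℝ) : ℂ) * Complex.I) = 1 := by
      push_cast
      exact Complex.exp_two_pi_mul_I
    simp only [b, hper, h1, Complex.ofReal_zero, zero_mul, Complex.exp_zero]
  · intro t
    simp only [hval t]
    rw [mul_div_cancel_left₀ _ hC0]
    exact (hηb _ (hwb t)).2.2.2
  · intro t
    rw [mul_div_cancel₀ _ hC0]

end Vale.Agent.P277.H884
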