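import Vale.Agent.P277.H884.W1

/-!
# P277, boundary: constancy along the connected centre
-/

open scoped Manifold ContDiff Topology
open Vale.Agent.P272.K Vale.Agent.P285.H281.FD Vale.Agent.P267.H175 Set Filter Metric

noncomputable section

namespace Vale.Agent.P277.H884.W

open Vale.Agent.P277 Vale.Agent.P277.T2 Vale.Agent.P277.H335 Vale.Agent.P277.H615
open Vale.Agent.P277.H762 (Cv)

/-- the part of the hyperplane in a ball, without a thin set, is connected and dense -/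
theorem hyp_conn {B : Set (Cm 4)} (hB : Cv 2 B) {z₀ : Cm 4} (h0 : z₀ 0 = 0) {ε : ℝ} (hε : 0 < ε) :
    ∃ S : Set (Cm 4), S ⊆ {z | z ∈ ball z₀ ε ∧ z 0 = 0 ∧ z ∉ B} ∧ IsPreconnected S ∧
      {z | z ∈ ball z₀ ε ∧ z 0 = 0} ⊆ closure S := by
  obtain ⟨Ω, g, hΩ, hg, hcov⟩ := hB
  have hg' : ∀ l, ContDiffOn ℝ 1 (fun p => (fun j : Fin 3 => g l p j.succ : Cm 3)) (Ω l) := by
    intro l p hp
    have h1 : ContDiffAt ℝ 1 (g l) p := ((hg l p hp).restrictScalars (𝕜 := ℝ)).contDiffAt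
    exact (contDiffAt_pi.2 fun j : Fin 3 => (contDiffAt_pi.1 h1) j.succ).contDiffWithinAt
  obtain ⟨h1, h2⟩ := b2_three (c := fun j : Fin 3 => z₀ j.succ) hε hΩ hg'
  set E : Set (Cm 3) := ⋃ l, (fun p => (fun j : Fin 3 => g l p j.succ : Cm 3)) '' Ω l with hE
  have hcins : Continuous ins := continuous_iff_continuousAt.2 fun u => (analyticAt_ins u).continuousAt
  have hball : ∀ u : Cm 3, ins u ∈ ball z₀ ε ↔ u ∈ ball (fun j : Fin 3 => z₀ j.succ) ε := by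
    intro u
    rw [mem_ball, mem_ball, dist_pi_lt_iff hε, dist_pi_lt_iff hε, Fin.forall_fin_succ]
    simp [ins, h0, hε]
  refine ⟨ins '' (ball (fun j : Fin 3 => z₀ j.succ) ε \ E), ?_, h1.image _ hcins.continuousOn, ?_⟩
  · rintro _ ⟨u, ⟨hu1, hu2⟩, rfl⟩
    refine ⟨(hball u).2 hu1, ins_zero u, fun hB => hu2 ?_⟩
    obtain ⟨l, p, hp, hpu⟩ := mem_iUnion.1 (hcov hB)
    refine mem_iUnion.2 ⟨l, p, hp, ?_⟩
    funext j
    show g l p j.succ = u j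
    rw [hpu]; simp [ins]
  · rintro z ⟨hz, hz0⟩
    have h3 : (fun j : Fin 3 => z j.succ) ∈ ball (fun j : Fin 3 => z₀ j.succ) ε := by
      rw [← hball, ins_tail hz0]; exact hz
    have h4 := image_closure_subset_closure_image hcins (mem_image_of_mem ins (h2 h3))
    rwa [ins_tail hz0] at h4

/-- density of the good points -/
theorem exists_good {B : Set (Cm 4)} (hB : Cv 2 B) {z₀ : Cm 4} (h0 : z₀ 0 = 0) {U : Set (Cm 4)}
    (hU : U ∈ 𝓝 z₀) : ∃ z ∈ U, z 0 = 0 ∧ z ∉ B := by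
  obtain ⟨ε, hε, hs⟩ := Metric.mem_nhds_iff.1 hU
  obtain ⟨S, hS, -, hd⟩ := hyp_conn hB h0 hε
  obtain ⟨z, -, hz⟩ := mem_closure_iff_nhds.1 (hd ⟨mem_ball_self hε, h0⟩) univ univ_mem
  exact ⟨z, hs (hS hz).1, (hS hz).2.1, (hS hz).2.2⟩

/-- an abstract form of the constancy of the order vector -/
theorem const_of_thin {α : Type*} {D B : Set (Cm 4)} (hD : IsOpen D)
    (hconn : IsPreconnected {w | w ∈ D ∧ w 0 = 0}) (hB : Cv 2 B) {R : Cm 4 → α → Prop}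
    (h1 : ∀ w a, w ∈ D → w 0 = 0 → R w a → ∀ᶠ z in 𝓝 w, z 0 = 0 → R z a)
    (h2 : ∀ w a b, w ∈ D → w 0 = 0 → R w a → R w b → a = b)
    (h3 : ∀ w, w ∈ D → w 0 = 0 → w ∉ B → ∃ a, R w a) {w w' : Cm 4} {a b : α} (hw : w ∈ D)
    (hw0 : w 0 = 0) (hw' : w' ∈ D) (hw0' : w' 0 = 0) (ha : R w a) (hb : R w' b) : a = b := by
  -- the local statement
  have hloc : ∀ z₀ ∈ D, z₀ 0 = 0 → ∃ ε > 0, ∃ c, ball z₀ ε ⊆ D ∧
      ∀ z ∈ ball z₀ ε, z 0 = 0 → ∀ c', R z c' → c' = c := by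
    intro z₀ hz₀ hz₀0
    obtain ⟨ε, hε, hs⟩ := Metric.isOpen_iff.1 hD z₀ hz₀
    obtain ⟨S, hS, hSc, hd⟩ := hyp_conn hB hz₀0 hε
    obtain ⟨z₁, -, hz₁⟩ := mem_closure_iff_nhds.1 (hd ⟨mem_ball_self hε, hz₀0⟩) univ univ_mem
    obtain ⟨c, hc⟩ := h3 z₁ (hs (hS hz₁).1) (hS hz₁).2.1 (hS hz₁).2.2
    -- constancy on `S`
    have hSconst : ∀ z ∈ S, ∀ c', R z c' → c' = c := by
      intro z₂ hz₂ c' hc'
      by_contra hne
      let U : Set (Cm 4) := {z | ∀ᶠ y in 𝓝 z, y ∈ D → y 0 = 0 → R y c}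
      let U' : Set (Cm 4) := {z | ∃ c'', c'' ≠ c ∧ ∀ᶠ y in 𝓝 z, y ∈ D → y 0 = 0 → R y c''}
      have hU : IsOpen U := isOpen_iff_mem_nhds.2 fun z hz => hz.eventually_nhds
      have hU' : IsOpen U' := isOpen_iff_mem_nhds.2 fun z ⟨c'', k1, k2⟩ =>
        k2.eventually_nhds.mono fun y hy => ⟨c'', k1, hy⟩
      have hsub : S ⊆ U ∪ U' := by
        intro z hz
        obtain ⟨c'', hc''⟩ := h3 z (hs (hS hz).1) (hS hz).2.1 (hS hz).2.2
        have k1 := h1 z c'' (hs (hS hz).1) (hS hz).2.1 hc''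
        by_cases hcc : c'' = c
        · left
          subst hcc
          exact k1.mono fun y hy _ => hy
        · right
          exact ⟨c'', hcc, k1.mono fun y hy _ => hy⟩
      have k1 := h1 z₁ c (hs (hS hz₁).1) (hS hz₁).2.1 hc
      have k2 := h1 z₂ c' (hs (hS hz₂).1) (hS hz₂).2.1 hc'
      obtain ⟨z, hz, hzU, c'', k3, k4⟩ := hSc U U' hU hU' hsub
        ⟨z₁, hz₁, k1.mono fun y hy _ => hy⟩ ⟨z₂, hz₂, c', hne, k2.mono fun y hy _ => hy⟩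
      have hzD := hs (hS hz).1
      exact k3 (h2 z c'' c hzD (hS hz).2.1 (k4.self_of_nhds hzD (hS hz).2.1)
        (hzU.self_of_nhds hzD (hS hz).2.1))
    refine ⟨ε, hε, c, hs, fun z hz hz0 c' hc' => ?_⟩
    obtain ⟨y, hy, hyS⟩ := mem_closure_iff_nhds.1 (hd ⟨hz, hz0⟩) _ (h1 z c' (hs hz) hz0 hc')
    exact hSconst y hyS c' (hy (hS hyS).2.1)
  by_contra hne
  let U : Set (Cm 4) := {z | ∀ᶠ y in 𝓝 z, y ∈ D → y 0 = 0 → ∀ c', R y c' → c' = a}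
  let U' : Set (Cm 4) := {z | ∃ c, c ≠ a ∧ ∀ᶠ y in 𝓝 z, y ∈ D → y 0 = 0 → ∀ c', R y c' → c' = c}
  have hU : IsOpen U := isOpen_iff_mem_nhds.2 fun z hz => hz.eventually_nhds
  have hU' : IsOpen U' := isOpen_iff_mem_nhds.2 fun z ⟨c'', k1, k2⟩ =>
    k2.eventually_nhds.mono fun y hy => ⟨c'', k1, hy⟩
  have hsub : {w | w ∈ D ∧ w 0 = 0} ⊆ U ∪ U' := by
    rintro z ⟨hz, hz0⟩
    obtain ⟨ε, hε, c, hs, hc⟩ := hloc z hz hz0
    have k1 : ∀ᶠ y in 𝓝 z, y ∈ D → y 0 = 0 → ∀ c', R y c' → c' = c := by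
      filter_upwards [isOpen_ball.mem_nhds (mem_ball_self hε)] with y hy _ hy0 c' hc'
      exact hc y hy hy0 c' hc'
    by_cases hca : c = a
    · left
      rw [hca] at k1
      exact k1
    · right
      exact ⟨c, hca, k1⟩
  have hUne : ({w | w ∈ D ∧ w 0 = 0} ∩ U).Nonempty := by
    refine ⟨w, ⟨hw, hw0⟩, ?_⟩
    filter_upwards [h1 w a hw hw0 ha] with y hy hyD hy0 c' hc'
    exact h2 y c' a hyD hy0 hc' (hy hy0)
  have hUne' : ({w | w ∈ D ∧ w 0 = 0} ∩ U').Nonempty := by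
    refine ⟨w', ⟨hw', hw0'⟩, b, fun h => hne h.symm, ?_⟩
    filter_upwards [h1 w' b hw' hw0' hb] with y hy hyD hy0 c' hc'
    exact h2 y c' b hyD hy0 hc' (hy hy0)
  obtain ⟨z, ⟨hz, hz0⟩, hzU, c, hca, hzU'⟩ := hconn U U' hU hU' hsub hUne hUne'
  obtain ⟨y, ⟨k1, k2, k3⟩, hy0, hyB⟩ := exists_good hB hz0 (hzU.and (hzU'.and (hD.mem_nhds hz)))
  obtain ⟨c', hc'⟩ := h3 y k3 hy0 hyB
  exact hca ((k2 k3 hy0 c' hc').symm.trans (k1 k3 hy0 c' hc'))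

/-- zero sets in the hyperplane are thin -/
theorem cv_zero {w₀ : Cm 4} (h0 : w₀ 0 = 0) {r₁ : ℝ} {g : Cm 4 → ℂ}
    (hg : ∀ w ∈ ball w₀ r₁, AnalyticAt ℂ g w) (hne : ∃ w ∈ ball w₀ r₁, w 0 = 0 ∧ g w ≠ 0) :
    Cv 2 {w | w ∈ ball w₀ r₁ ∧ w 0 = 0 ∧ g w = 0} := by
  obtain ⟨w₁, hw₁, hw₁0, hgw₁⟩ := hne
  have hcins : Continuous ins := continuous_iff_continuousAt.2 fun u => (analyticAt_ins u).continuousAt
  obtain ⟨W, k, hW, hk, hcov⟩ := H622.stB1 2 {u : Cm 3 | ins u ∈ ball w₀ r₁} (fun u => g (ins u))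
    (isOpen_ball.preimage hcins)
    (fun u hu => AnalyticAt.fun_comp (g := g) (hg _ hu) (analyticAt_ins u)) (by
      intro u hu hz
      have h1 : ∃ᶠ w in 𝓝 (ins u), w 0 = 0 ∧ g w ≠ 0 :=
        freq_ne h0 hg hw₁ hw₁0 hu (ins_zero u) hgw₁
      have h2 : Tendsto (fun w : Cm 4 => (fun j : Fin 3 => w j.succ : Cm 3)) (𝓝 (ins u)) (𝓝 u) := by
        have h3 : Continuous fun w : Cm 4 => (fun j : Fin 3 => w j.succ : Cm 3) :=
          continuous_pi fun j => continuous_apply _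
        have h4 := h3.tendsto (ins u)
        have h5 : (fun j : Fin 3 => ins u j.succ) = u := by
          ext j; simp [ins]
        rwa [h5] at h4
      obtain ⟨w, ⟨k1, k2⟩, k3⟩ := (h1.and_eventually (h2.eventually hz)).exists
      simp only [ins_tail k1, Pi.zero_apply] at k3
      exact k2 k3)
  refine ⟨W, fun l p => ins (k l p), hW, ?_, ?_⟩
  · intro l p hp
    exact AnalyticAt.fun_comp (g := ins) (analyticAt_ins _) (hk l p hp).1
  · rintro w ⟨h1, h2, h3⟩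
    have h4 : (fun j => w j.succ : Cm 3) ∈
        {z | z ∈ {u : Cm 3 | ins u ∈ ball w₀ r₁} ∧ (fun u => g (ins u)) z = 0} := by
      refine ⟨?_, ?_⟩
      · show ins (fun j => w j.succ) ∈ ball w₀ r₁
        rw [ins_tail h2]; exact h1
      · show g (ins (fun j => w j.succ)) = 0
        rw [ins_tail h2]; exact h3
    obtain ⟨l, p, hp, hpw⟩ := mem_iUnion.1 (hcov h4)
    refine mem_iUnion.2 ⟨l, p, hp, ?_⟩
    show ins (k l p) = w
    rw [hpw, ins_tail h2]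

end Vale.Agent.P277.H884.W
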