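import Vale.Agent.P277.H615.R.OrdB
import Vale.Agent.P277.H884.W2

/-!
# P277, boundary: the order vector along a wedge of `Y`: base, step, transfer
-/

open scoped Manifold ContDiff Topology
open Vale.Agent.P272.K Vale.Agent.P285.H281.FD Vale.Agent.P267.H175 Set Filter Metric

noncomputable section

namespace Vale.Agent.P277.H884.W

open Vale.Agent.P277 Vale.Agent.P277.T2 Vale.Agent.P277.H335 Vale.Agent.P277.H615
open Vale.Agent.P277.H762 (Cv)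

variable {Y : Type} [TopologicalSpace Y] [ChartedSpace (Cm 4) Y]

section

variable {k : ℕ} {V X Z X' : CSp} {vV : Y → V.pt} {G₀ : Set Y} {N : Fin k → Bd Y}
  {L : Fin k → Bd X.pt} {L' : Fin k → Bd X'.pt} {c c' : Fin k → ℕ} {O : Set Y}
  {v : Y → X.pt} {P Q : Fin k → ℕ} {T : ∀ e, (L e).ι → (N e).ι → Y → ℂ} {ρ : Fin k → ℝ}
  {S : Set X.pt} {f : X.pt → Z.pt} {f' : X'.pt → Z.pt} {p q : Fin k → ℕ}
  {s : ∀ e, (L e).ι → (L' e).ι → Z.pt → ℂ} {a : Fin k → ℤ}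
  {Γ Γ' : Cm 4 → Y} {D D' : Set (Cm 4)} {w₀ w₀' : Cm 4} {r r' : ℝ} {γ γ' : Cm 4 → X.pt}
  {i i' : ∀ e, (L e).ι} {n n' : ∀ e, (N e).ι} {x x' : Fin k → ℚ}

/-- the germ of the wedge at `w` is nice with orders `x` -/
def NG (O : Set Y) (v : Y → X.pt) (T : ∀ e, (L e).ι → (N e).ι → Y → ℂ) (Γ : Cm 4 → Y)
    (D : Set (Cm 4)) (w : Cm 4) (x : Fin k → ℚ) : Prop :=
  ∃ r γ i c, NiceW O v T Γ D w r γ i c x

theorem NG.near {w : Cm 4} (h : NG O v T Γ D w x) :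
    ∀ᶠ z in 𝓝 w, z 0 = 0 → NG O v T Γ D z x := by
  obtain ⟨r, γ, i, c, h⟩ := h
  filter_upwards [isOpen_ball.mem_nhds (mem_ball_self h.pos)] with z hz hz0
  obtain ⟨r₁, -, h1⟩ := NiceW.at h hz hz0
  exact ⟨r₁, γ, i, c, h1⟩

/-- constancy of the orders along a wedge -/
theorem NG.const (hW : IsWg Γ D) (hOo : IsOpen O) (hO : Dense O)
    (hTw : TwV vV G₀ N X L c O v P Q T ρ S) (hN : ∀ e, CtBd (N e))
    (hthin : Cv 2 {w | w ∈ D ∧ w 0 = 0 ∧ ¬ ∃ x, NG O v T Γ D w x}) {w w' : Cm 4}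
    (h : NG O v T Γ D w x) (h' : NG O v T Γ D w' x') : x = x' := by
  obtain ⟨r, γ, i, c, h1⟩ := id h
  obtain ⟨r', γ', i', c', h1'⟩ := id h'
  refine const_of_thin hW.isOpen hW.conn hthin (R := NG O v T Γ D) (fun w a _ _ h => h.near) ?_ ?_
    (h1.sub (mem_ball_self h1.pos)) h1.zero (h1'.sub (mem_ball_self h1'.pos)) h1'.zero h h'
  · rintro w a b - - ⟨r₁, γ₁, i₁, c₁, k1⟩ ⟨r₂, γ₂, i₂, c₂, k2⟩
    exact NiceW.unique hW hOo hO hTw hN k1 k2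
  · intro w hw hw0 hB
    by_contra hcon
    exact hB ⟨hw, hw0, hcon⟩

theorem thin_iff {Q' : Fin k → ℕ} {α : Fin k → ℚ} (h : OrdW O v T Q' Γ D α) :
    Cv 2 {w | w ∈ D ∧ w 0 = 0 ∧ ¬ ∃ x, NG O v T Γ D w x} := by
  obtain ⟨Ω, g, h1, h2, h3⟩ := h.thin
  refine ⟨Ω, g, h1, h2, subset_trans ?_ h3⟩
  rintro w ⟨k1, k2, k3⟩
  refine ⟨k1, k2, fun ⟨r, γ, i, c, x, hx⟩ => k3 ⟨x, r, γ, i, c, hx⟩⟩

theorem OrdW.ord' {Q' : Fin k → ℕ} {α : Fin k → ℚ} (h : OrdW O v T Q' Γ D α) {w : Cm 4}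
    (hx : NG O v T Γ D w x) (e : Fin k) : x e = α e * Q' e := by
  obtain ⟨r, γ, i, c, hx⟩ := hx
  exact h.ord _ _ _ _ _ _ hx e

/-- there is a nice point near every point of the centre -/
theorem OrdW.exists_nice {Q' : Fin k → ℕ} {α : Fin k → ℚ} (hD : IsOpen D)
    (h : OrdW O v T Q' Γ D α) {w : Cm 4} (hw : w ∈ D) (hw0 : w 0 = 0) {U : Set (Cm 4)}
    (hU : U ∈ 𝓝 w) : ∃ z ∈ U, z ∈ D ∧ z 0 = 0 ∧ ∃ x, NG O v T Γ D z x := by
  obtain ⟨z, ⟨k1, k2⟩, k3, k4⟩ := exists_good (thin_iff h) hw0 (inter_mem hU (hD.mem_nhds hw))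
  refine ⟨z, k1, k2, k3, ?_⟩
  by_contra hcon
  exact k4 ⟨k2, k3, hcon⟩

theorem ordW_of (hW : IsWg Γ D) (hOo : IsOpen O) (hO : Dense O)
    (hTw : TwV vV G₀ N X L c O v P Q T ρ S) (hN : ∀ e, CtBd (N e))
    (hthin : Cv 2 {w | w ∈ D ∧ w 0 = 0 ∧ ¬ ∃ x, NG O v T Γ D w x}) :
    ∃ α, OrdW O v T Q Γ D α := by
  obtain ⟨w, hw, hw0⟩ := hW.ne
  obtain ⟨z, k1, k2, k3⟩ := exists_good hthin hw0 (hW.isOpen.mem_nhds hw)
  have h1 : ∃ x, NG O v T Γ D z x := by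
    by_contra hcon
    exact k3 ⟨k1, k2, hcon⟩
  obtain ⟨x, hx⟩ := h1
  refine ⟨fun e => x e / Q e, ?_, ?_⟩
  · obtain ⟨Ω, g, m1, m2, m3⟩ := hthin
    refine ⟨Ω, g, m1, m2, subset_trans ?_ m3⟩
    rintro w ⟨k1, k2, k3⟩
    exact ⟨k1, k2, fun ⟨x, r, γ, i, c, hx⟩ => k3 ⟨r, γ, i, c, x, hx⟩⟩
  · intro w₀ r γ i c x' hx' e
    have h3 : (Q e : ℚ) ≠ 0 := by
      have := (hTw.tw e).hQ
      exact_mod_cast (Nat.one_le_iff_ne_zero.1 this)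
    have h4 : x = x' := hx.const hW hOo hO hTw hN hthin ⟨r, γ, i, c, hx'⟩
    rw [← h4, div_mul_cancel₀ _ h3]

end

/-- (A1 base) -/
theorem stWgBase : StWgBase := by
  intro Y _ _ _ _ _ k W X r v p P G hR N hN L c n t ht ρ hTw hO Γ D hW
  have hOo : IsOpen ((⋃ l, G l)ᶜ) := (isClosed_iUnion_of_finite hR.closed).isOpen_compl
  have hB : {w | w ∈ D ∧ w 0 = 0 ∧ ¬ ∃ x, NG (⋃ l, G l)ᶜ (fun y => p (v y)) t Γ D w x} = ∅ := by
    rw [Set.eq_empty_iff_forall_notMem]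
    rintro w₀ ⟨hw₀, hw₀0, hcon⟩
    apply hcon
    choose i hi using fun e => (hTw.lb e).cover (p (v (Γ w₀)))
    choose j hj using fun e => (hN e).cover (Γ w₀)
    have hhol : ∀ w ∈ D, HolAt X (fun w => p (v (Γ w))) w := by
      intro w hw
      have hat : At (chartAt (Cm 4) (Γ w)) (Γ w) := H19.at_chartAt _
      have h1 : HolAt W (fun w => v (Γ w)) w := by
        refine ⟨ContinuousAt.comp (g := v) (f := Γ) (hR.emb.continuousAt (mem_univ _))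
          (hW.cont w hw), fun g hg => ?_⟩
        exact analyticAt_comp_chart (g := fun y => g (v y)) (hW.cont w hw) hat (hW.an w hw _ hat)
          ((hR.emb.hol_iff (mem_univ _) hat).1 hg)
      refine ⟨ContinuousAt.comp (g := p) hR.cont.continuousAt h1.1, fun g hg => ?_⟩
      exact h1.2 _ (hR.holo _ g hg)
    obtain ⟨ζ, hζ, hu⟩ := ht.div (Γ w₀)
    have hξc : ContinuousAt Γ w₀ := hW.cont w₀ hw₀
    set ch : Chart 4 Y := chartAt (Cm 4) (Γ w₀) with hch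
    have hat : At ch (Γ w₀) := H19.at_chartAt _
    have hξa := hW.an w₀ hw₀ ch hat
    have hζa : ∀ l, AnalyticAt ℂ (fun w => ζ l (Γ w)) w₀ := fun l =>
      analyticAt_comp_chart hξc hat hξa ((hζ l).2 ch hat).1
    have hζne : ∀ l, ∀ᶠ w in 𝓝 w₀, w ∈ {w | Γ w ∈ (⋃ l, G l)ᶜ} → w 0 ≠ 0 → ζ l (Γ w) ≠ 0 := by
      intro l
      filter_upwards [hξc.eventually (hζ l).1] with w hw hwO _ h0
      exact hwO (mem_iUnion.2 ⟨l, hw.1 h0⟩)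
    have hζnz : ∀ l, ¬ ∀ᶠ w in 𝓝 w₀, ζ l (Γ w) = 0 := by
      intro l hz
      obtain ⟨w, ⟨h1, h2⟩, -, h3⟩ := mem_closure_iff_nhds.1 (hW.dense _ hOo hO hw₀) _
        (hz.and (hξc.eventually (hζ l).1))
      exact h3 (mem_iUnion.2 ⟨l, h2.1 h1⟩)
    choose μ hμ hμ1 using fun l => HasOrd.of_analytic (D := {w | Γ w ∈ (⋃ l, G l)ᶜ}) hw₀0
      (hζa l) (hζnz l)
    have hord : ∀ e, HasOrd {w | Γ w ∈ (⋃ l, G l)ᶜ} w₀ (fun w => t e (i e) (j e) (Γ w))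
        (∑ l, μ l * n e l) := by
      intro e
      obtain ⟨u, hu0, hua, htu⟩ := hu e (i e) (j e) (hi e) (hj e)
      have h1 : HasOrd {w | Γ w ∈ (⋃ l, G l)ᶜ} w₀ (fun w => u (Γ w)) 0 :=
        HasOrd.of_unit hw₀0 (analyticAt_comp_chart hξc hat hξa (hua ch hat)) hu0
      have h2 := HasOrd.prod hw₀0 Finset.univ fun l => (hμ l).zpow (hζne l) (n e l)
      have h3 := h1.mul hw₀0 h2
      rw [zero_add] at h3
      refine h3.congr ?_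
      filter_upwards [hξc.eventually htu] with w hw hwO _
      exact hw hwO
    have hev : ∀ᶠ w in 𝓝 w₀, w ∈ D ∧ (∀ e, p (v (Γ w)) ∈ (L e).U (i e)) ∧
        (∀ e, Γ w ∈ (N e).U (j e)) ∧ ∀ e, w 0 = 0 → HasOrd {w | Γ w ∈ (⋃ l, G l)ᶜ} w
          (fun w => t e (i e) (j e) (Γ w)) (∑ l, μ l * n e l) := by
      refine (hW.isOpen.eventually_mem hw₀).and (Filter.Eventually.and ?_
        (Filter.Eventually.and ?_ ?_))
      · rw [eventually_all]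
        exact fun e => (hhol w₀ hw₀).1.eventually_mem (((hTw.lb e).isOpen (i e)).mem_nhds (hi e))
      · rw [eventually_all]
        exact fun e => hξc.eventually_mem (((hN e).isOpen (j e)).mem_nhds (hj e))
      · rw [eventually_all]
        exact fun e => (hord e).eventually hw₀0
    obtain ⟨r₁, hr₁, hball⟩ := Metric.eventually_nhds_iff_ball.1 hev
    exact ⟨_, r₁, fun w => p (v (Γ w)), i, j, ⟨hw₀0, hr₁, fun w hw => (hball w hw).1,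
      fun w hw => hhol w (hball w hw).1, fun w hw => (hball w hw).2.1,
      fun w hw => (hball w hw).2.2.1, fun w _ _ => rfl,
      fun w hw h0 e => (hball w hw).2.2.2 e h0⟩⟩
  exact ordW_of hW hOo hO hTw hN (by rw [hB]; exact H762.cv_empty)

/-- (A1 step) -/
theorem stWgStep : StWgStep := by
  intro Y _ _ _ _ _ k hk V X Z X' vV hvV G₀ N hN L L' c c' O v P Q T ρ S h f f' p q s a hf d hd hc
    hda b hb hO' Γ D hW α ho
  have h' := h.step hk (fun e => (hN e).isOpen) hvV hf hd hc hda hb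
  set O' : Set Y := {y | y ∈ O ∧ f (v y) ∉ Amin f} with hO'def
  set v' : Y → X'.pt := fun y => hf.small'.sec (f (v y)) with hv'
  set T' : ∀ e, (L' e).ι → (N e).ι → Y → ℂ :=
    fun e => stT v f (P e) (p e) (T e) (s e) (b e) with hT'
  have hOo : IsOpen O := (h.tw ⟨0, hk⟩).emb.isOpen
  have hOo' : IsOpen O' := (h'.tw ⟨0, hk⟩).emb.isOpen
  have hO : Dense O := hO'.mono fun y hy => hy.1
  have hQ0 : ∀ e, (0 : ℝ) < Q e := fun e => by exact_mod_cast (h.tw e).hQ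
  have hp0 : ∀ e, (0 : ℝ) < p e := fun e => by exact_mod_cast hf.hp e
  -- the bad set
  have hthin : Cv 2 {w | w ∈ D ∧ w 0 = 0 ∧ ¬ ∃ x, NG O' v' T' Γ D w x} := by
    have h1 : Cv 2 {w | w ∈ D ∧ w 0 = 0 ∧ (∃ x, NG O v T Γ D w x) ∧
        ¬ ∃ x, NG O' v' T' Γ D w x} := by
      apply H762.cv_of_local
      rintro w₀ ⟨hw₀, hw₀0, ⟨x, r, γ, i, n, hn⟩, -⟩
      obtain ⟨r₁, g, hr₁, hs1, hg, hne, hgood⟩ := nice_upW hk h hf hd hda hb hW hOo' hO' hn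
      refine ⟨ball w₀ r₁, isOpen_ball.mem_nhds (mem_ball_self hr₁), ?_⟩
      refine (cv_zero hw₀0 hg hne).mono ?_
      rintro w ⟨hw, -, hw0, -, hcon⟩
      refine ⟨hw, hw0, ?_⟩
      by_contra hgw
      obtain ⟨r₂, γ₁, j, x₁, hs2, hn', -, -, -⟩ := hgood w hw hw0 hgw
      exact hcon ⟨x₁, r₂, γ₁, j, n, hn'⟩
    refine (h1.union (thin_iff ho)).mono ?_
    rintro w ⟨k1, k2, k3⟩
    by_cases hx : ∃ x, NG O v T Γ D w x
    · exact Or.inl ⟨k1, k2, hx, k3⟩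
    · exact Or.inr ⟨k1, k2, hx⟩
  obtain ⟨α', hα'⟩ := ordW_of hW hOo' hO' h' hN hthin
  have hsumα : ∀ w₀ r γ i n x, NiceW O' v' T' Γ D w₀ r γ i n x →
      ∑ e, ρ e / ((Q e * p e : ℕ) : ℝ) * x e = ∑ e, ρ e * α' e := by
    intro w₀ r γ i n x hn
    refine Finset.sum_congr rfl fun e _ => ?_
    rw [hα'.ord _ _ _ _ _ _ hn e]
    have h1 := hQ0 e
    have h2 := hp0 e
    push_cast
    field_simp
  have hsumα' : ∀ w₀ r γ i n x, NiceW O v T Γ D w₀ r γ i n x →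
      ∑ e, ρ e / (Q e : ℝ) * x e = ∑ e, ρ e * α e := by
    intro w₀ r γ i n x hn
    refine Finset.sum_congr rfl fun e _ => ?_
    rw [ho.ord _ _ _ _ _ _ hn e]
    have h1 := hQ0 e
    push_cast
    field_simp
  refine ⟨α', hα', ?_, ?_⟩
  · obtain ⟨w₀, hw₀, hw₀0⟩ := hW.ne
    obtain ⟨z, -, -, -, x, r, γ, i, n, hn⟩ := OrdW.exists_nice hW.isOpen ho hw₀ hw₀0 univ_mem
    obtain ⟨r₁, g, hr₁, hs1, hg, ⟨w₁, hw₁, hw₁0, hgw₁⟩, hgood⟩ :=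
      nice_upW hk h hf hd hda hb hW hOo' hO' hn
    obtain ⟨r₂, γ₁, j, x₁, hs2, hn₂, -, hle, -⟩ := hgood w₁ hw₁ hw₁0 hgw₁
    rw [← hsumα _ _ _ _ _ _ hn₂, ← hsumα' _ _ _ _ _ _ hn]
    exact hle
  · rintro ⟨w₀, r, γ, i, n, x, hn, hnA⟩
    -- a nice point on the previous stage
    obtain ⟨z, hzb, hzD, hz0, x₀, r₀, γ₀, i₀, n₀, hn₀⟩ := OrdW.exists_nice hW.isOpen ho
      (hn.sub (mem_ball_self hn.pos)) hn.zero (isOpen_ball.mem_nhds (mem_ball_self hn.pos))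
    obtain ⟨r₃, hr₃, hs3⟩ := Metric.isOpen_iff.1 (isOpen_ball.inter isOpen_ball) z
      (⟨hzb, mem_ball_self hn₀.pos⟩ : z ∈ ball w₀ r ∩ ball z r₀)
    have hn₃ := NiceW.restrict hn₀ hz0 hr₃ fun w hw => (hs3 hw).2
    have key : ∀ w ∈ ball z r₃, f (γ₀ w) = f' (γ w) := by
      refine eqOn_of_closure (D := {w | Γ w ∈ O'}) isOpen_ball (fun w hw =>
        (hf.small.cont.continuousAt).comp (hn₃.hol w hw).1) (fun w hw =>
        (hf.small'.cont.continuousAt).comp (hn.hol w (hs3 hw).1).1) ?_ ?_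
      · intro w hw
        rw [mem_closure_iff_nhds]
        intro U hU
        obtain ⟨y, h1, h2⟩ := mem_closure_iff_nhds.1 (hW.dense O' hOo' hO' (hn₃.sub hw))
          (U ∩ ball z r₃) (inter_mem hU (isOpen_ball.mem_nhds hw))
        exact ⟨y, h1.1, h1.2, h2.2⟩
      · intro w hw hwO
        show f (γ₀ w) = f' (γ w)
        rw [hn₃.eq w hw hwO.1, hn.eq w (hs3 hw).1 hwO]
        exact (hf.small'.sec_eq _).symm
    obtain ⟨r₁, g, hr₁, hs1, hg, ⟨w₁, hw₁, hw₁0, hgw₁⟩, hgood⟩ :=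
      nice_upW hk h hf hd hda hb hW hOo' hO' hn₃
    obtain ⟨r₂, γ₁, j, x₁, hs2, hn₂, -, -, hlt⟩ := hgood w₁ hw₁ hw₁0 hgw₁
    rw [← hsumα _ _ _ _ _ _ hn₂, ← hsumα' _ _ _ _ _ _ hn₃]
    refine hlt fun w hw hw0 => ?_
    rw [key w hw]
    exact hnA w (hs3 hw).1 hw0

/-- (A1 transfer) -/
theorem stWgTrans : StWgTrans := by
  intro Y _ _ _ _ _ k hk V X vV hvV G₀ N hN L c O hO v P Q T ρ S hTw Γ Γ' D D' hW hW' α α' hα hα'
    w₁ hw₁ hw₁0 χ hχ hχD hz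
  have hOo : IsOpen O := (hTw.tw ⟨0, hk⟩).emb.isOpen
  -- the inverse
  obtain ⟨χ', C, hχ', hχ'0, hχ0, m1, m2, m3, -⟩ := locIso_data hχ hw₁0 (hz.mono fun w hw => hw.1)
  obtain ⟨U', hU's, hU', hU'1⟩ := _root_.mem_nhds_iff.1 hχ'.eventually_analyticAt
  have hbad : Cv 2 {w | w ∈ D ∧ w 0 = 0 ∧ ¬ ∃ x, NG O v T Γ D w x} := thin_iff hα
  have hbad' : Cv 2 (χ' '' ({w | w ∈ D' ∧ w 0 = 0 ∧ ¬ ∃ x, NG O v T Γ' D' w x} ∩ U')) :=
    ((thin_iff hα').mono inter_subset_left).image hU' inter_subset_right fun z hz => hU's hz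
  have hdet : ∀ᶠ w in 𝓝 w₁, T3.LocIso χ w := by
    have hc1 : ContinuousAt (fun w => (fderiv ℂ χ w).det) w₁ :=
      (ContinuousLinearMap.continuous_det (𝕜 := ℂ) (E := Cm 4)).continuousAt.comp
        hχ.1.fderiv.continuousAt
    filter_upwards [hχ.1.eventually_analyticAt, hc1.eventually_ne hχ.2] with w h1 h2
    exact ⟨h1, h2⟩
  have hct : Tendsto χ (𝓝 w₁) (𝓝 (χ w₁)) := hχ.1.continuousAt
  have hev1 : ∀ᶠ w in 𝓝 w₁, w ∈ D := hW.isOpen.eventually_mem hw₁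
  have hev2 : ∀ᶠ w in 𝓝 w₁, χ w ∈ D' := hct.eventually (hW'.isOpen.eventually_mem hχD)
  have hev3 : ∀ᶠ w in 𝓝 w₁, χ w ∈ U' := hct.eventually (hU'.eventually_mem hU'1)
  obtain ⟨z, ⟨k1, k2, k3, k4, k5, k6⟩, hz0, hzB⟩ := exists_good (hbad.union hbad') hw₁0
    (hev1.and (hev2.and (hev3.and (m1.and (hdet.and hz.eventually_nhds)))))
  have hx : ∃ x, NG O v T Γ D z x := by
    by_contra hcon
    exact hzB (Or.inl ⟨k1, hz0, hcon⟩)
  have hχz0 : χ z 0 = 0 := k6.self_of_nhds.1.2 hz0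
  have hx' : ∃ x, NG O v T Γ' D' (χ z) x := by
    by_contra hcon
    exact hzB (Or.inr ⟨χ z, ⟨⟨k2, hχz0, hcon⟩, k3⟩, k4⟩)
  obtain ⟨x, r, γ, i, c₁, hn⟩ := hx
  obtain ⟨x', r', γ', i', c', hn'⟩ := hx'
  obtain ⟨r₁, hn₁⟩ := NiceW.comp hW.isOpen k1 hz0 k5 k6 hn'
  have h1 : x = x' := NiceW.unique hW hOo hO hTw hN hn hn₁
  funext e
  have h3 : (Q e : ℚ) ≠ 0 := by
    have := (hTw.tw e).hQ
    exact_mod_cast (Nat.one_le_iff_ne_zero.1 this)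
  have e1 := hα.ord _ _ _ _ _ _ hn e
  have e2 := hα'.ord _ _ _ _ _ _ hn' e
  rw [h1, e2] at e1
  exact (mul_right_cancel₀ h3 e1).symm

end Vale.Agent.P277.H884.W
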