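import Vale.Agent.P277.H371.N.ChainN
import Vale.Agent.P277.H615.R.DatumV
import Vale.Agent.P277.H762.L1a

/-!
# P277, T4: the generic germ of a wedge centred in a flipped surface, for towers outside the bad set
-/

open scoped Manifold ContDiff Topology
open Vale.Agent.P272.K Vale.Agent.P285.H281.FD Vale.Agent.P267.H175 Set Filter Metric

noncomputable section

namespace Vale.Agent.P277.H884.N

open Vale.Agent.P277 Vale.Agent.P277.T2 Vale.Agent.P277.H335 Vale.Agent.P277.H615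
open Vale.Agent.P277.H19 (exists_max_pow analyticAt_det det_fderiv_comp)
open Vale.Agent.P277.H371.N (TwN)

variable {Y : Type} [TopologicalSpace Y] [ChartedSpace (Cm 4) Y]
  [T2Space Y] [CompactSpace Y] [IsManifold 𝓘(ℂ, Cm 4) ω Y]

/-- a surface is not contained in a set of dimension one -/
theorem exists_notMem {X : CSp} {ξ : Cm 4 → X.pt} {B : Set (Cm 4)} (hξ : H19.LocIso X ξ B)
    {T : Set X.pt} (hT : DimLe X 1 T) {U : Set (Cm 4)} (hU : IsOpen U) (hUB : U ⊆ B)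
    {w : Cm 4} (hw : w ∈ U) (hw0 : w 0 = 0) (hw1 : w 1 = 0) :
    ∃ z ∈ U, z 0 = 0 ∧ z 1 = 0 ∧ ξ z ∉ T := by
  by_contra hcon
  push Not at hcon
  obtain ⟨Ω, g, h1, h2, h3⟩ := hξ.cover hT
  let ins2 : Cm 2 → Cm 4 := fun u => ![0, 0, u 0, u 1]
  have hins : Continuous ins2 := by
    refine continuous_pi fun i => ?_
    fin_cases i
    · exact continuous_const
    · exact continuous_const
    · exact continuous_apply 0
    · exact continuous_apply 1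
  have hw' : ins2 ![w 2, w 3] = w := by
    ext i
    fin_cases i
    · exact hw0.symm
    · exact hw1.symm
    · rfl
    · rfl
  have h4 : ins2 ⁻¹' U ∈ 𝓝 (![w 2, w 3] : Cm 2) :=
    hins.continuousAt.preimage_mem_nhds (by rw [hw']; exact hU.mem_nhds hw)
  refine H762.not_cv_nhds (k := 1) (V := Cm 2) (by rw [Module.finrank_fin_fun]; norm_num) h4
    ⟨Ω, fun l p => ![g l p 2, g l p 3], h1, fun l p hp => ?_, ?_⟩
  · have h5 := h2 l p hp
    rw [analyticAt_pi_iff] at h5 ⊢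
    intro i
    fin_cases i
    · exact h5 2
    · exact h5 3
  · intro u hu
    obtain ⟨l, p, hp, hpu⟩ := mem_iUnion.1 (h3 ⟨hUB hu, hcon _ hu rfl rfl⟩)
    refine mem_iUnion.2 ⟨l, p, hp, ?_⟩
    ext i
    fin_cases i
    · show g l p 2 = u 0
      rw [hpu]; rfl
    · show g l p 3 = u 1
      rw [hpu]; rfl

theorem bl_eq_self {w : Cm 4} (h0 : w 0 = 0) (h1 : w 1 = 0) : bl w = w := by
  ext i
  fin_cases i
  · rfl
  · show w 0 * w 1 = w 1
    rw [h0, h1, zero_mul]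
  · rfl
  · rfl

/-- the generic germ of a wedge centred in `S`, outside `Nc`: the centre of its lift is disjoint
from `Bad` -/
theorem exists_germN (hTA : T2.StTAc) (hTD : StTD) (hDis : T2.StDis) {k : ℕ} {V X : CSp}
    {vV : Y → V.pt} {D : Set Y} {M : Fin k → Bd Y} {m : Fin k → ℕ}
    {L : Fin k → Bd X.pt} {c : Fin k → ℕ} {O : Set Y} {v : Y → X.pt} {P Q : Fin k → ℕ}
    {T : ∀ e, (L e).ι → (((Bd.can 4 Y).pow (m e)).mul (M e)).ι → Y → ℂ} {ρ : Fin k → ℝ}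
    {S Nc : Set X.pt} {Bad : Set Y} (hk : 1 ≤ k) (hM : ∀ e, IsLB 4 (M e))
    (hTw : TwN vV D (fun e => ((Bd.can 4 Y).pow (m e)).mul (M e)) X L c O v P Q T ρ S Nc Bad)
    (hSan : IsAn X univ S) (hSO : S ⊆ (v '' O)ᶜ) (hS1 : ¬ DimLe X 1 S)
    (hs : DimLe X 1 {x | x ∈ S ∧ ¬ IsReg 4 X x}) (hNc : IsClosed Nc) (hSN : DimLe X 1 (S ∩ Nc))
    {s : ℕ} {β : Fin s → Fin k}
    {sg : ∀ i, (M (β i)).ι → Y → ℂ} (hsec : ∀ i, IsSec 4 (M (β i)) (sg i))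
    (hsg : ∀ i a y, y ∈ (M (β i)).U a → ∃ᶠ y' in 𝓝 y, sg i a y' ≠ 0) :
    ∃ (W : Set (Cm 4)) (w₂ : Cm 4) (φ : Cm 4 → X.pt) (γ : Cm 4 → Y) (ch : Chart 4 Y)
      (μ : ∀ e, (M e).ι) (i : ∀ e, (L e).ι) (x : Fin k → ℚ) (J : ℕ) (κ : Fin k → ℤ)
      (g : Fin s → ℕ), GermV O v T S W w₂ φ γ ch μ i x J ∧ 0 < ∑ e, ρ e / Q e * x e ∧
      (∀ w ∈ W, w 0 = 0 → γ w ∉ Bad) ∧ (∀ w ∈ W, φ w ∉ Nc) ∧
      (∀ e, x e = Q e * (m e * (1 - J) - κ e)) ∧
      (∀ e, ∀ χ : Chart 4 Y → Cm 4 → Matrix (Fin 4) (Fin 4) ℂ, IsKahler χ → Nef χ (M e) →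
        0 ≤ κ e) ∧
      ∀ a, ∃ Φg, AnalyticAt ℂ Φg w₂ ∧ Φg w₂ ≠ 0 ∧
        ∀ᶠ w in 𝓝 w₂, sg a (μ (β a)) (γ w) = w 0 ^ g a * Φg w := by
  have hv : IsOpenEmb X O v := (hTw.tw ⟨0, hk⟩).emb
  have hO : DimLe X 2 (v '' O)ᶜ := (hTw.tw ⟨0, hk⟩).dim
  obtain ⟨ξ, r, hr, hξ, hWo, h0W, hφ, hφS, hφd⟩ := exists_wedge hTA hv hO hSan hSO hS1 hs
  set φ : Cm 4 → X.pt := fun w => ξ (bl w) with hφdef
  set WB : Set (Cm 4) := {w : Cm 4 | bl w ∈ ball (0 : Cm 4) r} with hWB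
  obtain ⟨ws, hws, hws0, hws1, hwsN⟩ : ∃ z ∈ ball (0 : Cm 4) r, z 0 = 0 ∧ z 1 = 0 ∧
      ξ z ∉ S ∩ Nc :=
    exists_notMem hξ hSN isOpen_ball subset_rfl (mem_ball_self hr) rfl rfl
  have hblws : bl ws = ws := bl_eq_self hws0 hws1
  have hwsB : ws ∈ WB := by
    show bl ws ∈ ball (0 : Cm 4) r
    rw [hblws]; exact hws
  have hφws : φ ws ∉ Nc := by
    intro h
    refine hwsN ⟨?_, ?_⟩
    · have := hφS ws hwsB hws0
      rwa [hblws] at this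
    · have : ξ (bl ws) ∈ Nc := h
      rwa [hblws] at this
  choose i hi using fun e => (hTw.lb e).cover (φ ws)
  set W' : Set (Cm 4) := {w | w ∈ WB ∧ φ w ∈ (⋂ e, (L e).U (i e)) ∩ Ncᶜ} with hW'
  have hW'o : IsOpen W' := by
    have h1 : ContinuousOn φ WB := fun w hw => (hφ w hw).1.continuousWithinAt
    exact h1.isOpen_inter_preimage hWo
      ((isOpen_iInter_of_finite fun e => (hTw.lb e).isOpen (i e)).inter hNc.isOpen_compl)
  have hcl' : W' ⊆ closure {w | w ∈ W' ∧ φ w ∈ v '' O} :=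
    subset_closure_of_open hW'o (fun w hw => hw.1) hφd
  have hW'i : ∀ w ∈ W', ∀ e, φ w ∈ (L e).U (i e) := fun w hw e => mem_iInter.1 hw.2.1 e
  obtain ⟨w₁, hw₁, hw₁0, W₁, γ, ch, cc, x, hW₁, hw₁W, hW₁W, hγ, hO1, hO2, hT, -, hpos⟩ :=
    hTw.chain W' ws φ i hW'o ⟨hwsB, mem_iInter.2 hi, hφws⟩ hws0 (fun w hw => hφ w hw.1) hcl'
      hW'i
  obtain ⟨hpos, hbad⟩ := hpos fun w hw hw0 => ⟨hφS w hw.1 hw0, hw.2.2⟩
  obtain ⟨g1, g2, g3, g4⟩ := hγ w₁ hw₁W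
  have hW₁n := hW₁.mem_nhds hw₁W
  have hdW₁ : W₁ ⊆ closure {w | w ∈ W₁ ∧ φ w ∈ v '' O} :=
    subset_closure_of_open hW₁ hW₁W hcl'
  -- the orders in a common chart
  have hord : ∀ e, HasOrd {w | γ w ∈ O} w₁ (fun w => T e (i e) (ch, (cc e).2) (γ w)) (x e) := by
    intro e
    refine RR.hasOrd_change (hM e) (hTw.tw e).lb (hTw.tw e).iso hw₁0 g1 (φ := φ) ?_ ?_
      (e := (cc e).1) (g4 e).1 g2 (g4 e).2 g3 (hT e)
    · filter_upwards [hW₁n] with w hw using hW'i w (hW₁W hw) e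
    · filter_upwards [hW₁n] with w hw using hO2 w hw
  -- the Jacobian
  have hdet : ∀ w ∈ W₁, φ w ∈ v '' O → (fderiv ℂ (fun w => ch (γ w)) w).det ≠ 0 := by
    intro w hw hwO
    have hwB : bl w ∈ ball (0 : Cm 4) r := (hW₁W hw).1
    have hw0 : w 0 ≠ 0 := fun h0 => (hSO (hφS w hwB h0)) hwO
    set y₀ : Y := γ w with hy₀
    have h1 : ∀ᶠ z in 𝓝 w, γ z = hv.inv y₀ (ξ (bl z)) := by
      filter_upwards [hW₁.mem_nhds hw, (hφ w hwB).1.eventually_mem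
        (hv.isOpen_image.mem_nhds hwO)] with z hz hzO
      have h2 := hO1 z hz hzO
      have h3 := hO2 z hz h2
      have h4 : ξ (bl z) = v (γ z) := h3.symm
      rw [h4, hv.inv_apply y₀ h2]
    have heq : (fun w => ch (γ w)) =ᶠ[𝓝 w] fun w => ch (hv.inv y₀ (ξ (bl w))) := by
      filter_upwards [h1] with z hz
      rw [hz]
    have hat : At ch (hv.inv y₀ (ξ (bl w))) := by
      rw [← h1.self_of_nhds]; exact (hγ w hw).2.1
    have hρan := hξ.rho_analyticAt hv y₀ hwB hwO hat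
    have hJw : (fderiv ℂ (fun w => ch (γ w)) w).det =
        (fderiv ℂ (fun w => ch (hv.inv y₀ (ξ w))) (bl w)).det * w 0 := by
      rw [heq.fderiv_eq, ← H19.det_fderiv_bl w]
      exact det_fderiv_comp (G := fun w => ch (hv.inv y₀ (ξ w))) (F := bl) hρan.differentiableAt
        (H19.analyticAt_bl w).differentiableAt
    rw [hJw]
    exact mul_ne_zero (hξ.rho_det_ne_zero hv y₀ hwB hwO hat) hw0
  have hJz : ¬ ∀ᶠ w in 𝓝 w₁, (fderiv ℂ (fun w => ch (γ w)) w).det = 0 := by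
    intro hz
    obtain ⟨w, ⟨h1, h2⟩, h3, h4⟩ := mem_closure_iff_nhds.1 (hdW₁ hw₁W) _
      (hz.and (hW₁.mem_nhds hw₁W))
    exact hdet w h3 h4 h1
  obtain ⟨J, FJ, hFJ, hJFJ, hFJ0⟩ := exists_ord (analyticAt_det g3) hw₁0 hJz
  -- the sections
  have hsga : ∀ a, AnalyticAt ℂ (fun w => sg a ((cc (β a)).2) (γ w)) w₁ := by
    intro a
    exact analyticAt_comp_chart g1 g2 g3
      ((hsec a).holo _ ch _ g2 (g4 (β a)).2).analyticAt
  have hsgz : ∀ a, ¬ ∀ᶠ w in 𝓝 w₁, sg a ((cc (β a)).2) (γ w) = 0 := by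
    intro a hz
    obtain ⟨w, ⟨h1, h2⟩, h3, h4⟩ := mem_closure_iff_nhds.1 (hdW₁ hw₁W) _
      (hz.eventually_nhds.and (hW₁.mem_nhds hw₁W))
    have h5 := hdet w h3 h4
    obtain ⟨k1, k2, k3, k4⟩ := hγ w h3
    have hinj : Function.Injective (fderiv ℂ (fun w => ch (γ w)) w) := by
      have h1 : LinearMap.det (fderiv ℂ (fun w => ch (γ w)) w : Cm 4 →ₗ[ℂ] Cm 4) ≠ 0 := h5
      exact (LinearMap.equivOfDetNeZero _ h1).injective
    obtain ⟨θ, hθ, hθs, -, -⟩ := H73.exists_localInv k3 hinj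
    -- near `γ w` the section vanishes
    have h6 : ∀ᶠ y' in 𝓝 (γ w), sg a ((cc (β a)).2) y' = 0 := by
      have h7 : Tendsto (fun y' => θ.symm (ch y')) (𝓝 (γ w)) (𝓝 w) := by
        have h8 : ContinuousAt ch (γ w) := ch.continuousAt k2.2
        have h9 : ch (γ w) ∈ θ.target := by
          have := θ.map_source hθs
          rwa [hθ] at this
        have h10 : ContinuousAt θ.symm (ch (γ w)) := θ.continuousAt_symm h9
        have h11 : Tendsto (fun y' => θ.symm (ch y')) (𝓝 (γ w)) (𝓝 (θ.symm (ch (γ w)))) :=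
          (ContinuousAt.comp (g := θ.symm) (f := ch) h10 h8)
        have h12 : θ.symm (ch (γ w)) = w := by
          have := θ.left_inv hθs
          rwa [hθ] at this
        rwa [h12] at h11
      have h9 : ∀ᶠ y' in 𝓝 (γ w), ch y' ∈ θ.target := by
        refine (ch.continuousAt k2.2).eventually_mem (θ.open_target.mem_nhds ?_)
        have := θ.map_source hθs
        rwa [hθ] at this
      filter_upwards [h7.eventually h1, h7.eventually (hW₁.mem_nhds h3), h9,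
        ch.open_source.mem_nhds k2.2] with y' m1 m2 m3 m4
      have m5 : ch (γ (θ.symm (ch y'))) = ch y' := by
        have := θ.right_inv m3
        rwa [hθ] at this
      have m6 : γ (θ.symm (ch y')) = y' := ch.injOn (hγ _ m2).2.1.2 m4 m5
      rw [m6] at m1
      exact m1
    exact (hsg a _ _ (k4 (β a)).2) (h6.mono fun y' hy' => by simpa using hy')
  choose g Fg hFg hgFg hFg0 using fun a => exists_ord (hsga a) hw₁0 (hsgz a)
  -- a generic point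
  have hfr := exists_unit'' hw₁0 hord (κ := Option (Fin s))
    (F := fun o => o.elim FJ Fg) (fun o => by
      rcases o with _ | a
      · exact hFJ
      · exact hFg a) (fun o => by
      rcases o with _ | a
      · exact hFJ0
      · exact hFg0 a)
  have hev : ∀ᶠ w in 𝓝 w₁, w ∈ W₁ ∧ (∀ e, w 0 = 0 →
      HasOrd {w | γ w ∈ O} w (fun w => T e (i e) (ch, (cc e).2) (γ w)) (x e)) ∧
      AnalyticAt ℂ FJ w ∧ (∀ᶠ z in 𝓝 w, (fderiv ℂ (fun w => ch (γ w)) z).det = z 0 ^ J * FJ z) ∧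
      ∀ a, AnalyticAt ℂ (Fg a) w ∧ ∀ᶠ z in 𝓝 w, sg a ((cc (β a)).2) (γ z) = z 0 ^ g a * Fg a z := by
    refine (hW₁.eventually_mem hw₁W).and (Filter.Eventually.and ?_
      (hFJ.eventually_analyticAt.and (hJFJ.eventually_nhds.and ?_)))
    · rw [eventually_all]
      exact fun e => (hord e).eventually hw₁0
    · rw [eventually_all]
      exact fun a => (hFg a).eventually_analyticAt.and (hgFg a).eventually_nhds
  obtain ⟨W₂, hW₂s, hW₂, hw₁W₂⟩ := _root_.mem_nhds_iff.1 hev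
  obtain ⟨w₂, ⟨hw₂0, hFne, K, hK, hdat⟩, hw₂W⟩ := (hfr.and_eventually (hW₂.mem_nhds hw₁W₂)).exists
  choose ν Φ hν hΦ hΦ0 hrel using hdat
  have hw₂W₁ : w₂ ∈ W₁ := (hW₂s hw₂W).1
  obtain ⟨k1, k2, k3, k4⟩ := hγ w₂ hw₂W₁
  obtain ⟨-, -, m3, m4, m5⟩ := hW₂s hw₂W
  have hκ : ∀ e, ∃ κ : ℤ, ν e = Q e * K * (m e * (1 - J) - κ) ∧
      ∀ χ : Chart 4 Y → Cm 4 → Matrix (Fin 4) (Fin 4) ℂ, IsKahler χ → Nef χ (M e) → 0 ≤ κ := by
    intro e
    refine txV hTD hDis hv hO hSO hξ hφS (hM e) (hTw.tw e).lb (hTw.tw e).hQ (hTw.tw e).iso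
      (hW₁W hw₂W₁).1 hw₂0 k1 k2 (k4 e).2 k3 ?_ (hW'i w₂ (hW₁W hw₂W₁) e) hK (hΦ e).continuousAt
      (hΦ0 e) (hrel e) m3.continuousAt (hFne none) m4
    filter_upwards [hW₁.mem_nhds hw₂W₁] with w hw hwO
    exact ⟨hO1 w hw hwO, hO2 w hw (hO1 w hw hwO)⟩
  choose κ hκ1 hκ2 using hκ
  refine ⟨W₂, w₂, φ, γ, ch, fun e => (cc e).2, i, x, J, κ, g, ⟨hW₂, hw₂W, hw₂0,
    fun w hw => hφ w (hW₁W (hW₂s hw).1).1, fun w hw hw0 => hφS w (hW₁W (hW₂s hw).1).1 hw0,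
    subset_closure_of_open hW₂ (fun w hw => (hW₂s hw).1) hdW₁,
    fun w hw => ⟨(hγ w (hW₂s hw).1).1, (hγ w (hW₂s hw).1).2.1, (hγ w (hW₂s hw).1).2.2.1⟩,
    fun w hw e => ((hγ w (hW₂s hw).1).2.2.2 e).2, fun w hw => hW'i w (hW₁W (hW₂s hw).1),
    fun w hw => hO1 w (hW₂s hw).1, fun w hw => hO2 w (hW₂s hw).1,
    fun w hw hw0 e => (hW₂s hw).2.1 e hw0, ⟨FJ, m3, hFne none, m4⟩,
    ⟨K, hK, fun e => ⟨ν e, Φ e, hν e, hΦ e, hΦ0 e, hrel e⟩⟩⟩, hpos,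
    fun w hw hw0 => hbad w (hW₂s hw).1 hw0, fun w hw => (hW₁W (hW₂s hw).1).2.2, fun e => ?_, hκ2,
    fun a => ⟨Fg a, (m5 a).1, hFne (some a), (m5 a).2⟩⟩
  have h1 : (K : ℚ) ≠ 0 := by exact_mod_cast (Nat.one_le_iff_ne_zero.1 hK)
  have h2 : x e * K = Q e * (m e * (1 - J) - κ e) * K := by
    rw [← hν e, hκ1 e]
    push_cast
    ring
  exact mul_right_cancel₀ h1 h2

end Vale.Agent.P277.H884.N
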