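import Vale.Agent.P277.H762.A2N
import Vale.Agent.P277.H29.ClosN
import Vale.Agent.P277.H60.Z.Match
import Vale.Agent.P277.H60.Z.StFinV
import Vale.Agent.P277.H335.RegNFin
import Vale.Agent.P277.H615.TAc
import Vale.Agent.P277.H615.R.Count
import Vale.Agent.P277.H615.R.P7B
import Vale.Agent.P277.H884.N3

/-!
# P277, T4: (P7N)
-/

open scoped Manifold ContDiff Topology
open Vale.Agent.P272.K Vale.Agent.P285.H281.FD Vale.Agent.P267.H175 Set Filter Metric

noncomputable section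

namespace Vale.Agent.P277.H884.N

open Vale.Agent.P277 Vale.Agent.P277.T2 Vale.Agent.P277.H335 Vale.Agent.P277.T3
open Vale.Agent.P277.H615

/-- (P7N) -/
theorem stP7N : T3.StP7N := by
  classical
  intro Y _ _ _ _ _ χ k s M m ρ H _ _ _ _ _ _ ι sg W X Z r v₀ p P G f f' A L c σ n t I I' Nn h O v hseq hO
    hv β hcon
  have hregB := RR.stRegN Y χ k s M m ρ H ι sg W X Z r v₀ p P G f f' A L c σ n t I I' Nn h
  obtain ⟨v', P', Q', T, hTS, -⟩ := H762.exists_twSeqN_of H884.stL0 h hseq hO hv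
  have hk : 1 ≤ k + s := by
    rcases Nat.eq_zero_or_pos (k + s) with h0 | h0
    · exfalso
      have h1 := h.sum
      have h2 : IsEmpty (Fin (k + s)) := by rw [h0]; infer_instance
      rw [Finset.sum_of_isEmpty] at h1
      exact zero_ne_one h1
    · exact h0
  have hneX : ∀ j, Nonempty (X j).pt := by
    intro j
    have h1 := (h.flip j).flip.ninj
    rw [Function.Injective] at h1
    push Not at h1
    obtain ⟨x, -⟩ := h1
    exact ⟨x⟩
  have hneW : Nonempty W.pt := by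
    obtain ⟨x⟩ := hneX 0
    obtain ⟨w, -⟩ := h.res.psurj x
    exact ⟨w⟩
  have hneY : Nonempty Y := by
    obtain ⟨w⟩ := hneW
    obtain ⟨y, -⟩ := h.res.surj w
    exact ⟨y⟩
  have hN : ∀ e, CtBd (((Bd.can 4 Y).pow (m e)).mul (M e)) := fun e => ctBd (h.lb e) (m e)
  have hflipD : ∀ j, ∃ pp qq s' a, ∃ hf : FlipD (f j) (f' j) (L j) (L (j + 1)) pp qq s' a, True := by
    intro j
    obtain ⟨pp, qq, s', d, a, hd, hcpq, hf, hda⟩ := exists_flipD (h.flip j).flip (h.c1 j)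
    exact ⟨pp, qq, s', a, hf, trivial⟩
  -- the values along the wedges
  have hex := fun (Γ : Cm 4 → Y) (D : Set (Cm 4)) (hW : IsWg Γ D) =>
    hTS.exists_ordW stWgBase1 stWgStep1 hk h.lb h.res h.cmp hW
  choose α hα1 hα2 hα3 using hex
  set al : (Cm 4 → Y) → Set (Cm 4) → ℕ → Fin (k + s) → ℚ := fun Γ D j =>
    if hW : IsWg Γ D then α Γ D hW j else 0 with hal
  set val : (Cm 4 → Y) → Set (Cm 4) → ℕ → ℝ := fun Γ D j => ∑ e, ρ e * al Γ D j e with hvaldef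
  have hal' : ∀ Γ D (hW : IsWg Γ D) j, al Γ D j = α Γ D hW j := by
    intro Γ D hW j
    simp only [hal]
    rw [dif_pos hW]
  have hmono : ∀ Γ D, IsWg Γ D → ∀ j, val Γ D j ≤ val Γ D (j + 1) := by
    intro Γ D hW j
    simp only [hvaldef]
    rw [hal' Γ D hW, hal' Γ D hW]
    exact hα2 Γ D hW j
  have hrel : ∀ γ γ' D D' w w', IsWg γ D → IsWg γ' D' → w ∈ D → w 0 = 0 → w' ∈ D' → w' 0 = 0 →
      WgRel γ γ' w w' → val γ D = val γ' D' := by
    rintro γ γ' D D' w w' hW hW' hw hw0 hw' hw'0 ⟨χ', hχ1, hχ2, hχ3⟩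
    funext j
    simp only [hvaldef]
    rw [hal' γ D hW, hal' γ' D' hW']
    have h1 := stWgTrans1 Y (k + s) hk W (X j) v₀ h.res.emb (⋃ l, G l) _ hN (L j) (c j)
      (O j) (hTS.dense j) (v' j) (P' j) (Q' j) (T j) (hTS.tw1 j) γ γ' D D' hW hW' _ _ (hα1 γ D hW j)
      (hα1 γ' D' hW' j) w hw hw0 χ' hχ1 (by rw [hχ2]; exact hw') hχ3
    rw [h1]
  -- the surfaces
  have hsurf : ∀ b : Fin s, ∃ (J q : ℕ) (V : Fin q → Set Y), (∀ l, IsPreconnected (V l)) ∧
      (∀ l, IsSf (range (ι b)) (V l)) ∧ (b ∉ I' → β < ρ (Fin.natAdd k b) →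
        ∀ j ≥ J, ThinM 4 1 ((range (ι b) \ O j) \ ⋃ l, V l)) := by
    intro b
    by_cases hb : b ∉ I' ∧ β < ρ (Fin.natAdd k b)
    · have hfl : ∀ j, ∃ (L₁ : Bd (X j).pt) (L₂ : Bd (X (j + 1)).pt),
          IsFlip (X j) (Z j) (X (j + 1)) (f j) (f' j) (Amin (f j)) L₁ L₂ := by
        intro j
        obtain ⟨pp, qq, s', a, hf, -⟩ := hflipD j
        exact ⟨_, _, hf.flip none⟩
      choose L₁ L₂ hL using hfl
      have hne : (ι b ⁻¹' O 0).Nonempty := by
        have h1 := h.ne b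
        rw [not_subset] at h1
        obtain ⟨_, ⟨x, rfl⟩, hx⟩ := h1
        refine ⟨x, ?_⟩
        show ι b x ∈ O 0
        rw [hO]; exact hx
      obtain ⟨J, q, V, h1, h2, h3⟩ := H60.Z.stFinV Y W X Z r v₀ p P G h.res f f'
        (fun j => Amin (f j)) L₁ L₂ hL O v hseq hO hv (H b) (ι b) (h.bd b).sub hne (hcon b hb.1 hb.2)
      exact ⟨J, q, V, h1, h2, fun _ _ => h3⟩
    · exact ⟨0, 0, fun l => l.elim0, fun l => l.elim0, fun l => l.elim0,
        fun h h' => (hb ⟨h, h'⟩).elim⟩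
  choose J₁ q V hVc hVs hVthin using hsurf
  -- the finite set of values
  obtain ⟨gm, hgm⟩ : ∃ gm : ℕ, ∀ (b : Fin s) (g : ℕ), b ∉ I' →
      (1 - ρ (Fin.natAdd k b)) * g < 1 → g ≤ gm := by
    choose gb hgb using fun b : Fin s => exists_nat_gt (1 / (1 - ρ (Fin.natAdd k b)))
    refine ⟨∑ b, gb b, fun b g hbI hg => ?_⟩
    have h1 : 0 < 1 - ρ (Fin.natAdd k b) := by linarith [h.lt b hbI]
    have h2 : (g : ℝ) < 1 / (1 - ρ (Fin.natAdd k b)) := by
      rw [lt_div_iff₀ h1]; linarith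
    have h3 : (g : ℝ) < gb b := h2.trans (hgb b)
    have h4 : g < gb b := by exact_mod_cast h3
    exact h4.le.trans (Finset.single_le_sum (f := gb) (fun _ _ => Nat.zero_le _) (Finset.mem_univ b))
  have hkap := H371.C.finite_vec h.rho 1
  set F : Set ℝ := ((fun N : Fin (k + s) → ℕ => 1 - ∑ e, ρ e * (N e : ℝ)) ''
    {κ : Fin (k + s) → ℕ | ∑ e, ρ e * κ e ≤ 1}) ∪
    ⋃ (b : Fin s), ⋃ (g : Fin (gm + 1)), (fun N : Fin (k + s) → ℕ =>
      1 - (1 - ρ (Fin.natAdd k b)) * ((g : ℕ) : ℝ) - ∑ e, ρ e * (N e : ℝ)) ''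
      {κ : Fin (k + s) → ℕ | ∑ e, ρ e * κ e ≤ 1} with hF
  have hFfin : F.Finite := (hkap.image _).union (finite_iUnion fun b => finite_iUnion fun g =>
    hkap.image _)
  -- the flips
  set B : Set ℕ := {j | (∀ b, J₁ b ≤ j) ∧ ¬ DimLe (X (j + 1)) 1 {x | x ∈ f' j ⁻¹' Amin (f j) ∧
      (β ≤ 0 ∨ ∃ ν : Fin s, β ≤ ρ (Fin.natAdd k ν) ∧
        x ∈ zer (L (j + 1) (Fin.natAdd k ν)) (σ (j + 1) ν))} } with hB
  have hBfin : B.Finite := by
    refine count_core (r := r) (s := s) h.res.hyp h.res.conn hVs hVc val hmono hrel gm hFfin B ?_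
    rintro j ⟨hjJ, hj⟩
    obtain ⟨pp, qq, s', a, hf, -⟩ := hflipD j
    have hXn : Nonempty (X (j + 1)).pt := hneX (j + 1)
    have hSan₀ : IsAn (X (j + 1)) univ (f' j ⁻¹' Amin (f j)) :=
      hf.small'.an.preimage (V := univ) fun x => hf.small'.holMap x
    have hsecj : ∀ ν, IsSecx (X (j + 1)) univ (L (j + 1) (Fin.natAdd k ν)) (σ (j + 1) ν) :=
      fun ν => (h.flip (j + 1)).sec ν
    have hlbj : ∀ ν : Fin s, IsLBx (X (j + 1)) (L (j + 1) (Fin.natAdd k ν)) :=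
      fun ν => (h.flip (j + 1)).flip.lb _
    -- the surface
    obtain ⟨S, hSS, hSan, hS1, hSν⟩ : ∃ S : Set (X (j + 1)).pt, S ⊆ f' j ⁻¹' Amin (f j) ∧
        IsAn (X (j + 1)) univ S ∧ ¬ DimLe (X (j + 1)) 1 S ∧ (β ≤ 0 ∨ ∃ ν : Fin s,
          β ≤ ρ (Fin.natAdd k ν) ∧ S ⊆ zer (L (j + 1) (Fin.natAdd k ν)) (σ (j + 1) ν)) := by
      by_cases hβ : β ≤ 0
      · refine ⟨f' j ⁻¹' Amin (f j), subset_rfl, hSan₀, fun h1 => hj (h1.mono fun x hx => hx.1),
          Or.inl hβ⟩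
      · by_contra hcon'
        push Not at hcon'
        refine hj ?_
        have h1 : ∀ ν : {ν : Fin s // β ≤ ρ (Fin.natAdd k ν)}, DimLe (X (j + 1)) 1
            (f' j ⁻¹' Amin (f j) ∩ zer (L (j + 1) (Fin.natAdd k ν.1)) (σ (j + 1) ν.1)) := by
          rintro ⟨ν, hν⟩
          by_contra hd
          have h2 : IsAn (X (j + 1)) univ (f' j ⁻¹' Amin (f j) ∩
              zer (L (j + 1) (Fin.natAdd k ν)) (σ (j + 1) ν)) := by
            refine isAn_inter hSan₀ fun x _ => ?_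
            obtain ⟨g, hg, hg'⟩ := H371.C.zer_eqn (hlbj ν) (hsecj ν) x
            exact ⟨1, fun _ => g, fun _ => hg, hg'.mono fun y hy => by
              rw [hy]; exact ⟨fun h _ => h, fun h => h 0⟩⟩
          exact (hcon' _ inter_subset_left h2 hd).2 ν hν inter_subset_right
        have h2 : DimLe (X (j + 1)) 1 (⋃ ν : {ν : Fin s // β ≤ ρ (Fin.natAdd k ν)},
            (f' j ⁻¹' Amin (f j) ∩ zer (L (j + 1) (Fin.natAdd k ν.1)) (σ (j + 1) ν.1))) :=
          dimLe_iUnion h1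
        refine h2.mono ?_
        rintro x ⟨hx1, hx2 | ⟨ν, hν, hx2⟩⟩
        · exact (hβ hx2).elim
        · exact mem_iUnion.2 ⟨⟨ν, hν⟩, hx1, hx2⟩
    have hSO : S ⊆ (v' (j + 1) '' O (j + 1))ᶜ := hSS.trans (hTS.sub_compl j)
    have hbI : ∀ b : Fin s, ¬ range (ι b) ⊆ bad ι G I I' → b ∉ I' := fun b hb hbI =>
      hb fun y hy => Or.inr (mem_iUnion₂.2 ⟨b, hbI, hy⟩)
    have hltB : ∀ b : Fin s, ρ (Fin.natAdd k b) < 1 ∨ range (ι b) ⊆ bad ι G I I' := by
      intro b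
      by_cases hb : range (ι b) ⊆ bad ι G I I'
      · exact Or.inr hb
      · exact Or.inl (h.lt b (hbI b hb))
    obtain ⟨x, N, Γ, D, w₀, r₀, φ, i, a', hW, hnice, hcen, hpos, hNν, hcase⟩ := germ_bdN stTAc_final
      (H19.stTD_of_core TD.stCore) H884.stDis h.res.emb h.res.surj h.res.hyp h.res.closed h.lb h.m0
      h.rho h.sum h.kahler h.nef h.bd h.disj h.ne (hTS.tw j) hltB (fun i => hsecj i)
      (fun i y hy a b ha hb => by
        have h1 := hTS.sec (j + 1) i y a b.1 b.2 hy ha hb.1 hb.2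
        rw [mul_comm]
        exact h1) hSS hSan hSO hS1 ((hregB j).mono fun x hx => ⟨hSS hx.1, hx.2⟩)
      (h.isClosed (j + 1)) ((h.N1 j).mono fun x hx => ⟨hx.2, hSS hx.1⟩)
    have hval : val Γ D (j + 1) = ∑ e, ρ e / Q' (j + 1) e * x e := by
      simp only [hvaldef]
      rw [hal' Γ D hW]
      refine Finset.sum_congr rfl fun e _ => ?_
      rw [(hα1 Γ D hW (j + 1)).ord _ _ _ _ _ _ hnice e]
      have h1 : (Q' (j + 1) e : ℝ) ≠ 0 := by
        have := ((hTS.tw j).tw e).hQ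
        exact_mod_cast (Nat.one_le_iff_ne_zero.1 this)
      push_cast
      field_simp
    have hlt : val Γ D j < val Γ D (j + 1) := by
      simp only [hvaldef]
      rw [hal' Γ D hW, hal' Γ D hW]
      exact hα3 Γ D hW j ⟨w₀, r₀, φ, i, a', x, hnice, fun w hw hw0 => hSS (hcen w hw hw0)⟩
    have hNnn : 0 ≤ ∑ e, ρ e * (N e : ℝ) := Finset.sum_nonneg fun e _ =>
      mul_nonneg (h.rho e).le (Nat.cast_nonneg _)
    refine ⟨Γ, D, hW, hlt, ?_, ?_⟩
    · rw [hval]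
      rcases hcase with ⟨h1, -⟩ | ⟨b, g, hg1, hbB, hg2, h1, -⟩
      · left
        refine ⟨N, ?_, h1.symm⟩
        show ∑ e, ρ e * (N e : ℝ) ≤ 1
        linarith
      · right
        refine mem_iUnion.2 ⟨b, mem_iUnion.2 ⟨⟨g, by have := hgm b g (hbI b hbB) hg2; omega⟩, N, ?_, h1.symm⟩⟩
        show ∑ e, ρ e * (N e : ℝ) ≤ 1
        have h2 : 0 ≤ (1 - ρ (Fin.natAdd k b)) * (g : ℝ) :=
          mul_nonneg (by linarith [h.lt b (hbI b hbB)]) (Nat.cast_nonneg _)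
        linarith
    · rcases hcase with ⟨-, h1⟩ | ⟨b, g, hg1, hbB, hg2, h1, w₁, hw₁, hw₁0, Ψ, c', r', w', hpar, hc0,
        hbw, hw'0, hWR, hnO⟩
      · exact Or.inl h1
      · right
        refine ⟨b, g, hg1, hgm b g (hbI b hbB) hg2, w₁, hw₁, hw₁0, Ψ, c', r', w', hpar, hc0, hbw, hw'0, hWR, ?_⟩
        have hβb : β < ρ (Fin.natAdd k b) := by
          rcases hSν with hβ | ⟨ν, hβν, hSν⟩
          · exact hβ.trans_lt (h.rho _)
          · have h2 : 1 ≤ N (Fin.natAdd k ν) := hNν ν hSν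
            have h3 : ρ (Fin.natAdd k ν) * (N (Fin.natAdd k ν) : ℝ) ≤ ∑ e, ρ e * (N e : ℝ) :=
              Finset.single_le_sum (f := fun e => ρ e * (N e : ℝ))
                (fun e _ => mul_nonneg (h.rho e).le (Nat.cast_nonneg _)) (Finset.mem_univ _)
            have h4 : (1 : ℝ) ≤ N (Fin.natAdd k ν) := by exact_mod_cast h2
            have h5 : (1 : ℝ) ≤ g := by exact_mod_cast hg1
            have h6 := h.rho (Fin.natAdd k ν)
            have h7 := h.lt b (hbI b hbB)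
            have h8 : ρ (Fin.natAdd k ν) ≤ ρ (Fin.natAdd k ν) * (N (Fin.natAdd k ν) : ℝ) := by
              nlinarith
            have h9 : 1 - ρ (Fin.natAdd k b) ≤ (1 - ρ (Fin.natAdd k b)) * (g : ℝ) := by
              nlinarith
            linarith
        exact H60.Z.stMatch Y (range (ι b)) (O (j + 1)) (q b) (V b) (hVs b)
          (hVthin b (hbI b hbB) hβb (j + 1) (by have := hjJ b; omega)) Ψ c' r' hpar hc0 hnO
  -- the conclusion
  obtain ⟨J₂, hJ₂⟩ := hBfin.bddAbove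
  refine ⟨J₂ + 1 + ∑ b, J₁ b, fun j hj => ?_⟩
  by_contra hd
  have h1 : j ∈ B := ⟨fun b => by
    have := Finset.single_le_sum (f := J₁) (fun _ _ => Nat.zero_le _) (Finset.mem_univ b)
    omega, hd⟩
  have h2 := hJ₂ h1
  omega

end Vale.Agent.P277.H884.N
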