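import Vale.Agent.P277.H371.N.FinN
import Vale.Agent.P277.H371.N.WrapN
import Vale.Agent.P277.H619.T3.Fin6
import Vale.Agent.P277.H884.N4

/-!
# P277, Theorem T4
-/

noncomputable section

namespace Vale.Agent.P277.H884.N

/-- Theorem T4 -/
theorem stT4 : T3.StT4 := H371.N.stT4_of T3.stContr H335.RR.stRegN stP7N

/-- Theorem T4, final form -/
theorem stT4F : T3.StT4F := H371.N.stT4F_of stT4

end Vale.Agent.P277.H884.N
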