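import Vale.Agent.P277.H371.N.ChainN
import Vale.Agent.P277.H884.W3

/-!
# P277, T4: order vectors along wedges of `Y`, with the weaker structure `Tw1` (no lifting of wedges)
-/

open scoped Manifold ContDiff Topology
open Vale.Agent.P272.K Vale.Agent.P285.H281.FD Vale.Agent.P267.H175 Set Filter Metric

noncomputable section

namespace Vale.Agent.P277.H884.N

open Vale.Agent.P277 Vale.Agent.P277.T2 Vale.Agent.P277.H335 Vale.Agent.P277.H615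
open Vale.Agent.P277.H762 (Cv)
open Vale.Agent.P277.H884.W (NG cv_zero exists_good const_of_thin locIso_data)

variable {Y : Type} [TopologicalSpace Y] [ChartedSpace (Cm 4) Y]

/-- `TwV` without the lifting of wedges -/
structure Tw1 {k : ℕ} {V : CSp} (vV : Y → V.pt) (D : Set Y) (N : Fin k → Bd Y) (X : CSp)
    (L : Fin k → Bd X.pt) (c : Fin k → ℕ) (O : Set Y) (v : Y → X.pt) (P Q : Fin k → ℕ)
    (T : ∀ e, (L e).ι → (N e).ι → Y → ℂ) : Prop where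
  tw : ∀ e, Tw0 vV D (N e) X (L e) O v (P e) (Q e) (T e)
  lb : ∀ e, IsLBx X (L e)
  mult : ∀ e, c e * P e = Q e

section

variable {k : ℕ} {V X Z X' : CSp} {vV : Y → V.pt} {G₀ : Set Y} {N : Fin k → Bd Y}
  {L : Fin k → Bd X.pt} {L' : Fin k → Bd X'.pt} {c c' : Fin k → ℕ} {O : Set Y}
  {v : Y → X.pt} {P Q : Fin k → ℕ} {T : ∀ e, (L e).ι → (N e).ι → Y → ℂ} {ρ : Fin k → ℝ}
  {S : Set X.pt} {f : X.pt → Z.pt} {f' : X'.pt → Z.pt} {p q : Fin k → ℕ}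
  {s : ∀ e, (L e).ι → (L' e).ι → Z.pt → ℂ} {a : Fin k → ℤ}
  {Γ Γ' : Cm 4 → Y} {D D' : Set (Cm 4)} {w₀ w₀' : Cm 4} {r r' : ℝ} {γ γ' : Cm 4 → X.pt}
  {i i' : ∀ e, (L e).ι} {n n' : ∀ e, (N e).ι} {x x' : Fin k → ℚ}

theorem _root_.Vale.Agent.P277.H615.TwV.tw1 (h : TwV vV G₀ N X L c O v P Q T ρ S) :
    Tw1 vV G₀ N X L c O v P Q T := ⟨h.tw, h.lb, h.mult⟩

theorem _root_.Vale.Agent.P277.H371.N.TwN.tw1 {Nc : Set X.pt} {Bad : Set Y}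
    (h : H371.N.TwN vV G₀ N X L c O v P Q T ρ S Nc Bad) :
    Tw1 vV G₀ N X L c O v P Q T := ⟨h.tw, h.lb, h.mult⟩

theorem T_ne1 (h : Tw1 vV G₀ N X L c O v P Q T) {y : Y} (hy : y ∈ O) (e : Fin k)
    (hi : v y ∈ (L e).U (i e)) (hn : y ∈ (N e).U (n e)) : T e (i e) (n e) y ≠ 0 :=
  ((h.tw e).iso.holo y hy (i e) (n e) _ (H19.at_chartAt y) hi hn).2

/-- the step -/
theorem Tw1.step (hN : ∀ e c, IsOpen ((N e).U c)) (hvV : IsOpenEmb V univ vV)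
    (h : Tw1 vV G₀ N X L c O v P Q T) (hf : FlipD f f' L L' p q s a)
    (hc : ∀ e, c e * p e = c' e * q e)
    {b : ∀ e, X.pt → (L e).ι} (hb : ∀ e x, x ∈ (L e).U (b e x)) :
    Tw1 vV G₀ N X' L' c' {y | y ∈ O ∧ f (v y) ∉ Amin f} (fun y => hf.small'.sec (f (v y)))
      (fun e => q e * P e) (fun e => Q e * p e)
      (fun e => stT v f (P e) (p e) (T e) (s e) (b e)) where
  tw e := (h.tw e).step' (hN e) hvV (hf.hp e) (hf.hq e) hf.small hf.small'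
    (IsLBx.pow (hf.lb e) _) (IsLBx.pow (hf.lb' e) _) (hf.iso e) (hb e)
  lb := hf.lb'
  mult e := by
    calc c' e * (q e * P e) = (c' e * q e) * P e := by ring
      _ = (c e * p e) * P e := by rw [← hc e]
      _ = (c e * P e) * p e := by ring
      _ = Q e * p e := by rw [h.mult e]

/-- uniqueness of the orders -/
theorem NiceW.unique1 (hW : IsWg Γ D) (hOo : IsOpen O) (hO : Dense O)
    (hTw : Tw1 vV G₀ N X L c O v P Q T) (hN : ∀ e, CtBd (N e))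
    (h : NiceW O v T Γ D w₀ r γ i n x) (h' : NiceW O v T Γ D' w₀ r' γ' i' n' x') : x = x' := by
  have hw₀ : w₀ ∈ ball w₀ r := mem_ball_self h.pos
  have hw₀' : w₀ ∈ ball w₀ r' := mem_ball_self h'.pos
  set W : Set (Cm 4) := ball w₀ r ∩ ball w₀ r' with hWdef
  have hWo : IsOpen W := isOpen_ball.inter isOpen_ball
  have hw₀W : w₀ ∈ W := ⟨hw₀, hw₀'⟩
  have hag : ∀ w ∈ W, γ w = γ' w := by
    refine eqOn_of_closure (D := {w | Γ w ∈ O}) hWo (fun w hw => (h.hol w hw.1).1)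
      (fun w hw => (h'.hol w hw.2).1) ?_ ?_
    · intro w hw
      rw [mem_closure_iff_nhds]
      intro U hU
      obtain ⟨z, h1, h2⟩ := mem_closure_iff_nhds.1 (hW.dense O hOo hO (h.sub hw.1)) (U ∩ W)
        (inter_mem hU (hWo.mem_nhds hw))
      exact ⟨z, h1.1, h1.2, h2.2⟩
    · intro w hw hwO
      rw [h.eq w hw.1 hwO, h'.eq w hw.2 hwO]
  funext e
  have hord := h.ord w₀ hw₀ h.zero e
  have hord' := h'.ord w₀ hw₀' h.zero e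
  refine hord.unique' (τ' := fun w => T e (i' e) (n' e) (Γ w)) h.zero
    (H884.W.IsWg.denseNear hW hOo hO (h.sub hw₀)) ?_ hord'
    (u := fun w => (L e).g (i e) (i' e) (γ w) ^ P e * (N e).g (n' e) (n e) (Γ w) ^ Q e) ?_ ?_
  · filter_upwards [isOpen_ball.mem_nhds hw₀] with w hw hwO _
    refine T_ne1 hTw hwO e ?_ (h.memN w hw e)
    rw [← h.eq w hw hwO]; exact h.memU w hw e
  · filter_upwards [hWo.mem_nhds hw₀W] with w hw
    have k1 : γ w ∈ (L e).U (i' e) := by rw [hag w hw]; exact h'.memU _ hw.2 e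
    have k2 : Γ w ∈ (N e).U (n' e) := h'.memN _ hw.2 e
    have k3 := (hTw.lb e).holo (i e) (i' e) (γ w) (h.memU w hw.1 e) k1
    have k4 : ContinuousAt (fun w => (L e).g (i e) (i' e) (γ w)) w :=
      ((h.hol w hw.1).analyticAt k3).continuousAt
    have k5 : ContinuousAt (fun w => (N e).g (n' e) (n e) (Γ w)) w :=
      ContinuousAt.comp (g := (N e).g (n' e) (n e)) ((hN e).cont _ _ _ k2 (h.memN w hw.1 e))
        (hW.cont w (h.sub hw.1))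
    exact ⟨(k4.pow _).mul (k5.pow _), mul_ne_zero (pow_ne_zero _ ((hTw.lb e).ne_zero _ _ _
      (h.memU w hw.1 e) k1)) (pow_ne_zero _ ((hN e).ne_zero _ _ _ k2 (h.memN w hw.1 e)))⟩
  · filter_upwards [hWo.mem_nhds hw₀W] with w hw hwO _
    have k1 : γ w ∈ (L e).U (i' e) := by rw [hag w hw]; exact h'.memU _ hw.2 e
    have k2 : Γ w ∈ (N e).U (n' e) := h'.memN _ hw.2 e
    have k3 := h.eq w hw.1 hwO
    have k4 : T e (i' e) (n' e) (Γ w) = (L e).g (i e) (i' e) (v (Γ w)) ^ P e *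
        T e (i e) (n e) (Γ w) * (N e).g (n' e) (n e) (Γ w) ^ Q e :=
      (hTw.tw e).iso.change (Γ w) hwO (i e) (i' e) (n e) (n' e)
        (by rw [← k3]; exact h.memU w hw.1 e) (by rw [← k3]; exact k1) (h.memN w hw.1 e) k2
    rw [k4, k3]
    ring

/-- extension through a flip -/
theorem nice_upW1 (hk : 1 ≤ k) (hTw : Tw1 vV G₀ N X L c O v P Q T)
    (hf : FlipD f f' L L' p q s a) {d : ℕ} (hd : 1 ≤ d)
    (hda : ∀ e, (a e : ℝ) ≤ d * (ρ e / (c e * p e)) ∧ d * (ρ e / (c e * p e)) ≤ a e + 1)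
    {b : ∀ e, X.pt → (L e).ι} (hb : ∀ e x, x ∈ (L e).U (b e x)) (hW : IsWg Γ D)
    (hOo' : IsOpen {y | y ∈ O ∧ f (v y) ∉ Amin f})
    (hO' : Dense {y | y ∈ O ∧ f (v y) ∉ Amin f}) (h : NiceW O v T Γ D w₀ r γ i n x) :
    ∃ (r₁ : ℝ) (g : Cm 4 → ℂ), 0 < r₁ ∧ ball w₀ r₁ ⊆ ball w₀ r ∧
      (∀ w ∈ ball w₀ r₁, AnalyticAt ℂ g w) ∧ (∃ w₁ ∈ ball w₀ r₁, w₁ 0 = 0 ∧ g w₁ ≠ 0) ∧
      ∀ w₁ ∈ ball w₀ r₁, w₁ 0 = 0 → g w₁ ≠ 0 →
        ∃ (r₂ : ℝ) (γ₁ : Cm 4 → X'.pt) (j : ∀ e, (L' e).ι) (x₁ : Fin k → ℚ),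
          ball w₁ r₂ ⊆ ball w₀ r ∧
          NiceW {y | y ∈ O ∧ f (v y) ∉ Amin f} (fun y => hf.small'.sec (f (v y)))
            (fun e => stT v f (P e) (p e) (T e) (s e) (b e)) Γ D w₁ r₂ γ₁ j n x₁ ∧
          (∀ w ∈ ball w₁ r₂, f' (γ₁ w) = f (γ w)) ∧
          ∑ e, ρ e / Q e * x e ≤ ∑ e, ρ e / ((Q e * p e : ℕ) : ℝ) * x₁ e ∧
          ((∀ w ∈ ball w₀ r, w 0 = 0 → f (γ w) ∈ Amin f) →
            ∑ e, ρ e / Q e * x e < ∑ e, ρ e / ((Q e * p e : ℕ) : ℝ) * x₁ e) := by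
  set O' : Set Y := {y | y ∈ O ∧ f (v y) ∉ Amin f} with hO'def
  have hγA : ∀ w ∈ ball w₀ r, Γ w ∈ O' → f (γ w) ∉ Amin f := by
    intro w hw hwO
    rw [h.eq w hw hwO.1]; exact hwO.2
  have hdense : ball w₀ r ⊆ closure {w | w ∈ ball w₀ r ∧ f (γ w) ∉ Amin f} := by
    intro w hw
    rw [mem_closure_iff_nhds]
    intro U hU
    obtain ⟨w', k1, k2, k3⟩ := mem_closure_iff_nhds.1 (hW.dense O' hOo' hO' (h.sub hw))
      (U ∩ ball w₀ r) (inter_mem hU (isOpen_ball.mem_nhds hw))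
    exact ⟨w', k1.1, k1.2, hγA w' k1.2 k3⟩
  obtain ⟨r₁, g, hr₁, hsub, hg, hgne, hgood⟩ := hf.up hk isOpen_ball (mem_ball_self h.pos)
    h.zero h.hol hdense
  refine ⟨r₁, g, hr₁, hsub, hg, hgne, ?_⟩
  intro w₁ hw₁ hw₁0 hgw₁
  obtain ⟨W₁, γ₁, hW₁, hw₁W₁, hW₁s, hγ₁, hord⟩ := hgood w₁ hw₁ hw₁0 hgw₁
  choose j hj using fun e => (hf.lb' e).cover (γ₁ w₁)
  obtain ⟨σ, hσ, hsum⟩ := hord i j (h.memU w₁ (hsub hw₁)) hj
  have hev : ∀ᶠ w in 𝓝 w₁, w ∈ W₁ ∧ (∀ e, γ₁ w ∈ (L' e).U (j e)) ∧ ∀ e, w 0 = 0 →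
      HasOrd {w | f (γ w) ∉ Amin f} w (fun w => s e (i e) (j e) (f (γ w))) (σ e) := by
    refine (hW₁.eventually_mem hw₁W₁).and (Filter.Eventually.and ?_ ?_)
    · rw [eventually_all]
      exact fun e => (hγ₁ w₁ hw₁W₁).1.1.eventually_mem (((hf.lb' e).isOpen (j e)).mem_nhds (hj e))
    · rw [eventually_all]
      exact fun e => (hσ e).eventually hw₁0
  obtain ⟨r₂, hr₂, hball⟩ := Metric.eventually_nhds_iff_ball.1 hev
  have hs2 : ball w₁ r₂ ⊆ ball w₀ r := fun w hw => hW₁s (hball w hw).1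
  have hsec : ∀ w ∈ ball w₁ r₂, Γ w ∈ O' → hf.small'.sec (f (v (Γ w))) = γ₁ w := by
    intro w hw hwO
    have k3 : γ w = v (Γ w) := h.eq w (hs2 hw) hwO.1
    refine hf.small'.inj _ _ ?_ ?_
    · rw [(hγ₁ w (hball w hw).1).2, k3]; exact hwO.2
    · rw [hf.small'.sec_eq, (hγ₁ w (hball w hw).1).2, k3]
  refine ⟨r₂, γ₁, j, fun e => x e * p e - σ e * P e, hs2, ⟨hw₁0, hr₂, hs2.trans h.sub,
    fun w hw => (hγ₁ w (hball w hw).1).1, fun w hw => (hball w hw).2.1,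
    fun w hw => h.memN w (hs2 hw), fun w hw hwO => (hsec w hw hwO).symm, ?_⟩,
    fun w hw => (hγ₁ w (hball w hw).1).2, ?_⟩
  · intro w hw hw0 e
    have hnb : ∀ᶠ z in 𝓝 w, z ∈ ball w₁ r₂ := isOpen_ball.mem_nhds hw
    have hD' : ∀ᶠ z in 𝓝 w, z ∈ {w | Γ w ∈ O'} →
        z ∈ {w | Γ w ∈ O} ∧ z ∈ {w | f (γ w) ∉ Amin f} :=
      hnb.mono fun z hz hzO => ⟨hzO.1, hγA z (hs2 hz) hzO⟩
    have hsne : ∀ᶠ z in 𝓝 w, z ∈ {w | Γ w ∈ O'} → z 0 ≠ 0 → s e (i e) (j e) (f (γ z)) ≠ 0 := by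
      filter_upwards [hnb] with z hz hzO _
      exact ((hf.iso e).holo (γ z) (γ₁ z) (i e) (j e) (hγA z (hs2 hz) hzO)
        (hγ₁ z (hball z hz).1).2 (h.memU z (hs2 hz) e) ((hball z hz).2.1 e)).2
    have h1 := ((h.ord w (hs2 hw) hw0 e).pow (p e)).mono (hD'.mono fun w hw hwO => (hw hwO).1)
    have h2 := (((hball w hw).2.2 e hw0).mono (hD'.mono fun w hw hwO => (hw hwO).2)).pow (P e)
    have h3 := h1.mul hw0 (h2.inv (hsne.mono fun w hw m1 m2 => pow_ne_zero _ (hw m1 m2)))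
    rw [← sub_eq_add_neg] at h3
    refine h3.congr ?_
    filter_upwards [hnb] with z hz hzO _
    have k3 : γ z = v (Γ z) := h.eq z (hs2 hz) hzO.1
    have h6 := stT_eq' (hTw.tw e).iso (hTw.tw e).lb hf.small' (IsLBx.pow (hf.lb e) (p e))
      (IsLBx.pow (hf.lb' e) (q e)) (hf.iso e) (hb e) hzO.1 hzO.2 (a₁ := i e) (b := j e)
      (c := n e) (by rw [← k3]; exact h.memU z (hs2 hz) e)
      (by rw [hsec z hz hzO]; exact (hball z hz).2.1 e) (h.memN z (hs2 hz) e)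
    rw [h6]
    show T e (i e) (n e) (Γ z) ^ p e / s e (i e) (j e) (f (v (Γ z))) ^ P e = _
    rw [k3, div_eq_mul_inv]
  · have h1 := sum_step (c := c) hd (fun e => (hTw.tw e).hP) (fun e => (hTw.tw e).hQ) hf.hp
      hTw.mult ρ x σ
    have h2 := hsum (fun e => d * (ρ e / (c e * p e))) hda
    have hd0 : (0 : ℝ) < d := by exact_mod_cast hd
    rw [h1]
    refine ⟨?_, fun hC => ?_⟩
    · have h3 := div_nonpos_of_nonpos_of_nonneg h2.1 hd0.le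
      linarith
    · have h3 := div_neg_of_neg_of_pos (h2.2 hC) hd0
      linarith

/-- constancy of the orders along a wedge -/
theorem NG.const1 (hW : IsWg Γ D) (hOo : IsOpen O) (hO : Dense O)
    (hTw : Tw1 vV G₀ N X L c O v P Q T) (hN : ∀ e, CtBd (N e))
    (hthin : Cv 2 {w | w ∈ D ∧ w 0 = 0 ∧ ¬ ∃ x, NG O v T Γ D w x}) {w w' : Cm 4}
    (h : NG O v T Γ D w x) (h' : NG O v T Γ D w' x') : x = x' := by
  obtain ⟨r, γ, i, c, h1⟩ := id h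
  obtain ⟨r', γ', i', c', h1'⟩ := id h'
  refine const_of_thin hW.isOpen hW.conn hthin (R := NG O v T Γ D) (fun w a _ _ h => h.near) ?_ ?_
    (h1.sub (mem_ball_self h1.pos)) h1.zero (h1'.sub (mem_ball_self h1'.pos)) h1'.zero h h'
  · rintro w a b - - ⟨r₁, γ₁, i₁, c₁, k1⟩ ⟨r₂, γ₂, i₂, c₂, k2⟩
    exact NiceW.unique1 hW hOo hO hTw hN k1 k2
  · intro w hw hw0 hB
    by_contra hcon
    exact hB ⟨hw, hw0, hcon⟩

theorem ordW_of1 (hW : IsWg Γ D) (hOo : IsOpen O) (hO : Dense O)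
    (hTw : Tw1 vV G₀ N X L c O v P Q T) (hN : ∀ e, CtBd (N e))
    (hthin : Cv 2 {w | w ∈ D ∧ w 0 = 0 ∧ ¬ ∃ x, NG O v T Γ D w x}) :
    ∃ α, OrdW O v T Q Γ D α := by
  obtain ⟨w, hw, hw0⟩ := hW.ne
  obtain ⟨z, k1, k2, k3⟩ := exists_good hthin hw0 (hW.isOpen.mem_nhds hw)
  have h1 : ∃ x, NG O v T Γ D z x := by
    by_contra hcon
    exact k3 ⟨k1, k2, hcon⟩
  obtain ⟨x, hx⟩ := h1
  refine ⟨fun e => x e / Q e, ?_, ?_⟩
  · obtain ⟨Ω, g, m1, m2, m3⟩ := hthin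
    refine ⟨Ω, g, m1, m2, subset_trans ?_ m3⟩
    rintro w ⟨k1, k2, k3⟩
    exact ⟨k1, k2, fun ⟨x, r, γ, i, c, hx⟩ => k3 ⟨r, γ, i, c, x, hx⟩⟩
  · intro w₀ r γ i c x' hx' e
    have h3 : (Q e : ℚ) ≠ 0 := by
      have := (hTw.tw e).hQ
      exact_mod_cast (Nat.one_le_iff_ne_zero.1 this)
    have h4 : x = x' := NG.const1 hW hOo hO hTw hN hthin hx ⟨r, γ, i, c, hx'⟩
    rw [← h4, div_mul_cancel₀ _ h3]

end

/-- (A1 base) -/
def StWgBase1 : Prop :=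
  ∀ (Y : Type) [TopologicalSpace Y] [T2Space Y] [CompactSpace Y] [ChartedSpace (Cm 4) Y]
    [IsManifold 𝓘(ℂ, Cm 4) ω Y] (k : ℕ) (W X : CSp) (r : ℕ) (v : Y → W.pt) (p : W.pt → X.pt)
    (P : Bd W.pt) (G : Fin r → Set Y) (_ : IsRes v p P G) (N : Fin k → Bd Y)
    (_ : ∀ e, CtBd (N e)) (L : Fin k → Bd X.pt) (c : Fin k → ℕ) (n : Fin k → Fin r → ℤ)
    (t : ∀ e, (L e).ι → (N e).ι → Y → ℂ)
    (_ : IsCmpV (fun y => p (v y)) L (fun e => (N e).pow (c e)) G n t)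
    (_ : Tw1 v (⋃ l, G l) N X L c (⋃ l, G l)ᶜ (fun y => p (v y)) (fun _ => 1) c t)
    (_ : Dense (⋃ l, G l)ᶜ) (Γ : Cm 4 → Y) (D : Set (Cm 4)) (_ : IsWg Γ D),
    ∃ α, OrdW (⋃ l, G l)ᶜ (fun y => p (v y)) t c Γ D α

/-- (A1 step) -/
def StWgStep1 : Prop :=
  ∀ (Y : Type) [TopologicalSpace Y] [T2Space Y] [CompactSpace Y] [ChartedSpace (Cm 4) Y]
    [IsManifold 𝓘(ℂ, Cm 4) ω Y] (k : ℕ) (_ : 1 ≤ k) (V X Z X' : CSp) (vV : Y → V.pt)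
    (_ : IsOpenEmb V univ vV) (G₀ : Set Y) (N : Fin k → Bd Y) (_ : ∀ e, CtBd (N e))
    (L : Fin k → Bd X.pt) (L' : Fin k → Bd X'.pt) (c c' : Fin k → ℕ) (O : Set Y)
    (v : Y → X.pt) (P Q : Fin k → ℕ) (T : ∀ e, (L e).ι → (N e).ι → Y → ℂ) (ρ : Fin k → ℝ)
    (_ : Tw1 vV G₀ N X L c O v P Q T) (f : X.pt → Z.pt) (f' : X'.pt → Z.pt)
    (p q : Fin k → ℕ) (s : ∀ e, (L e).ι → (L' e).ι → Z.pt → ℂ) (a : Fin k → ℤ)
    (hf : FlipD f f' L L' p q s a) (d : ℕ) (_ : 1 ≤ d) (_ : ∀ e, c e * p e = c' e * q e)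
    (_ : ∀ e, (a e : ℝ) ≤ d * (ρ e / (c e * p e)) ∧ d * (ρ e / (c e * p e)) ≤ a e + 1)
    (b : ∀ e, X.pt → (L e).ι) (_ : ∀ e x, x ∈ (L e).U (b e x))
    (_ : Dense {y | y ∈ O ∧ f (v y) ∉ Amin f}) (Γ : Cm 4 → Y) (D : Set (Cm 4)) (_ : IsWg Γ D)
    (α : Fin k → ℚ) (_ : OrdW O v T Q Γ D α),
    ∃ α' : Fin k → ℚ, OrdW {y | y ∈ O ∧ f (v y) ∉ Amin f} (fun y => hf.small'.sec (f (v y)))
      (fun e => stT v f (P e) (p e) (T e) (s e) (b e)) (fun e => Q e * p e) Γ D α' ∧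
      ∑ e, ρ e * α e ≤ ∑ e, ρ e * α' e ∧
      ((∃ w₀ r γ i n x, NiceW {y | y ∈ O ∧ f (v y) ∉ Amin f}
        (fun y => hf.small'.sec (f (v y))) (fun e => stT v f (P e) (p e) (T e) (s e) (b e)) Γ D
          w₀ r γ i n x ∧ ∀ w ∈ ball w₀ r, w 0 = 0 → f' (γ w) ∈ Amin f) →
        ∑ e, ρ e * α e < ∑ e, ρ e * α' e)

/-- (A1 transfer) -/
def StWgTrans1 : Prop :=
  ∀ (Y : Type) [TopologicalSpace Y] [T2Space Y] [CompactSpace Y] [ChartedSpace (Cm 4) Y]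
    [IsManifold 𝓘(ℂ, Cm 4) ω Y] (k : ℕ) (_ : 1 ≤ k) (V X : CSp) (vV : Y → V.pt)
    (_ : IsOpenEmb V univ vV) (G₀ : Set Y) (N : Fin k → Bd Y) (_ : ∀ e, CtBd (N e))
    (L : Fin k → Bd X.pt) (c : Fin k → ℕ) (O : Set Y) (_ : Dense O)
    (v : Y → X.pt) (P Q : Fin k → ℕ) (T : ∀ e, (L e).ι → (N e).ι → Y → ℂ)
    (_ : Tw1 vV G₀ N X L c O v P Q T)
    (Γ Γ' : Cm 4 → Y) (D D' : Set (Cm 4)) (_ : IsWg Γ D) (_ : IsWg Γ' D')
    (α α' : Fin k → ℚ) (_ : OrdW O v T Q Γ D α) (_ : OrdW O v T Q Γ' D' α')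
    (w₁ : Cm 4) (_ : w₁ ∈ D) (_ : w₁ 0 = 0) (χ : Cm 4 → Cm 4) (_ : T3.LocIso χ w₁)
    (_ : χ w₁ ∈ D') (_ : ∀ᶠ w in 𝓝 w₁, (χ w 0 = 0 ↔ w 0 = 0) ∧ Γ' (χ w) = Γ w), α = α'

/-- (A1 base) -/
theorem stWgBase1 : StWgBase1 := by
  intro Y _ _ _ _ _ k W X r v p P G hR N hN L c n t ht hTw hO Γ D hW
  have hOo : IsOpen ((⋃ l, G l)ᶜ) := (isClosed_iUnion_of_finite hR.closed).isOpen_compl
  have hB : {w | w ∈ D ∧ w 0 = 0 ∧ ¬ ∃ x, NG (⋃ l, G l)ᶜ (fun y => p (v y)) t Γ D w x} = ∅ := by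
    rw [Set.eq_empty_iff_forall_notMem]
    rintro w₀ ⟨hw₀, hw₀0, hcon⟩
    apply hcon
    choose i hi using fun e => (hTw.lb e).cover (p (v (Γ w₀)))
    choose j hj using fun e => (hN e).cover (Γ w₀)
    have hhol : ∀ w ∈ D, HolAt X (fun w => p (v (Γ w))) w := by
      intro w hw
      have hat : At (chartAt (Cm 4) (Γ w)) (Γ w) := H19.at_chartAt _
      have h1 : HolAt W (fun w => v (Γ w)) w := by
        refine ⟨ContinuousAt.comp (g := v) (f := Γ) (hR.emb.continuousAt (mem_univ _))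
          (hW.cont w hw), fun g hg => ?_⟩
        exact analyticAt_comp_chart (g := fun y => g (v y)) (hW.cont w hw) hat (hW.an w hw _ hat)
          ((hR.emb.hol_iff (mem_univ _) hat).1 hg)
      refine ⟨ContinuousAt.comp (g := p) hR.cont.continuousAt h1.1, fun g hg => ?_⟩
      exact h1.2 _ (hR.holo _ g hg)
    obtain ⟨ζ, hζ, hu⟩ := ht.div (Γ w₀)
    have hξc : ContinuousAt Γ w₀ := hW.cont w₀ hw₀
    set ch : Chart 4 Y := chartAt (Cm 4) (Γ w₀) with hch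
    have hat : At ch (Γ w₀) := H19.at_chartAt _
    have hξa := hW.an w₀ hw₀ ch hat
    have hζa : ∀ l, AnalyticAt ℂ (fun w => ζ l (Γ w)) w₀ := fun l =>
      analyticAt_comp_chart hξc hat hξa ((hζ l).2 ch hat).1
    have hζne : ∀ l, ∀ᶠ w in 𝓝 w₀, w ∈ {w | Γ w ∈ (⋃ l, G l)ᶜ} → w 0 ≠ 0 → ζ l (Γ w) ≠ 0 := by
      intro l
      filter_upwards [hξc.eventually (hζ l).1] with w hw hwO _ h0
      exact hwO (mem_iUnion.2 ⟨l, hw.1 h0⟩)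
    have hζnz : ∀ l, ¬ ∀ᶠ w in 𝓝 w₀, ζ l (Γ w) = 0 := by
      intro l hz
      obtain ⟨w, ⟨h1, h2⟩, -, h3⟩ := mem_closure_iff_nhds.1 (hW.dense _ hOo hO hw₀) _
        (hz.and (hξc.eventually (hζ l).1))
      exact h3 (mem_iUnion.2 ⟨l, h2.1 h1⟩)
    choose μ hμ hμ1 using fun l => HasOrd.of_analytic (D := {w | Γ w ∈ (⋃ l, G l)ᶜ}) hw₀0
      (hζa l) (hζnz l)
    have hord : ∀ e, HasOrd {w | Γ w ∈ (⋃ l, G l)ᶜ} w₀ (fun w => t e (i e) (j e) (Γ w))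
        (∑ l, μ l * n e l) := by
      intro e
      obtain ⟨u, hu0, hua, htu⟩ := hu e (i e) (j e) (hi e) (hj e)
      have h1 : HasOrd {w | Γ w ∈ (⋃ l, G l)ᶜ} w₀ (fun w => u (Γ w)) 0 :=
        HasOrd.of_unit hw₀0 (analyticAt_comp_chart hξc hat hξa (hua ch hat)) hu0
      have h2 := HasOrd.prod hw₀0 Finset.univ fun l => (hμ l).zpow (hζne l) (n e l)
      have h3 := h1.mul hw₀0 h2
      rw [zero_add] at h3
      refine h3.congr ?_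
      filter_upwards [hξc.eventually htu] with w hw hwO _
      exact hw hwO
    have hev : ∀ᶠ w in 𝓝 w₀, w ∈ D ∧ (∀ e, p (v (Γ w)) ∈ (L e).U (i e)) ∧
        (∀ e, Γ w ∈ (N e).U (j e)) ∧ ∀ e, w 0 = 0 → HasOrd {w | Γ w ∈ (⋃ l, G l)ᶜ} w
          (fun w => t e (i e) (j e) (Γ w)) (∑ l, μ l * n e l) := by
      refine (hW.isOpen.eventually_mem hw₀).and (Filter.Eventually.and ?_
        (Filter.Eventually.and ?_ ?_))
      · rw [eventually_all]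
        exact fun e => (hhol w₀ hw₀).1.eventually_mem (((hTw.lb e).isOpen (i e)).mem_nhds (hi e))
      · rw [eventually_all]
        exact fun e => hξc.eventually_mem (((hN e).isOpen (j e)).mem_nhds (hj e))
      · rw [eventually_all]
        exact fun e => (hord e).eventually hw₀0
    obtain ⟨r₁, hr₁, hball⟩ := Metric.eventually_nhds_iff_ball.1 hev
    exact ⟨_, r₁, fun w => p (v (Γ w)), i, j, ⟨hw₀0, hr₁, fun w hw => (hball w hw).1,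
      fun w hw => hhol w (hball w hw).1, fun w hw => (hball w hw).2.1,
      fun w hw => (hball w hw).2.2.1, fun w _ _ => rfl,
      fun w hw h0 e => (hball w hw).2.2.2 e h0⟩⟩
  exact ordW_of1 hW hOo hO hTw hN (by rw [hB]; exact H762.cv_empty)

/-- (A1 step) -/
theorem stWgStep1 : StWgStep1 := by
  intro Y _ _ _ _ _ k hk V X Z X' vV hvV G₀ N hN L L' c c' O v P Q T ρ h f f' p q s a hf d hd hc
    hda b hb hO' Γ D hW α ho
  have h' := h.step (fun e => (hN e).isOpen) hvV hf hc hb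
  set O' : Set Y := {y | y ∈ O ∧ f (v y) ∉ Amin f} with hO'def
  set v' : Y → X'.pt := fun y => hf.small'.sec (f (v y)) with hv'
  set T' : ∀ e, (L' e).ι → (N e).ι → Y → ℂ :=
    fun e => stT v f (P e) (p e) (T e) (s e) (b e) with hT'
  have hOo : IsOpen O := (h.tw ⟨0, hk⟩).emb.isOpen
  have hOo' : IsOpen O' := (h'.tw ⟨0, hk⟩).emb.isOpen
  have hO : Dense O := hO'.mono fun y hy => hy.1
  have hQ0 : ∀ e, (0 : ℝ) < Q e := fun e => by exact_mod_cast (h.tw e).hQ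
  have hp0 : ∀ e, (0 : ℝ) < p e := fun e => by exact_mod_cast hf.hp e
  -- the bad set
  have hthin : Cv 2 {w | w ∈ D ∧ w 0 = 0 ∧ ¬ ∃ x, NG O' v' T' Γ D w x} := by
    have h1 : Cv 2 {w | w ∈ D ∧ w 0 = 0 ∧ (∃ x, NG O v T Γ D w x) ∧
        ¬ ∃ x, NG O' v' T' Γ D w x} := by
      apply H762.cv_of_local
      rintro w₀ ⟨hw₀, hw₀0, ⟨x, r, γ, i, n, hn⟩, -⟩
      obtain ⟨r₁, g, hr₁, hs1, hg, hne, hgood⟩ := nice_upW1 hk h hf hd hda hb hW hOo' hO' hn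
      refine ⟨ball w₀ r₁, isOpen_ball.mem_nhds (mem_ball_self hr₁), ?_⟩
      refine (cv_zero hw₀0 hg hne).mono ?_
      rintro w ⟨hw, -, hw0, -, hcon⟩
      refine ⟨hw, hw0, ?_⟩
      by_contra hgw
      obtain ⟨r₂, γ₁, j, x₁, hs2, hn', -, -, -⟩ := hgood w hw hw0 hgw
      exact hcon ⟨x₁, r₂, γ₁, j, n, hn'⟩
    refine (h1.union (H884.W.thin_iff ho)).mono ?_
    rintro w ⟨k1, k2, k3⟩
    by_cases hx : ∃ x, NG O v T Γ D w x
    · exact Or.inl ⟨k1, k2, hx, k3⟩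
    · exact Or.inr ⟨k1, k2, hx⟩
  obtain ⟨α', hα'⟩ := ordW_of1 hW hOo' hO' h' hN hthin
  have hsumα : ∀ w₀ r γ i n x, NiceW O' v' T' Γ D w₀ r γ i n x →
      ∑ e, ρ e / ((Q e * p e : ℕ) : ℝ) * x e = ∑ e, ρ e * α' e := by
    intro w₀ r γ i n x hn
    refine Finset.sum_congr rfl fun e _ => ?_
    rw [hα'.ord _ _ _ _ _ _ hn e]
    have h1 := hQ0 e
    have h2 := hp0 e
    push_cast
    field_simp
  have hsumα' : ∀ w₀ r γ i n x, NiceW O v T Γ D w₀ r γ i n x →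
      ∑ e, ρ e / (Q e : ℝ) * x e = ∑ e, ρ e * α e := by
    intro w₀ r γ i n x hn
    refine Finset.sum_congr rfl fun e _ => ?_
    rw [ho.ord _ _ _ _ _ _ hn e]
    have h1 := hQ0 e
    push_cast
    field_simp
  refine ⟨α', hα', ?_, ?_⟩
  · obtain ⟨w₀, hw₀, hw₀0⟩ := hW.ne
    obtain ⟨z, -, -, -, x, r, γ, i, n, hn⟩ := H884.W.OrdW.exists_nice hW.isOpen ho hw₀ hw₀0 univ_mem
    obtain ⟨r₁, g, hr₁, hs1, hg, ⟨w₁, hw₁, hw₁0, hgw₁⟩, hgood⟩ :=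
      nice_upW1 hk h hf hd hda hb hW hOo' hO' hn
    obtain ⟨r₂, γ₁, j, x₁, hs2, hn₂, -, hle, -⟩ := hgood w₁ hw₁ hw₁0 hgw₁
    rw [← hsumα _ _ _ _ _ _ hn₂, ← hsumα' _ _ _ _ _ _ hn]
    exact hle
  · rintro ⟨w₀, r, γ, i, n, x, hn, hnA⟩
    -- a nice point on the previous stage
    obtain ⟨z, hzb, hzD, hz0, x₀, r₀, γ₀, i₀, n₀, hn₀⟩ := H884.W.OrdW.exists_nice hW.isOpen ho
      (hn.sub (mem_ball_self hn.pos)) hn.zero (isOpen_ball.mem_nhds (mem_ball_self hn.pos))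
    obtain ⟨r₃, hr₃, hs3⟩ := Metric.isOpen_iff.1 (isOpen_ball.inter isOpen_ball) z
      (⟨hzb, mem_ball_self hn₀.pos⟩ : z ∈ ball w₀ r ∩ ball z r₀)
    have hn₃ := H884.W.NiceW.restrict hn₀ hz0 hr₃ fun w hw => (hs3 hw).2
    have key : ∀ w ∈ ball z r₃, f (γ₀ w) = f' (γ w) := by
      refine eqOn_of_closure (D := {w | Γ w ∈ O'}) isOpen_ball (fun w hw =>
        (hf.small.cont.continuousAt).comp (hn₃.hol w hw).1) (fun w hw =>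
        (hf.small'.cont.continuousAt).comp (hn.hol w (hs3 hw).1).1) ?_ ?_
      · intro w hw
        rw [mem_closure_iff_nhds]
        intro U hU
        obtain ⟨y, h1, h2⟩ := mem_closure_iff_nhds.1 (hW.dense O' hOo' hO' (hn₃.sub hw))
          (U ∩ ball z r₃) (inter_mem hU (isOpen_ball.mem_nhds hw))
        exact ⟨y, h1.1, h1.2, h2.2⟩
      · intro w hw hwO
        show f (γ₀ w) = f' (γ w)
        rw [hn₃.eq w hw hwO.1, hn.eq w (hs3 hw).1 hwO]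
        exact (hf.small'.sec_eq _).symm
    obtain ⟨r₁, g, hr₁, hs1, hg, ⟨w₁, hw₁, hw₁0, hgw₁⟩, hgood⟩ :=
      nice_upW1 hk h hf hd hda hb hW hOo' hO' hn₃
    obtain ⟨r₂, γ₁, j, x₁, hs2, hn₂, -, -, hlt⟩ := hgood w₁ hw₁ hw₁0 hgw₁
    rw [← hsumα _ _ _ _ _ _ hn₂, ← hsumα' _ _ _ _ _ _ hn₃]
    refine hlt fun w hw hw0 => ?_
    rw [key w hw]
    exact hnA w (hs3 hw).1 hw0

/-- (A1 transfer) -/
theorem stWgTrans1 : StWgTrans1 := by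
  intro Y _ _ _ _ _ k hk V X vV hvV G₀ N hN L c O hO v P Q T hTw Γ Γ' D D' hW hW' α α' hα hα'
    w₁ hw₁ hw₁0 χ hχ hχD hz
  have hOo : IsOpen O := (hTw.tw ⟨0, hk⟩).emb.isOpen
  -- the inverse
  obtain ⟨χ', C, hχ', hχ'0, hχ0, m1, m2, m3, -⟩ := locIso_data hχ hw₁0 (hz.mono fun w hw => hw.1)
  obtain ⟨U', hU's, hU', hU'1⟩ := _root_.mem_nhds_iff.1 hχ'.eventually_analyticAt
  have hbad : Cv 2 {w | w ∈ D ∧ w 0 = 0 ∧ ¬ ∃ x, NG O v T Γ D w x} := H884.W.thin_iff hα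
  have hbad' : Cv 2 (χ' '' ({w | w ∈ D' ∧ w 0 = 0 ∧ ¬ ∃ x, NG O v T Γ' D' w x} ∩ U')) :=
    ((H884.W.thin_iff hα').mono inter_subset_left).image hU' inter_subset_right fun z hz => hU's hz
  have hdet : ∀ᶠ w in 𝓝 w₁, T3.LocIso χ w := by
    have hc1 : ContinuousAt (fun w => (fderiv ℂ χ w).det) w₁ :=
      (ContinuousLinearMap.continuous_det (𝕜 := ℂ) (E := Cm 4)).continuousAt.comp
        hχ.1.fderiv.continuousAt
    filter_upwards [hχ.1.eventually_analyticAt, hc1.eventually_ne hχ.2] with w h1 h2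
    exact ⟨h1, h2⟩
  have hct : Tendsto χ (𝓝 w₁) (𝓝 (χ w₁)) := hχ.1.continuousAt
  have hev1 : ∀ᶠ w in 𝓝 w₁, w ∈ D := hW.isOpen.eventually_mem hw₁
  have hev2 : ∀ᶠ w in 𝓝 w₁, χ w ∈ D' := hct.eventually (hW'.isOpen.eventually_mem hχD)
  have hev3 : ∀ᶠ w in 𝓝 w₁, χ w ∈ U' := hct.eventually (hU'.eventually_mem hU'1)
  obtain ⟨z, ⟨k1, k2, k3, k4, k5, k6⟩, hz0, hzB⟩ := exists_good (hbad.union hbad') hw₁0
    (hev1.and (hev2.and (hev3.and (m1.and (hdet.and hz.eventually_nhds)))))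
  have hx : ∃ x, NG O v T Γ D z x := by
    by_contra hcon
    exact hzB (Or.inl ⟨k1, hz0, hcon⟩)
  have hχz0 : χ z 0 = 0 := k6.self_of_nhds.1.2 hz0
  have hx' : ∃ x, NG O v T Γ' D' (χ z) x := by
    by_contra hcon
    exact hzB (Or.inr ⟨χ z, ⟨⟨k2, hχz0, hcon⟩, k3⟩, k4⟩)
  obtain ⟨x, r, γ, i, c₁, hn⟩ := hx
  obtain ⟨x', r', γ', i', c', hn'⟩ := hx'
  obtain ⟨r₁, hn₁⟩ := H884.W.NiceW.comp hW.isOpen k1 hz0 k5 k6 hn'
  have h1 : x = x' := NiceW.unique1 hW hOo hO hTw hN hn hn₁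
  funext e
  have h3 : (Q e : ℚ) ≠ 0 := by
    have := (hTw.tw e).hQ
    exact_mod_cast (Nat.one_le_iff_ne_zero.1 this)
  have e1 := hα.ord _ _ _ _ _ _ hn e
  have e2 := hα'.ord _ _ _ _ _ _ hn' e
  rw [h1, e2] at e1
  exact (mul_right_cancel₀ h3 e1).symm

end Vale.Agent.P277.H884.N
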