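import Vale.Agent.P277.H884.F5d

/-!
# P277, F5: positivity of the density of the radial form
-/

open scoped ContDiff Topology

noncomputable section

namespace Vale.Agent.P277.H884.F

theorem deriv_nonpos {c : ℝ → ℝ} (h : Antitone c) (t : ℝ) : deriv c t ≤ 0 := h.deriv_nonpos

theorem kap_nonneg {c : ℝ → ℝ} (ha : Antitone c) (h0 : ∀ t, 0 ≤ c t) {t : ℝ} (ht : 0 ≤ t) :
    0 ≤ kap c t := by
  have h1 := deriv_nonpos ha t
  have h2 := h0 t
  have h3 : 0 ≤ t * c t * (-deriv c t) := by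
    have : 0 ≤ -deriv c t := by linarith
    positivity
  rw [kap]
  apply div_nonneg
  · nlinarith [sq_nonneg (c t)]
  · positivity

theorem kap_pos {c : ℝ → ℝ} (ha : Antitone c) {t : ℝ} (ht : 0 ≤ t) (h2 : 0 < c t) :
    0 < kap c t := by
  have h1 := deriv_nonpos ha t
  have h3 : 0 ≤ t * c t * (-deriv c t) := by
    have : 0 ≤ -deriv c t := by linarith
    positivity
  rw [kap]
  apply div_pos
  · nlinarith [sq_pos_of_pos h2]
  · positivity

/-- near the zeros of `f` and `f'` the density is positive -/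
theorem kap_pos_near {c : ℝ → ℝ} (hc : ContDiff ℝ ∞ c) (ha : Antitone c) (h0 : 0 < c 0) :
    ∃ ε > 0, ∀ t, 0 ≤ t → t < ε → 0 < kap c t := by
  have h1 : ∀ᶠ t in 𝓝 (0 : ℝ), 0 < c t := hc.continuous.continuousAt.eventually (lt_mem_nhds h0)
  obtain ⟨ε, hε, h2⟩ := Metric.eventually_nhds_iff.1 h1
  refine ⟨ε, hε, fun t h3 h4 => kap_pos ha h3 (h2 ?_)⟩
  rw [Real.dist_eq, sub_zero, abs_of_nonneg h3]
  exact h4

end Vale.Agent.P277.H884.F
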