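import Vale.Agent.P277.H884.StEta
import Vale.Agent.P277.H884.F5e
import Vale.Agent.P277.H335.E8

/-!
# P277, R'': the forms `η`, `θ` defined by tuples of sections pulled back by a holomorphic map
-/

set_option maxSynthPendingDepth 3

open scoped Manifold ContDiff Topology
open Vale.Agent.P272.K Vale.Agent.P285.H281.FD Vale.Agent.P267.H175 Set Filter
open Vale.Agent.P267.H928.Int ContinuousAlternatingMap

noncomputable section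

namespace Vale.Agent.P277.H884.F

open Vale.Agent.P277 Vale.Agent.P277.H619

/-- `x = c • y` -/
def SmRel {E : Type} [NormedAddCommGroup E] [NormedSpace ℝ E] {n : ℕ} (c : ℝ)
    (x y : E [⋀^Fin n]→L[ℝ] ℝ) : Prop := x = c • y

/-- `x v = r` -/
def VaRel {E : Type} [NormedAddCommGroup E] [NormedSpace ℝ E] {n : ℕ}
    (x : E [⋀^Fin n]→L[ℝ] ℝ) (v : Fin n → E) (r : ℝ) : Prop := x v = r

theorem toSm {n : ℕ} {c : ℝ} {x y : Cm 4 [⋀^Fin n]→L[ℝ] ℝ} (h : x = c • y) : SmRel c x y := h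

theorem toVa {n : ℕ} {x : Cm 4 [⋀^Fin n]→L[ℝ] ℝ} {v : Fin n → Cm 4} {r : ℝ} (h : x v = r) :
    VaRel x v r := h

theorem ofVa {n : ℕ} {x : Cm 4 [⋀^Fin n]→L[ℝ] ℝ} {v : Fin n → Cm 4} {r : ℝ}
    (h : VaRel x v r) : x v = r := h

section
variable {E : Type} [NormedAddCommGroup E] [NormedSpace ℝ E]

theorem wdg_sm {p q : ℕ} {κ κ' : ℝ} {a b : E [⋀^Fin p]→L[ℝ] ℝ} {a' b' : E [⋀^Fin q]→L[ℝ] ℝ}
    (h : SmRel κ a b) (h' : SmRel κ' a' b') : SmRel (κ * κ') (wdg a a') (wdg b b') := by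
  unfold SmRel at *
  rw [h, h', wdg_smul_left, wdg_smul_right, smul_smul]

theorem va_sm {n : ℕ} {κ : ℝ} {x y : E [⋀^Fin n]→L[ℝ] ℝ} {v : Fin n → E} {r : ℝ}
    (h : SmRel κ x y) (h' : VaRel y v r) : VaRel x v (κ * r) := by
  unfold SmRel at h
  unfold VaRel at *
  rw [h, ← h']
  rfl

/-- `x = y` -/
def EqRel {n : ℕ} (x y : E [⋀^Fin n]→L[ℝ] ℝ) : Prop := x = y

theorem wdg_e8 {l l' m m' : E →L[ℝ] ℂ} :
    EqRel (n := 0+1+1+1+1+(0+1+1+1+1)) (wdg (w4 l l' (H619.one0 : E [⋀^Fin 0]→L[ℝ] ℝ)) (w4 m m' (H619.one0 : E [⋀^Fin 0]→L[ℝ] ℝ)))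
      (w4 l l' (wdg H619.one0 (w4 m m' (H619.one0 : E [⋀^Fin 0]→L[ℝ] ℝ)))) := wdg_w4 _ _ _ _

theorem wdg_e8' {l l' m m' : E →L[ℝ] ℂ} :
    EqRel (n := 0+1+1+1+1+(0+1+1+1+1)) (wdg (w4 l l' (H619.one0 : E [⋀^Fin 0]→L[ℝ] ℝ)) (w4 m m' (H619.one0 : E [⋀^Fin 0]→L[ℝ] ℝ)))
      (w4 l l' (w4 m m' (H619.one0 : E [⋀^Fin 0]→L[ℝ] ℝ))) := by
  have h1 : EqRel (w4 l l' (wdg H619.one0 (w4 m m' (H619.one0 : E [⋀^Fin 0]→L[ℝ] ℝ)))) (w4 l l' (w4 m m' (H619.one0 : E [⋀^Fin 0]→L[ℝ] ℝ))) :=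
    congrArg (w4 l l') (wdg_one0 (w4 m m' (H619.one0 : E [⋀^Fin 0]→L[ℝ] ℝ)))
  exact (wdg_e8 (l := l) (l' := l') (m := m) (m' := m')).trans h1

theorem e8_gen (l : Fin 4 → E →L[ℝ] ℂ) : EqRel (n := 8) (w4 (l 0) (l 1) (w4 (l 2) (l 3) H619.one0)) (H619.e8 l) := rfl

theorem e8_gen' {l l' m m' : E →L[ℝ] ℂ} (L : Fin 4 → E →L[ℝ] ℂ) (h0 : L 0 = l) (h1 : L 1 = l') (h2 : L 2 = m) (h3 : L 3 = m') :
    EqRel (n := 0+1+1+1+1+1+1+1+1) (w4 l l' (w4 m m' (H619.one0 : E [⋀^Fin 0]→L[ℝ] ℝ))) (H619.e8 L) := by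
  subst h0 h1 h2 h3
  exact rfl

theorem gen8 {l l' m m' : E →L[ℝ] ℂ} {L : Fin 4 → E →L[ℝ] ℂ} (h0 : L 0 = l) (h1 : L 1 = l') (h2 : L 2 = m) (h3 : L 3 = m')
    {κ κ' : ℝ} {a a' : E [⋀^Fin (0+1+1+1+1)]→L[ℝ] ℝ} (ha : SmRel κ a (w4 l l' (H619.one0 : E [⋀^Fin 0]→L[ℝ] ℝ)))
    (ha' : SmRel κ' a' (w4 m m' (H619.one0 : E [⋀^Fin 0]→L[ℝ] ℝ))) {v : Fin (0+1+1+1+1+(0+1+1+1+1)) → E} {r : ℝ}
    (hr : VaRel (n := 0+1+1+1+1+(0+1+1+1+1)) (H619.e8 L) v r) :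
    VaRel (wdg a a') v (κ * κ' * r) := by
  have e1 : EqRel (wdg (w4 l l' (H619.one0 : E [⋀^Fin 0]→L[ℝ] ℝ)) (w4 m m' (H619.one0 : E [⋀^Fin 0]→L[ℝ] ℝ))) (H619.e8 L) :=
    Eq.trans wdg_e8' (e8_gen' L h0 h1 h2 h3)
  refine va_sm (wdg_sm ha ha') ?_
  unfold EqRel at e1
  rw [e1]
  exact hr
end


theorem va_e8 (l : Fin 4 → Cm 4 →L[ℂ] ℂ) (L : Fin 4 → Cm 4 →L[ℝ] ℂ)
    (hL : ∀ i, L i = (l i).restrictScalars ℝ) : VaRel (n := 8) (H619.e8 L) stdB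
    (‖(Matrix.of fun i j => l i (Pi.single j 1)).det‖ ^ 2) := H335.e8_stdB_gen' l L hL

theorem va_e8' (l : Fin 4 → Cm 4 →L[ℂ] ℂ) (L : Fin 4 → Cm 4 →L[ℝ] ℂ)
    (hL : ∀ i, L i = (l i).restrictScalars ℝ) : VaRel (n := 0+1+1+1+1+(0+1+1+1+1)) (H619.e8 L) stdB
    (‖(Matrix.of fun i j => l i (Pi.single j 1)).det‖ ^ 2) := va_e8 l L hL


theorem prod_gen (a0 a1 a2 a3 : Cm 4 →L[ℂ] ℂ) {κ κ' : ℝ} {x y : Cm 4 [⋀^Fin 4]→L[ℝ] ℝ}
    (h1 : SmRel κ x (w4 (a0.restrictScalars ℝ) (a1.restrictScalars ℝ)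
      (H619.one0 : Cm 4 [⋀^Fin 0]→L[ℝ] ℝ)))
    (h2 : SmRel κ' y (w4 (a2.restrictScalars ℝ) (a3.restrictScalars ℝ)
      (H619.one0 : Cm 4 [⋀^Fin 0]→L[ℝ] ℝ))) :
    VaRel (n := 8) (wdg x y) stdB (κ * κ' *
      ‖(Matrix.of fun i j => (![a0, a1, a2, a3] : Fin 4 → Cm 4 →L[ℂ] ℂ) i
        (Pi.single j 1)).det‖ ^ 2) := by
  have h3 := va_e8' ![a0, a1, a2, a3] ![a0.restrictScalars ℝ, a1.restrictScalars ℝ,
    a2.restrictScalars ℝ, a3.restrictScalars ℝ] (by intro i; fin_cases i <;> rfl)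
  exact gen8 (L := ![a0.restrictScalars ℝ, a1.restrictScalars ℝ,
    a2.restrictScalars ℝ, a3.restrictScalars ℝ]) rfl rfl rfl rfl h1 h2 h3

variable {Y : Type} [TopologicalSpace Y] [ChartedSpace (Cm 4) Y]

/-- `v` is a holomorphic map from the open set `W ⊆ Y` to `X`. -/
structure HolMap (X : CSp) (W : Set Y) (v : Y → X.pt) : Prop where
  isOpen : IsOpen W
  cont : ContinuousOn v W
  hol : ∀ y ∈ W, ∀ g : X.pt → ℂ, X.Hol g (v y) → ∀ e : Chart 4 Y, At e y →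
    AnalyticAt ℂ (fun z => g (v (e.symm z))) (e y)

theorem HolMap.mono {X : CSp} {W W' : Set Y} {v : Y → X.pt} (h : HolMap X W v) (hW' : IsOpen W')
    (hs : W' ⊆ W) : HolMap X W' v :=
  ⟨hW', h.cont.mono hs, fun y hy => h.hol y (hs hy)⟩

theorem goodB' {X : CSp} {W : Set Y} {v : Y → X.pt} (hv : HolMap X W v) {L : Bd X.pt}
    (hL : IsLBx X L) : GoodB v L W where
  isOpen := hv.isOpen
  isOpen' i := by
    have h1 : {y | y ∈ W ∧ v y ∈ L.U i} = W ∩ v ⁻¹' (L.U i) := rfl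
    rw [h1]
    exact hv.cont.isOpen_inter_preimage hv.isOpen (hL.isOpen i)
  cover y _ := hL.cover (v y)
  smooth i j y hy hi hj e he := by
    have h1 := hv.hol y hy (L.g i j) (hL.holo i j _ hi hj) e he
    exact (h1.contDiffAt (n := ∞)).restrict_scalars ℝ
  ne i j y _ hi hj := hL.ne_zero i j _ hi hj

variable [IsManifold 𝓘(ℂ, Cm 4) ω Y]

/-- the value of `eta` at a radial point -/
theorem eta_rad {X : CSp} {W : Set Y} {v : Y → X.pt} {P : Bd X.pt} (hG : GoodB v P W) {n : ℕ}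
    {F : Fin (n + 3) → P.ι → Y → ℂ} (hF : Tup v P W F) {y : Y} (hy : y ∈ W) {i : P.ι}
    (hi : v y ∈ P.U i) {f f' : Y → ℂ} {c : ℝ → ℝ} (hR : Rad (fun m => F m i) f f' y c)
    {e : OpenPartialHomeomorph Y (Cm 4)} (he : e ∈ atlas (Cm 4) Y) (hye : y ∈ e.source) :
    loc e (eta v P W F) (e y) = kap c (‖f y‖ ^ 2 + ‖f' y‖ ^ 2) •
      w4 (Dc e f y) (Dc e f' y) (H619.one0 : Cm 4 [⋀^Fin 0]→L[ℝ] ℝ) := by
  have hs : e.symm (e y) = y := e.left_inv hye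
  have hc := e.symm.continuousAt (e.map_source hye)
  have hR2 : ∀ᶠ z in 𝓝 (e y), F 0 i (e.symm z) = f (e.symm z) ∧ F 1 i (e.symm z) = f' (e.symm z) ∧
      F 2 i (e.symm z) = (c (‖f (e.symm z)‖ ^ 2 + ‖f' (e.symm z)‖ ^ 2) : ℂ) ∧
      ∀ m : Fin (n + 3), 3 ≤ m.val → F m i (e.symm z) = 0 := by
    have hR1 := hR.eq
    rw [← hs] at hR1
    exact hc.eventually hR1
  have hsm : ∀ m, ContDiffAt ℝ ∞ (fun z => F m i (e.symm z)) (e y) := fun m =>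
    (hF.sec m).smooth i y hy hi e ⟨he, hye⟩
  have hf : ContDiffAt ℝ ∞ (fun z => f (e.symm z)) (e y) := by
    refine (hsm 0).congr_of_eventuallyEq ?_
    filter_upwards [hR2] with z hz
    exact hz.1.symm
  have hf' : ContDiffAt ℝ ∞ (fun z => f' (e.symm z)) (e y) := by
    refine (hsm 1).congr_of_eventuallyEq ?_
    filter_upwards [hR2] with z hz
    exact hz.2.1.symm
  have hS : ‖f y‖ ^ 2 + ‖f' y‖ ^ 2 + c (‖f y‖ ^ 2 + ‖f' y‖ ^ 2) ^ 2 ≠ 0 := by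
    intro h0
    have b1 := sq_nonneg (‖f y‖)
    have b2 := sq_nonneg (‖f' y‖)
    have b3 := sq_nonneg (c (‖f y‖ ^ 2 + ‖f' y‖ ^ 2))
    have a1 : ‖f y‖ ^ 2 = 0 := by linarith
    have a2 : ‖f' y‖ ^ 2 = 0 := by linarith
    rw [a1, a2] at h0
    have a3 : c 0 = 0 := by simpa using h0
    exact hR.pos.ne' a3
  have key := ff_rad (G := fun m z => F m i (e.symm z)) hR.smooth hf hf'
    (by rw [hs]; exact hS) hR2
  rw [hs] at key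
  have hloc : loc e (eta v P W F) (e y) = ff (fun m z => F m i (e.symm z)) (e y) :=
    loc_eta hG hF he (e.map_source hye) (by rw [hs]; exact hy) (by rw [hs]; exact hi)
  exact hloc.trans key

/-- the product of the two forms at a point where both tuples are radial -/
theorem loc_prod' {X : CSp} {v : Y → X.pt} {η θ : Fm 4 Y} {y : Y}
    {e : OpenPartialHomeomorph Y (Cm 4)} {g g' h h' : X.pt → ℂ}
    (hg : AnalyticAt ℂ (fun z => g (v (e.symm z))) (e y))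
    (hg' : AnalyticAt ℂ (fun z => g' (v (e.symm z))) (e y))
    (hh : AnalyticAt ℂ (fun z => h (v (e.symm z))) (e y))
    (hh' : AnalyticAt ℂ (fun z => h' (v (e.symm z))) (e y)) {κ κ' : ℝ}
    (h1 : loc e η (e y) = κ • w4 (Dc e (fun y => g (v y)) y) (Dc e (fun y => g' (v y)) y)
      (H619.one0 : Cm 4 [⋀^Fin 0]→L[ℝ] ℝ))
    (h2 : loc e θ (e y) = κ' • w4 (Dc e (fun y => h (v y)) y) (Dc e (fun y => h' (v y)) y)
      (H619.one0 : Cm 4 [⋀^Fin 0]→L[ℝ] ℝ)) :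
    loc e (fun y => wdg (η y) (θ y)) (e y) stdB =
      κ * κ' * ‖Jac v ![g, g', h, h'] e (e y)‖ ^ 2 := by
  have e1 : loc e (fun y => wdg (η y) (θ y)) (e y) = wdg (loc e η (e y)) (loc e θ (e y)) :=
    congrFun (loc_wdg e η θ) (e y)
  have hd : ∀ {g : X.pt → ℂ}, AnalyticAt ℂ (fun z => g (v (e.symm z))) (e y) →
      Dc e (fun y => g (v y)) y =
      (fderiv ℂ (fun z => g (v (e.symm z))) (e y)).restrictScalars ℝ := by
    intro g hg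
    exact (hg.differentiableAt.hasFDerivAt.restrictScalars ℝ).fderiv
  rw [hd hg, hd hg'] at h1
  rw [hd hh, hd hh'] at h2
  set a0 : Cm 4 →L[ℂ] ℂ := fderiv ℂ (fun z => g (v (e.symm z))) (e y) with ha0
  set a1 : Cm 4 →L[ℂ] ℂ := fderiv ℂ (fun z => g' (v (e.symm z))) (e y) with ha1
  set a2 : Cm 4 →L[ℂ] ℂ := fderiv ℂ (fun z => h (v (e.symm z))) (e y) with ha2
  set a3 : Cm 4 →L[ℂ] ℂ := fderiv ℂ (fun z => h' (v (e.symm z))) (e y) with ha3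
  have h4 : (Matrix.of fun i j => (![a0, a1, a2, a3] : Fin 4 → Cm 4 →L[ℂ] ℂ) i
      (Pi.single j 1)).det = Jac v ![g, g', h, h'] e (e y) := by
    unfold Jac
    congr 1
    ext i j
    fin_cases i <;> rfl
  have e2 := prod_gen a0 a1 a2 a3 (toSm h1) (toSm h2)
  rw [h4] at e2
  have e3 : VaRel (loc e (fun y => wdg (η y) (θ y)) (e y)) stdB
      (κ * κ' * ‖Jac v ![g, g', h, h'] e (e y)‖ ^ 2) := by
    rw [e1]
    exact e2
  exact ofVa e3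
/-- the form is nonnegative on the frame -/
def NNAt {k : ℕ} (A : Fm k Y) (B : Fin k → Cm 4) : Prop :=
  ∀ y, ∀ e ∈ atlas (Cm 4) Y, y ∈ e.source → 0 ≤ loc e A (e y) B

/-- the form does not vanish on the frame at the point -/
def NZAt {k : ℕ} (A : Fm k Y) (B : Fin k → Cm 4) (e : OpenPartialHomeomorph Y (Cm 4)) (y : Y) :
    Prop := loc e A (e y) B ≠ 0

/-- the form vanishes outside `C` -/
def ZOut {k : ℕ} (A : Fm k Y) (C : Set Y) : Prop := ∀ y ∉ C, A y = 0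

theorem intM_posR [T2Space Y] [SecondCountableTopology Y] {A : Fm 8 Y} (hA : ∀ y, SmAt A y)
    {C : Set Y} (hC : IsCompact C) (hz : ZOut A C) (hn : NNAt A stdB)
    {e₁ : OpenPartialHomeomorph Y (Cm 4)} {y₁ : Y} (he₁ : e₁ ∈ atlas (Cm 4) Y)
    (hy₁ : y₁ ∈ e₁.source) (h1 : NZAt A stdB e₁ y₁) : 0 < intM Y A :=
  H19.intM_pos hA hC hz hn he₁ hy₁ h1

/-- positivity of the pairing -/
theorem pr_pos [T2Space Y] [SecondCountableTopology Y] {X : CSp} {W : Set Y} {v : Y → X.pt}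
    (hv : HolMap X W v) {P Q : Bd X.pt} (hP : IsLBx X P) (hQ : IsLBx X Q) {G : Set X.pt}
    (hG : IsOpen G) {s s' : P.ι → X.pt → ℂ} {σ σ' : Q.ι → X.pt → ℂ} (hs : IsSecx X G P s)
    (hs' : IsSecx X G P s') (hσ : IsSecx X G Q σ) (hσ' : IsSecx X G Q σ') {n n' : ℕ}
    {F : Fin (n + 3) → P.ι → Y → ℂ} {F' : Fin (n' + 3) → Q.ι → Y → ℂ} (hF : Tup v P W F)
    (hF' : Tup v Q (W ∩ v ⁻¹' G) F') {C₀ C' : Set Y} (hC₀ : C₀ ⊆ W) (hC₀c : IsCompact C₀)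
    (hF2 : ∀ y ∈ W, y ∉ C₀ → ∀ i, v y ∈ P.U i → ∀ m : Fin (n + 3), 2 ≤ m.val → F m i y = 0)
    (hC' : C' ⊆ W ∩ v ⁻¹' G) (hC'c : IsCompact C')
    (hF2' : ∀ y ∈ W ∩ v ⁻¹' G, y ∉ C' → ∀ i, v y ∈ Q.U i → ∀ m : Fin (n' + 3), 2 ≤ m.val →
      F' m i y = 0)
    (hrad : ∀ y ∈ C₀ ∩ C', ∃ i j c c', v y ∈ P.U i ∧ v y ∈ Q.U j ∧
      Rad (fun m => F m i) (fun y => s i (v y)) (fun y => s' i (v y)) y c ∧
      Rad (fun m => F' m j) (fun y => σ j (v y)) (fun y => σ' j (v y)) y c')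
    {y₁ : Y} (hy₁ : y₁ ∈ W) (hy₁G : v y₁ ∈ G) {i : P.ι} {j : Q.ι} (hi : v y₁ ∈ P.U i)
    (hj : v y₁ ∈ Q.U j) {c c' : ℝ → ℝ}
    (hr : Rad (fun m => F m i) (fun y => s i (v y)) (fun y => s' i (v y)) y₁ c)
    (hr' : Rad (fun m => F' m j) (fun y => σ j (v y)) (fun y => σ' j (v y)) y₁ c')
    (hk : 0 < c (‖s i (v y₁)‖ ^ 2 + ‖s' i (v y₁)‖ ^ 2))
    (hk' : 0 < c' (‖σ j (v y₁)‖ ^ 2 + ‖σ' j (v y₁)‖ ^ 2))
    (hJ : ∀ e : Chart 4 Y, At e y₁ → Jac v ![s i, s' i, σ j, σ' j] e (e y₁) ≠ 0) :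
    0 < pr Y (eta v P W F) (eta v Q (W ∩ v ⁻¹' G) F') := by
  have hvG : IsOpen (W ∩ v ⁻¹' G) := hv.cont.isOpen_inter_preimage hv.isOpen hG
  have hv' : HolMap X (W ∩ v ⁻¹' G) v := hv.mono hvG inter_subset_left
  have gP := goodB' hv hP
  have gQ := goodB' hv' hQ
  have cη := ccf_eta gP hF hC₀ hC₀c hF2
  have cθ := ccf_eta gQ hF' hC' hC'c hF2'
  have zη : ∀ y ∉ C₀, eta v P W F y = 0 := fun y hy => eta_zero_of gP hF hC₀c.isClosed hF2 hy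
  have zθ : ∀ y ∉ C', eta v Q (W ∩ v ⁻¹' G) F' y = 0 := fun y hy =>
    eta_zero_of gQ hF' hC'c.isClosed hF2' hy
  have hform : ∀ y ∈ W ∩ v ⁻¹' G, ∀ e ∈ atlas (Cm 4) Y, y ∈ e.source → ∀ i j c c',
      v y ∈ P.U i → v y ∈ Q.U j →
      Rad (fun m => F m i) (fun y => s i (v y)) (fun y => s' i (v y)) y c →
      Rad (fun m => F' m j) (fun y => σ j (v y)) (fun y => σ' j (v y)) y c' →
      loc e (fun y => wdg (eta v P W F y) (eta v Q (W ∩ v ⁻¹' G) F' y)) (e y) stdB =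
        kap c (‖s i (v y)‖ ^ 2 + ‖s' i (v y)‖ ^ 2) * kap c' (‖σ j (v y)‖ ^ 2 + ‖σ' j (v y)‖ ^ 2) *
          ‖Jac v ![s i, s' i, σ j, σ' j] e (e y)‖ ^ 2 := by
    intro y hy e he hye i j c c' hi hj hr hr'
    exact loc_prod' (hv.hol y hy.1 _ (hs.holo i _ hy.2 hi) e ⟨he, hye⟩)
      (hv.hol y hy.1 _ (hs'.holo i _ hy.2 hi) e ⟨he, hye⟩)
      (hv.hol y hy.1 _ (hσ.holo j _ hy.2 hj) e ⟨he, hye⟩)
      (hv.hol y hy.1 _ (hσ'.holo j _ hy.2 hj) e ⟨he, hye⟩)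
      (eta_rad gP hF hy.1 hi hr he hye) (eta_rad gQ hF' hy hj hr' he hye)
  have hat : At (chartAt (Cm 4) y₁) y₁ := ⟨chart_mem_atlas _ _, mem_chart_source _ _⟩
  have hpos := hform y₁ ⟨hy₁, hy₁G⟩ _ hat.1 hat.2 i j c c' hi hj hr hr'
  have hsm : ∀ y, SmAt (fun y => wdg (eta v P W F y) (eta v Q (W ∩ v ⁻¹' G) F' y)) y :=
    fun y => smAt_wdg (cη.sm y) (cθ.sm y)
  have hz : ZOut (fun y => wdg (eta v P W F y) (eta v Q (W ∩ v ⁻¹' G) F' y)) C₀ := by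
    intro y hy
    show wdg (eta v P W F y) (eta v Q (W ∩ v ⁻¹' G) F' y) = 0
    rw [zη y hy, wdg_zero_left]
  have hn : NNAt (fun y => wdg (eta v P W F y) (eta v Q (W ∩ v ⁻¹' G) F' y)) stdB := by
    intro y e he hye
    by_cases h1 : y ∈ C₀
    · by_cases h2 : y ∈ C'
      · obtain ⟨i, j, c, c', hi, hj, hr, hr'⟩ := hrad y ⟨h1, h2⟩
        rw [hform y (hC' h2) e he hye i j c c' hi hj hr hr']
        refine mul_nonneg (mul_nonneg (kap_nonneg hr.anti hr.nonneg (by positivity))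
          (kap_nonneg hr'.anti hr'.nonneg (by positivity))) (by positivity)
      · have h3 : wdg (eta v P W F y) (eta v Q (W ∩ v ⁻¹' G) F' y) = 0 := by
          rw [zθ y h2, wdg_zero_right]
        have h4 : loc e (fun y => wdg (eta v P W F y) (eta v Q (W ∩ v ⁻¹' G) F' y)) (e y) = 0 := by
          rw [loc, e.left_inv hye, h3]; rfl
        rw [h4]; exact le_rfl
    · have h3 : wdg (eta v P W F y) (eta v Q (W ∩ v ⁻¹' G) F' y) = 0 := by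
        rw [zη y h1, wdg_zero_left]
      have h4 : loc e (fun y => wdg (eta v P W F y) (eta v Q (W ∩ v ⁻¹' G) F' y)) (e y) = 0 := by
        rw [loc, e.left_inv hye, h3]; rfl
      rw [h4]; exact le_rfl
  have hnz : NZAt (fun y => wdg (eta v P W F y) (eta v Q (W ∩ v ⁻¹' G) F' y)) stdB
      (chartAt (Cm 4) y₁) y₁ := by
    unfold NZAt
    rw [hpos]
    have h1 := kap_pos hr.anti (t := ‖s i (v y₁)‖ ^ 2 + ‖s' i (v y₁)‖ ^ 2) (by positivity) hk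
    have h2 := kap_pos hr'.anti (t := ‖σ j (v y₁)‖ ^ 2 + ‖σ' j (v y₁)‖ ^ 2) (by positivity) hk'
    have h3 := hJ _ hat
    positivity
  exact intM_posR hsm hC₀c hz hn hat.1 hat.2 hnz

end Vale.Agent.P277.H884.F
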