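import Mathlib

/-!
# P277, T3, P2: the maximum principle on discs with countable bad sets
-/

open scoped Topology
open Set Filter Metric

noncomputable section

namespace Vale.Agent.P277.H884.PH

/-- local maxima of real parts of analytic functions -/
theorem re_locmax {E : Type*} [NormedAddCommGroup E] [NormedSpace ℂ E] {H : E → ℂ} {c : E}
    (hH : AnalyticAt ℂ H c) (hm : ∀ᶠ z in 𝓝 c, (H z).re ≤ (H c).re) :
    ∀ᶠ z in 𝓝 c, (H z).re = (H c).re := by
  have h1 : ∀ᶠ z in 𝓝 c, DifferentiableAt ℂ (fun z => Complex.exp (H z)) z := by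
    filter_upwards [hH.eventually_analyticAt] with z hz using hz.differentiableAt.cexp
  have h2 : IsLocalMax (norm ∘ fun z => Complex.exp (H z)) c := by
    filter_upwards [hm] with z hz
    simp only [Function.comp_apply, Complex.norm_exp]
    exact Real.exp_le_exp.2 hz
  filter_upwards [Complex.eventually_eq_of_isLocalMax_norm h1 h2] with z hz
  have h3 := congrArg norm hz
  simp only [Complex.norm_exp] at h3
  exact Real.exp_injective h3

theorem log_branch {a c : ℂ} (h : c ≠ a) : AnalyticAt ℂ (fun z => Complex.log ((z - a) / (c - a))) c ∧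
    ∀ᶠ z in 𝓝 c, (Complex.log ((z - a) / (c - a))).re = Real.log ‖z - a‖ - Real.log ‖c - a‖ := by
  have hca : c - a ≠ 0 := sub_ne_zero.2 h
  have h1 : AnalyticAt ℂ (fun z : ℂ => (z - a) / (c - a)) c :=
    (analyticAt_id.sub analyticAt_const).div analyticAt_const hca
  refine ⟨h1.clog ?_, ?_⟩
  · simp only [div_self hca]
    exact Complex.one_mem_slitPlane
  · filter_upwards [isOpen_ne.mem_nhds h] with z hz
    have hza : z - a ≠ 0 := sub_ne_zero.2 hz
    rw [Complex.log_re, norm_div, Real.log_div (norm_ne_zero_iff.2 hza) (norm_ne_zero_iff.2 hca)]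

/-- **the maximum principle on discs with countable exceptional sets** -/
theorem disc_max {P : Type*} [TopologicalSpace P] [T2Space P] {Z : Set P} (hZ : IsCompact Z) {t : P → ℂ}
    (ht : ContinuousOn t Z) {r : ℝ} (hr : 0 < r) (htr : ∀ y ∈ Z, ‖t y‖ ≤ r) {T : Set ℂ}
    (hT : IsClosed T) (hTc : T.Countable) {u : P → ℝ}
    (hu : ∀ y ∈ Z, t y ∉ T → ContinuousWithinAt u Z y) {C M : ℝ}
    (hC : ∀ y ∈ Z, t y ∉ T → u y ≤ C) (hM : ∀ y ∈ Z, t y ∉ T → ‖t y‖ = r → u y ≤ M)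
    (hloc : ∀ y ∈ Z, t y ∉ T → ‖t y‖ < r → ∃ (σ : ℂ → P) (H : ℂ → ℂ), AnalyticAt ℂ H (t y) ∧
      σ (t y) = y ∧ ∀ᶠ ζ in 𝓝 (t y), σ ζ ∈ Z ∧ t (σ ζ) = ζ ∧ u (σ ζ) = (H ζ).re)
    {y₁ : P} (hy₁ : y₁ ∈ Z) (hty₁ : t y₁ ∉ T) : u y₁ ≤ M := by
  by_contra hcon
  push Not at hcon
  set E : ℝ := |C| + |M| + 1 with hE
  have hE0 : 0 < E := by positivity
  set η : ℝ := min ((u y₁ - M) / 2) E with hη
  have hη0 : 0 < η := lt_min (by linarith) hE0
  obtain ⟨w, hw0, hw⟩ := hTc.exists_pos_forall_sum_le hη0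
  -- the exponents
  set τ₁ := t y₁ with hτ₁
  have hne : ∀ a ∈ T, 0 < ‖τ₁ - a‖ := by
    intro a ha
    rw [norm_pos_iff, sub_ne_zero]
    rintro rfl
    exact hty₁ ha
  set K : ℂ → ℝ := fun a => (E * Real.log (2 * r / ‖τ₁ - a‖) + 1) / w a with hK
  have hlog : ∀ a ∈ T ∩ closedBall 0 r, 0 ≤ Real.log (2 * r / ‖τ₁ - a‖) := by
    intro a ha
    apply Real.log_nonneg
    rw [one_le_div (hne a ha.1)]
    have h1 := htr y₁ hy₁
    have h2 : ‖a‖ ≤ r := by simpa using ha.2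
    calc ‖τ₁ - a‖ ≤ ‖τ₁‖ + ‖a‖ := norm_sub_le _ _
      _ ≤ 2 * r := by linarith
  have hKpos : ∀ a ∈ T ∩ closedBall 0 r, 0 < K a := by
    intro a ha
    have := mul_nonneg hE0.le (hlog a ha)
    exact div_pos (by linarith) (hw0 a)
  -- the barriers
  set β : ℂ → ℂ → ℝ := fun a ζ => Real.log (2 * r / ‖ζ - a‖) / K a with hβ
  have hβ1 : ∀ a ∈ T ∩ closedBall 0 r, E * β a τ₁ ≤ w a := by
    intro a ha
    have h1 := mul_nonneg hE0.le (hlog a ha)
    have h2 := hKpos a ha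
    have h3 : w a * K a = E * Real.log (2 * r / ‖τ₁ - a‖) + 1 := by
      rw [hK]
      field_simp [(hw0 a).ne']
    simp only [hβ]
    rw [← mul_div_assoc, div_le_iff₀ h2, h3]
    linarith
  have hcover : ∀ a ∈ T ∩ closedBall 0 r, ball a (2 * r * Real.exp (-K a)) ∈ 𝓝 a := fun a ha =>
    ball_mem_nhds a (by positivity)
  have hTcomp : IsCompact (T ∩ closedBall (0 : ℂ) r) := (isCompact_closedBall 0 r).inter_left hT
  obtain ⟨s, hsT, hs⟩ := hTcomp.elim_nhds_subcover (fun a => ball a (2 * r * Real.exp (-K a))) hcover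
  have hwsum : ∑ a ∈ s, w a ≤ η := hw s fun a ha => (hsT a ha).1
  -- barrier values
  have hβlow : ∀ a ∈ s, ∀ ζ : ℂ, ‖ζ‖ ≤ r → 0 < ‖ζ - a‖ → 0 ≤ β a ζ := by
    intro a ha ζ hζ hζa
    refine div_nonneg (Real.log_nonneg ?_) (hKpos a (hsT a ha)).le
    rw [one_le_div hζa]
    have h2 : ‖a‖ ≤ r := by simpa using (hsT a ha).2
    calc ‖ζ - a‖ ≤ ‖ζ‖ + ‖a‖ := norm_sub_le _ _
      _ ≤ 2 * r := by linarith
  have hβone : ∀ a ∈ s, ∀ ζ : ℂ, ‖ζ - a‖ = 2 * r * Real.exp (-K a) → β a ζ = 1 := by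
    intro a ha ζ hζ
    have hK0 := hKpos a (hsT a ha)
    simp only [hβ]
    rw [hζ, show 2 * r / (2 * r * Real.exp (-K a)) = Real.exp (K a) by
      rw [Real.exp_neg]; field_simp, Real.log_exp, div_self hK0.ne']
  -- the compact set
  set Z' : Set P := {y | y ∈ Z ∧ ∀ a ∈ s, 2 * r * Real.exp (-K a) ≤ ‖t y - a‖} with hZ'
  have hZ'sub : Z' ⊆ Z := fun y hy => hy.1
  have hZ'T : ∀ y ∈ Z', t y ∉ T := by
    intro y hy hyT
    have h1 : t y ∈ T ∩ closedBall (0 : ℂ) r := ⟨hyT, by simpa using htr y hy.1⟩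
    obtain ⟨a, ha, hya⟩ := mem_iUnion₂.1 (hs h1)
    rw [mem_ball_iff_norm] at hya
    exact absurd (hy.2 a ha) (not_le.2 hya)
  have hZ'c : IsCompact Z' := by
    have h1 : IsClosed {ζ : ℂ | ∀ a ∈ s, 2 * r * Real.exp (-K a) ≤ ‖ζ - a‖} := by
      simp only [ofPred_forall]
      exact isClosed_biInter fun a _ => isClosed_le continuous_const (by fun_prop)
    exact hZ.of_isClosed_subset (ht.preimage_isClosed_of_isClosed hZ.isClosed h1) inter_subset_left
  -- the function with barriers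
  set W : P → ℝ := fun y => u y - E * ∑ a ∈ s, β a (t y) with hW
  have hdist : ∀ y ∈ Z', ∀ a ∈ s, 0 < ‖t y - a‖ := fun y hy a ha =>
    lt_of_lt_of_le (by positivity) (hy.2 a ha)
  have hβc : ∀ a ∈ s, ∀ ζ : ℂ, 0 < ‖ζ - a‖ → ContinuousAt (β a) ζ := by
    intro a ha ζ hζ
    simp only [hβ]
    have h1 : ContinuousAt (fun ζ : ℂ => ‖ζ - a‖) ζ := by fun_prop
    have h2 : ContinuousAt (fun ζ : ℂ => 2 * r / ‖ζ - a‖) ζ := continuousAt_const.div h1 hζ.ne'
    exact (h2.log (div_pos (by positivity) hζ).ne').div_const _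
  have hWc : ContinuousOn W Z' := by
    intro y hy
    refine ContinuousWithinAt.sub ((hu y hy.1 (hZ'T y hy)).mono hZ'sub) ?_
    refine ContinuousWithinAt.mul continuousWithinAt_const ?_
    refine tendsto_finsetSum _ fun a ha => ?_
    exact (hβc a ha _ (hdist y hy a ha)).comp_continuousWithinAt ((ht y hy.1).mono hZ'sub)
  -- the value at `y₁`
  have hsum1 : E * ∑ a ∈ s, β a τ₁ ≤ η := by
    rw [Finset.mul_sum]
    exact (Finset.sum_le_sum fun a ha => hβ1 a (hsT a ha)).trans hwsum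
  have hy₁' : y₁ ∈ Z' := by
    refine ⟨hy₁, fun a ha => ?_⟩
    have h1 := hne a (hsT a ha).1
    have hK0 := hKpos a (hsT a ha)
    have h2 : E * β a τ₁ ≤ E := by
      have h3 : E * β a τ₁ ≤ E * ∑ b ∈ s, β b τ₁ := by
        refine mul_le_mul_of_nonneg_left ?_ hE0.le
        exact Finset.single_le_sum (f := fun b => β b τ₁)
          (fun b hb => hβlow b hb τ₁ (htr y₁ hy₁) (hne b (hsT b hb).1)) ha
      exact (h3.trans hsum1).trans (min_le_right _ _)
    have h3 : β a τ₁ ≤ 1 := by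
      by_contra h
      push Not at h
      nlinarith
    simp only [hβ] at h3
    rw [div_le_one hK0, Real.log_le_iff_le_exp (by positivity)] at h3
    rw [div_le_iff₀ h1] at h3
    rw [Real.exp_neg, ← div_eq_mul_inv, div_le_iff₀ (Real.exp_pos _)]
    rw [mul_comm (Real.exp (K a))] at h3
    exact h3
  have hWy₁ : M < W y₁ := by
    have h1 : η ≤ (u y₁ - M) / 2 := min_le_left _ _
    have h2 : W y₁ = u y₁ - E * ∑ a ∈ s, β a τ₁ := rfl
    rw [h2]
    linarith
  -- the maximum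
  obtain ⟨y₀, hy₀, hmax⟩ := hZ'c.exists_isMaxOn ⟨y₁, hy₁'⟩ hWc
  set m := W y₀ with hm
  have hmM : M < m := lt_of_lt_of_le hWy₁ (hmax hy₁')
  -- maximum points are interior
  have hWu : ∀ y ∈ Z', W y ≤ u y := by
    intro y hy
    have : 0 ≤ E * ∑ a ∈ s, β a (t y) := mul_nonneg hE0.le
      (Finset.sum_nonneg fun a ha => hβlow a ha _ (htr y hy.1) (hdist y hy a ha))
    simp only [hW]
    linarith
  have hint : ∀ y ∈ Z', W y = m → ‖t y‖ < r ∧ ∀ a ∈ s, 2 * r * Real.exp (-K a) < ‖t y - a‖ := by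
    intro y hy hym
    refine ⟨lt_of_le_of_ne (htr y hy.1) fun h => ?_, fun a ha => lt_of_le_of_ne (hy.2 a ha)
      fun h => ?_⟩
    · have h1 := hM y hy.1 (hZ'T y hy) h
      have h2 := hWu y hy
      linarith
    · have h1 := hβone a ha (t y) h.symm
      have h2 : β a (t y) ≤ ∑ b ∈ s, β b (t y) :=
        Finset.single_le_sum (f := fun b => β b (t y))
          (fun b hb => hβlow b hb _ (htr y hy.1) (hdist y hy b hb)) ha
      have h3 := hC y hy.1 (hZ'T y hy)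
      have h4 : E * 1 ≤ E * ∑ b ∈ s, β b (t y) := mul_le_mul_of_nonneg_left (h1 ▸ h2) hE0.le
      have h5 : W y = u y - E * ∑ a ∈ s, β a (t y) := rfl
      have h6 := le_abs_self C
      have h7 := neg_abs_le M
      linarith
  -- the set of values of `t` at maximum points is open
  set Q : Set ℂ := t '' {y | y ∈ Z' ∧ W y = m} with hQ
  have hQc : IsCompact Q := by
    have h1 : IsCompact {y | y ∈ Z' ∧ W y = m} :=
      hZ'c.of_isClosed_subset (hWc.preimage_isClosed_of_isClosed hZ'c.isClosed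
        (isClosed_singleton (x := m))) inter_subset_left
    exact h1.image_of_continuousOn (ht.mono fun y hy => hy.1.1)
  have hQo : IsOpen Q := by
    rw [isOpen_iff_mem_nhds]
    rintro _ ⟨y, ⟨hy, hym⟩, rfl⟩
    obtain ⟨hyr, hya⟩ := hint y hy hym
    obtain ⟨σ, H, hH, hσ, hev⟩ := hloc y hy.1 (hZ'T y hy) hyr
    -- nearby points lie in `Z'`
    have h1 : ∀ᶠ ζ in 𝓝 (t y), ∀ a ∈ s, 2 * r * Real.exp (-K a) < ‖ζ - a‖ := by
      rw [Finset.eventually_all]
      intro a ha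
      exact (continuousAt_id.sub continuousAt_const).norm.eventually_const_lt (hya a ha)
    have h2 : ∀ᶠ ζ in 𝓝 (t y), σ ζ ∈ Z' := by
      filter_upwards [h1, hev] with ζ hζ hζ'
      refine ⟨hζ'.1, fun a ha => ?_⟩
      rw [hζ'.2.1]
      exact (hζ a ha).le
    -- the analytic function
    set H₁ : ℂ → ℂ := fun ζ => H ζ + ∑ a ∈ s, ((E / K a : ℝ) : ℂ) *
      Complex.log ((ζ - a) / (t y - a)) with hH₁
    have hH₁a : AnalyticAt ℂ H₁ (t y) := by
      refine hH.add ?_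
      refine Finset.analyticAt_fun_sum _ fun a ha => ?_
      exact analyticAt_const.mul (log_branch (sub_ne_zero.1 (norm_pos_iff.1 (hdist y hy a ha)))).1
    have h3 : ∀ᶠ ζ in 𝓝 (t y), W (σ ζ) - (H₁ ζ).re = W y - (H₁ (t y)).re := by
      have h4 : ∀ᶠ ζ in 𝓝 (t y), ∀ a ∈ s, (Complex.log ((ζ - a) / (t y - a))).re =
          Real.log ‖ζ - a‖ - Real.log ‖t y - a‖ := by
        rw [Finset.eventually_all]
        intro a ha
        exact (log_branch (sub_ne_zero.1 (norm_pos_iff.1 (hdist y hy a ha)))).2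
      have key : ∀ ζ, (∀ a ∈ s, 0 < ‖ζ - a‖) → σ ζ ∈ Z ∧ t (σ ζ) = ζ ∧ u (σ ζ) = (H ζ).re →
          (∀ a ∈ s, (Complex.log ((ζ - a) / (t y - a))).re =
            Real.log ‖ζ - a‖ - Real.log ‖t y - a‖) →
          W (σ ζ) - (H₁ ζ).re = - ∑ a ∈ s, E / K a * (Real.log (2 * r) - Real.log ‖t y - a‖) := by
        intro ζ hζ0 hζ1 hζ2
        have h5 : W (σ ζ) = u (σ ζ) - E * ∑ a ∈ s, β a (t (σ ζ)) := rfl
        rw [h5, hζ1.2.1, hζ1.2.2]
        simp only [hH₁, Complex.add_re, Complex.re_sum, Complex.re_ofReal_mul]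
        rw [← Finset.sum_neg_distrib, Finset.mul_sum]
        have h6 : ∀ x y z : ℝ, x - y - (x + z) = - (y + z) := fun x y z => by ring
        rw [h6, ← Finset.sum_add_distrib, ← Finset.sum_neg_distrib]
        refine Finset.sum_congr rfl fun a ha => ?_
        rw [hζ2 a ha]
        simp only [hβ]
        rw [Real.log_div (by positivity) (hζ0 a ha).ne']
        have := (hKpos a (hsT a ha)).ne'
        field_simp
        ring
      have h7 := key (t y) (hdist y hy) hev.self_of_nhds h4.self_of_nhds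
      rw [hσ] at h7
      filter_upwards [h1, hev, h4] with ζ hζ1 hζ2 hζ3
      rw [key ζ (fun a ha => lt_of_le_of_lt (by positivity) (hζ1 a ha)) hζ2 hζ3, h7]
    have h8 : ∀ᶠ ζ in 𝓝 (t y), (H₁ ζ).re ≤ (H₁ (t y)).re := by
      filter_upwards [h2, h3] with ζ hζ1 hζ2
      have h9 : W (σ ζ) ≤ m := hmax hζ1
      linarith
    filter_upwards [re_locmax hH₁a h8, h2, h3, hev] with ζ hζ1 hζ2 hζ3 hζ4
    exact ⟨σ ζ, ⟨hζ2, by linarith⟩, hζ4.2.1⟩
  have hQn : Q.Nonempty := ⟨t y₀, y₀, ⟨hy₀, rfl⟩, rfl⟩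
  have hQu : Q = univ := IsClopen.eq_univ ⟨hQc.isClosed, hQo⟩ hQn
  have h1 : IsCompact (univ : Set ℂ) := hQu ▸ hQc
  exact noncompact_univ ℂ h1

end Vale.Agent.P277.H884.PH
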