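import Vale.Agent.P277.H884.PH4a
import Vale.Agent.P277.H884.PH3

/-!
# P277, T3, P2: proper projections, the local maximum principle
-/

open scoped Manifold ContDiff Topology
open Vale.Agent.P272.K Vale.Agent.P285.H281.FD Set Filter Metric MeasureTheory

noncomputable section

namespace Vale.Agent.P277.H884.PH

open H762 (Cv not_cv_nhds)

variable {X : CSp} {B Q V : Set X.pt} {n : ℕ} {F : X.pt → Cm n} {x₀ : X.pt}

/-- a finite projection is proper near a point -/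
theorem exists_proper (hBc : IsClosed B) {N : ℕ} {u : Fin N → X.pt → ℂ} (hu : IsCoord X V u)
    (hx₀ : x₀ ∈ V) (hFc : ContinuousOn F V) (hF0 : F x₀ = 0)
    (hZ : {y | y ∈ B ∧ y ∈ V ∧ F y = 0}.Countable) :
    ∃ (W : Set X.pt) (δ : ℝ), IsOpen W ∧ W ⊆ V ∧ x₀ ∈ W ∧ 0 < δ ∧ (∀ y ∈ W, F y ∈ ball (0 : Cm n) δ) ∧
      ∀ r' < δ, IsCompact {y | y ∈ B ∧ y ∈ W ∧ F y ∈ closedBall (0 : Cm n) r'} := by
  -- the distance
  set d : X.pt → ℝ := fun y => ‖fun a => u a y - u a x₀‖ with hd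
  have hdc : ContinuousOn d V := by
    refine ContinuousOn.norm ?_
    exact hu.cont.sub continuousOn_const
  have hd0 : d x₀ = 0 := by
    have : (fun a => u a x₀ - u a x₀) = (0 : Cm N) := funext fun a => sub_self _
    rw [hd, ← norm_zero (E := Cm N), ← this]
  obtain ⟨K, hK, hxK, hKV⟩ := exists_compact_subset hu.isOpen hx₀
  obtain ⟨ρ₁, hρ₁, hρK⟩ : ∃ ρ₁ > 0, ∀ y ∈ V, d y < ρ₁ → y ∈ K := by
    have h1 : {y : V | y.1 ∈ K} ∈ 𝓝 (⟨x₀, hx₀⟩ : V) := by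
      have h2 : K ∈ 𝓝 x₀ := mem_interior_iff_mem_nhds.1 hxK
      exact continuous_subtype_val.continuousAt h2
    rw [hu.emb.isInducing.nhds_eq_comap, mem_comap] at h1
    obtain ⟨t, ht, htK⟩ := h1
    obtain ⟨ρ₁, hρ₁, hρt⟩ := Metric.mem_nhds_iff.1 ht
    refine ⟨ρ₁, hρ₁, fun y hy hdy => ?_⟩
    have h3 : (⟨y, hy⟩ : V) ∈ (V.domRestrict fun y a => u a y) ⁻¹' t := by
      refine hρt ?_
      rw [mem_ball_iff_norm]
      exact hdy
    exact htK h3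
  obtain ⟨ρ, hρZ, hρ0, hρρ⟩ : ∃ ρ ∈ (d '' {y | y ∈ B ∧ y ∈ V ∧ F y = 0})ᶜ, 0 < ρ ∧ ρ < ρ₁ :=
    (hZ.image d).dense_compl ℝ |>.exists_between hρ₁
  -- the link
  set L : Set X.pt := {y | y ∈ K ∧ d y = ρ ∧ y ∈ B} with hL
  have hLc : IsCompact L := by
    have h1 : IsClosed (K ∩ d ⁻¹' {ρ}) :=
      (hdc.mono hKV).preimage_isClosed_of_isClosed hK.isClosed isClosed_singleton
    have h2 : L = K ∩ ((K ∩ d ⁻¹' {ρ}) ∩ B) := by
      ext y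
      constructor
      · rintro ⟨h1, h2, h3⟩
        exact ⟨h1, ⟨h1, h2⟩, h3⟩
      · rintro ⟨h1, ⟨-, h2⟩, h3⟩
        exact ⟨h1, h2, h3⟩
    rw [h2]
    exact hK.inter_right (h1.inter hBc)
  obtain ⟨δ, hδ, hδL⟩ := hLc.exists_forall_le' (f := fun y => ‖F y‖) (a := 0)
    ((hFc.mono fun y hy => hKV hy.1).norm) (by
      rintro y ⟨hyK, hyρ, hyS⟩
      rw [norm_pos_iff]
      intro h0
      exact hρZ ⟨y, ⟨hyS, hKV hyK, h0⟩, hyρ⟩)
  set W : Set X.pt := V ∩ (fun y => (d y, F y)) ⁻¹' (Iio ρ ×ˢ ball (0 : Cm n) δ) with hW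
  have hWo : IsOpen W := (hdc.prodMk hFc).isOpen_inter_preimage hu.isOpen (isOpen_Iio.prod isOpen_ball)
  have hxW : x₀ ∈ W := ⟨hx₀, by
    show d x₀ < ρ
    rw [hd0]; exact hρ0, by
    show F x₀ ∈ ball (0 : Cm n) δ
    rw [hF0]; exact mem_ball_self hδ⟩
  have hprop : ∀ r' < δ, IsCompact {y | y ∈ B ∧ y ∈ W ∧ F y ∈ closedBall (0 : Cm n) r'} := by
    intro r' hr'
    have h1 : IsClosed (K ∩ (fun y => (d y, F y)) ⁻¹' (Iic ρ ×ˢ closedBall (0 : Cm n) r')) :=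
      ((hdc.prodMk hFc).mono hKV).preimage_isClosed_of_isClosed hK.isClosed
        (isClosed_Iic.prod isClosed_closedBall)
    have h2 : {y | y ∈ B ∧ y ∈ W ∧ F y ∈ closedBall (0 : Cm n) r'} = K ∩
        ((K ∩ (fun y => (d y, F y)) ⁻¹' (Iic ρ ×ˢ closedBall (0 : Cm n) r')) ∩ B) := by
      ext y
      constructor
      · rintro ⟨hyS, ⟨hyV, hyd, -⟩, hyF⟩
        have hyd' : d y < ρ := hyd
        have hyK := hρK y hyV (hyd'.trans hρρ)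
        exact ⟨hyK, ⟨hyK, hyd'.le, hyF⟩, hyS⟩
      · rintro ⟨hyK, ⟨-, hyd, hyF⟩, hyS⟩
        have hyd' : d y ≤ ρ := hyd
        have hyF' : ‖F y‖ ≤ r' := by simpa using hyF
        refine ⟨hyS, ⟨hKV hyK, lt_of_le_of_ne hyd' fun h => ?_, ?_⟩, hyF⟩
        · have := hδL y ⟨hyK, h, hyS⟩
          linarith
        · show F y ∈ ball (0 : Cm n) δ
          rw [mem_ball_zero_iff]
          linarith
    rw [h2]
    exact hK.inter_right (h1.inter hBc)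
  exact ⟨W, δ, hWo, inter_subset_left, hxW, hδ, fun y hy => hy.2.2, hprop⟩

theorem cv_image {k : ℕ} (hF : ∀ i, ∀ y ∈ V, X.Hol (fun y => F y i) y)
    {Z : Set X.pt} (hZV : Z ⊆ V) (hZ : DimLe X k Z) : Cv k (F '' Z) := by
  obtain ⟨Ω, G, h1, h2, h3⟩ := hZ
  refine ⟨fun l => {p | p ∈ Ω l ∧ ∀ i, X.Hol (fun y => F y i) (G l p)}, fun l p => F (G l p),
    fun l => ?_, fun l p hp => ?_, ?_⟩
  · rw [isOpen_iff_eventually]
    intro p hp
    exact ((h1 l).eventually_mem hp.1).and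
      ((h2 l p hp.1).1.eventually (eventually_all.2 fun i => hol_eventually (hp.2 i)))
  · exact AnalyticAt.pi fun i => (h2 l p hp.1).analyticAt (hp.2 i)
  · rintro _ ⟨y, hy, rfl⟩
    obtain ⟨l, q, hq, rfl⟩ := mem_iUnion.1 (h3 hy)
    exact mem_iUnion.2 ⟨l, q, ⟨hq, fun i => hF i _ (hZV hy)⟩, rfl⟩

/-- the image of a piece of the manifold is not a null set -/
theorem exists_not_null {U : Set X.pt} (hF : ∀ i, ∀ y ∈ V, X.Hol (fun y => F y i) y) (hV : IsOpen V)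
    (hQ : IsClosed Q) (hmf : ∀ x ∈ B \ Q, IsMfX n X B x) {k : ℕ} (hk : k < n)
    (hbad : DimLe X k {y | y ∈ B ∧ y ∈ U ∧ ¬ GoodAt X B Q V F y}) (hU : IsOpen U) (hUV : U ⊆ V)
    {x : X.pt} (hx : x ∈ B \ Q) (hxU : x ∈ U) {NN : Set (Cm n)} (hNN : volume NN = 0)
    {O : Set X.pt} (hO : O ∈ 𝓝 x) : ∃ y ∈ O, y ∈ B \ Q ∧ y ∈ U ∧ F y ∉ NN := by
  obtain ⟨u', c, ρ, g, hP, rfl⟩ := exists_patch hQ (hV.inter hU) hx.2 ⟨hUV hxU, hxU⟩ (hmf x hx)
  have hc := mem_ball_self (x := c) hP.pos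
  -- a smaller patch
  have h1 : ∀ᶠ p in 𝓝 c, g p ∈ O ∧ p ∈ ball c ρ :=
    ((hP.hol c hc).1.eventually hO).and (isOpen_ball.eventually_mem hc)
  obtain ⟨ρ', hρ', hb⟩ := Metric.eventually_nhds_iff_ball.1 h1
  have hP' := hP.shrink hρ' fun p hp => (hb p hp).2
  obtain ⟨p, hp, hpg⟩ : ∃ p ∈ ball c ρ', GoodAt X B Q V F (g p) := by
    by_contra hno
    push Not at hno
    refine hP'.not_dimLe hk (hbad.mono ?_)
    rintro _ ⟨p, hp, rfl⟩
    exact ⟨(hP'.mem p hp).1, (hP'.mem p hp).2.2.2, hno p hp⟩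
  have h2 := hP'.nhd p hp _ (isOpen_ball.mem_nhds hp)
  have h3 := hpg.image_mem hF h2
  by_contra hcon
  push Not at hcon
  have h4 : NN ∈ 𝓝 (F (g p)) := by
    refine mem_of_superset h3 ?_
    rintro _ ⟨y, ⟨hyS, hy⟩, rfl⟩
    obtain ⟨q, hq, rfl⟩ := hy hyS
    exact hcon _ (hb q hq).1 ⟨hyS, (hP'.mem q hq).2.1⟩ (hP'.mem q hq).2.2.2
  exact (Measure.measure_pos_of_mem_nhds volume h4).ne' hNN

/-- locally bounded functions are bounded on compact sets -/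
theorem bounded_of_local {P : Type*} [TopologicalSpace P] {Z R : Set P} (hZ : IsCompact Z)
    {u : P → ℝ} (h : ∀ x ∈ Z, ∃ C, ∀ᶠ y in 𝓝 x, y ∈ R → |u y| ≤ C) :
    ∃ C, ∀ y ∈ Z, y ∈ R → |u y| ≤ C := by
  refine hZ.induction_on (p := fun s => ∃ C, ∀ y ∈ s, y ∈ R → |u y| ≤ C) ⟨0, by simp⟩
    (fun s t hst ⟨C, hC⟩ => ⟨C, fun y hy => hC y (hst hy)⟩) ?_ ?_
  · rintro s t ⟨C, hC⟩ ⟨D, hD⟩
    refine ⟨max C D, fun y hy hyR => ?_⟩
    rcases hy with hy | hy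
    · exact (hC y hy hyR).trans (le_max_left _ _)
    · exact (hD y hy hyR).trans (le_max_right _ _)
  · intro x hx
    obtain ⟨C, hC⟩ := h x hx
    exact ⟨_, mem_nhdsWithin_of_mem_nhds hC, C, fun y hy => hy⟩

end Vale.Agent.P277.H884.PH
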