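import Vale.Agent.P277.H884.Min4

/-!
# P277, TX-MIN: existence of admissible and of good coverings
-/

open scoped Manifold ContDiff Topology
open Vale.Agent.P272.K Vale.Agent.P285.H281.FD Set Filter Metric

noncomputable section

namespace Vale.Agent.P277.TX

open H619 (dfr)

/-- functions vanishing on `{f = 0}` whose differentials span outside this set -/
theorem exists_family {X : CSp} {U : Set X.pt} {N k : ℕ} {ζ : Fin N → X.pt → ℂ}
    (hζ : IsCoord X U ζ) {f : Fin k → X.pt → ℂ} (hf : ∀ i, ∀ y ∈ U, X.Hol (f i) y) (p : X.pt)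
    (hk : k ≠ 0) :
    ∃ (M : ℕ) (F : Fin M → X.pt → ℂ), M ≠ 0 ∧ (∀ m, ∀ y ∈ U, X.Hol (F m) y) ∧
      (∀ y, (∀ i, f i y = 0) ↔ ∀ m, F m y = 0) ∧
      ∀ (Y : Type) [TopologicalSpace Y] [ChartedSpace (Cm 4) Y] (O : Set Y) (v : Y → X.pt)
        (_ : IsOpenEmb X O v) (y : Y) (_ : y ∈ O) (e : Chart 4 Y) (_ : At e y) (_ : v y ∈ U)
        (_ : ∃ i, f i (v y) ≠ 0), Submodule.span ℂ (range fun m => dfr v e y (F m)) = ⊤ := by
  classical
  let J := Option (Fin N) × Fin k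
  let F' : J → X.pt → ℂ := fun j =>
    match j with
    | (none, i) => f i
    | (some a, i) => fun y => (ζ a y - ζ a p) * f i y
  let E := Fintype.equivFin J
  have : NeZero k := ⟨hk⟩
  refine ⟨Fintype.card J, fun m => F' (E.symm m), ?_, ?_, ?_, ?_⟩
  · have : Nonempty J := ⟨(none, 0)⟩
    exact Fintype.card_ne_zero
  · intro m y hy
    show X.Hol (F' (E.symm m)) y
    generalize E.symm m = j
    obtain ⟨_ | a, i⟩ := j
    · exact hf i y hy
    · exact hol_mul (hol_sub (hζ.hol a y hy) (hol_const _ _)) (hf i y hy)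
  · intro y
    constructor
    · intro h m
      show F' (E.symm m) y = 0
      generalize E.symm m = j
      obtain ⟨_ | a, i⟩ := j
      · exact h i
      · show (ζ a y - ζ a p) * f i y = 0
        rw [h i, mul_zero]
    · intro h i
      have h1 : F' (E.symm (E (none, i))) y = 0 := h (E (none, i))
      rw [E.symm_apply_apply] at h1
      exact h1
  · intro Y _ _ O v hv y hy e he hyU hi
    obtain ⟨i, hi⟩ := hi
    have hrange : (range fun m => dfr v e y (F' (E.symm m))) = range fun j => dfr v e y (F' j) := by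
      have h1 : (fun m => dfr v e y (F' (E.symm m))) = (fun j => dfr v e y (F' j)) ∘ E.symm := rfl
      rw [h1, E.symm.surjective.range_comp]
    rw [hrange, eq_top_iff]
    set W := Submodule.span ℂ (range fun j => dfr v e y (F' j)) with hW
    have h0 : dfr v e y (f i) ∈ W := Submodule.subset_span ⟨(none, i), rfl⟩
    have h1 : ∀ a, dfr v e y (ζ a) ∈ W := by
      intro a
      have h2 : dfr v e y (F' (some a, i)) ∈ W := Submodule.subset_span ⟨(some a, i), rfl⟩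
      have h3 : dfr v e y (F' (some a, i)) =
          (ζ a (v y) - ζ a p) • dfr v e y (f i) + f i (v y) • dfr v e y (ζ a) := by
        have h4 := H619.dfr_mul hv hy he (g := fun x => ζ a x - ζ a p) (h := f i)
          (hol_sub (hζ.hol a _ hyU) (hol_const _ _)) (hf i _ hyU)
        rw [H619.dfr_sub_const] at h4
        exact h4
      have h4 : f i (v y) • dfr v e y (ζ a) ∈ W := by
        rw [h3] at h2
        have h5 := W.sub_mem h2 (W.smul_mem (ζ a (v y) - ζ a p) h0)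
        rwa [add_sub_cancel_left] at h5
      have h5 := W.smul_mem (f i (v y))⁻¹ h4
      rwa [smul_smul, inv_mul_cancel₀ hi, one_smul] at h5
    rintro ℓ -
    obtain ⟨w, rfl⟩ := H29.exists_dfr_eq hv hy he hζ hyU ℓ
    exact W.sum_mem fun a _ => W.smul_mem _ (h1 a)

theorem exists_adm {Y : Type} [TopologicalSpace Y] [T2Space Y] [CompactSpace Y]
    [ChartedSpace (Cm 4) Y] [IsManifold 𝓘(ℂ, Cm 4) ω Y] (hcov : StCov) (hres : StCovRes) {X : CSp}
    (hX : IsNormal 4 X) {O : Set Y} {v : Y → X.pt} (hv : IsOpenEmb X O v)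
    (hdim : DimLe X 2 (v '' O)ᶜ) {S U₀ : Set X.pt} (hSan : IsAn X univ S) (hU₀ : IsOpen U₀)
    (hSO : S ∩ U₀ ⊆ (v '' O)ᶜ) (hS1 : ¬ DimLe X 1 (S ∩ U₀)) :
    ∃ (V : Set X.pt) (G : X.pt → Cm 4) (c : Cm 4) (r : ℝ) (d : ℕ), Adm X U₀ S V G c r d := by
  classical
  obtain ⟨U, N, k, ζ, f, g, b, hUU, hζ, hf, hfS, hg, hinj⟩ :=
    exists_patch hU₀ hSan (hdim.mono hSO) hS1
  have hne : Nonempty X.pt := hdim.nonempty
  have hdense : Dense (v '' O) := by
    have h1 := dense_compl_of_dimLe (d := 2) (n := 4) (by norm_num) hX.dense hdim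
    rwa [compl_compl] at h1
  obtain ⟨hgb, hgU, hgS⟩ := hg.self_of_nhds
  set p := g b with hp
  have hU4 : DimLe X (3 + 1) U := ((dimLe_four hv).union (hdim.le (by norm_num : 2 ≤ 4))).mono
    fun x _ => em (x ∈ v '' O)
  obtain ⟨I, hI, D, hD, hDd⟩ := exists_denseFamily hζ.isOpen hdense
  obtain ⟨i₀, hi₀⟩ := hDd U hζ.isOpen Subset.rfl ⟨p, hgU⟩
  set e : I → Chart 4 Y := fun i => chartAt (Cm 4) (D i) with he
  have heD : ∀ i, At (e i) (D i) := fun i => ⟨chart_mem_atlas _ _, mem_chart_source _ _⟩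
  have hfD : ∀ i, ∃ j, f j (v (D i)) ≠ 0 := by
    intro i
    by_contra hcon
    push Not at hcon
    exact hSO ⟨(hfS _ (hD i).2).2 hcon, hUU (hD i).2⟩ ⟨D i, (hD i).1, rfl⟩
  have hk : k ≠ 0 := by
    rintro rfl
    obtain ⟨j, -⟩ := hfD i₀
    exact j.elim0
  obtain ⟨M, F, hM, hF, hFf, hFs⟩ := exists_family hζ hf p hk
  -- the coordinates, centered at `p`
  set Z : Fin N → X.pt → ℂ := fun a y => ζ a y - ζ a p with hZ
  have hZh : ∀ a, ∀ y ∈ U, X.Hol (Z a) y := fun a y hy => hol_sub (hζ.hol a y hy) (hol_const _ _)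
  have hZs : ∀ i, Submodule.span ℂ (range fun a => dfr v (e i) (D i) (Z a)) = ⊤ := by
    intro i
    rw [eq_top_iff]
    rintro ℓ -
    obtain ⟨w, rfl⟩ := H29.exists_dfr_eq hv (hD i).1 (heD i) hζ (hD i).2 ℓ
    refine Submodule.sum_mem _ fun a _ => Submodule.smul_mem _ _ ?_
    rw [← H619.dfr_sub_const (ζ a p)]
    exact Submodule.subset_span ⟨a, rfl⟩
  have hFs' : ∀ i, Submodule.span ℂ (range fun m => dfr v (e i) (D i) (F m)) = ⊤ := fun i =>
    hFs Y O v hv (D i) (hD i).1 (e i) (heD i) (hD i).2 (hfD i)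
  have hN : N ≠ 0 := by
    rintro rfl
    have h1 := span_ne_top_of_lt (E := Cm 4 →L[ℂ] ℂ) (k := 0)
      (fun a => dfr v (e i₀) (D i₀) (Z a)) (by rw [finrank_dual]; norm_num)
    exact h1 (hZs i₀)
  have hZp : ∀ x ∈ U, x ≠ p → ∃ a, Z a x ≠ 0 := by
    intro x hx hxp
    by_contra hcon
    push Not at hcon
    exact hxp (hζ.injOn hx hgU (funext fun a => sub_eq_zero.1 (hcon a)))
  -- the derivative of the parametrisation
  set A : Fin N → (Cm 2 →L[ℂ] ℂ) := fun a => (ContinuousLinearMap.proj (R := ℂ)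
    (φ := fun _ : Fin N => ℂ) a).comp (fderiv ℂ (fun q a => ζ a (g q)) b) with hA
  have hAs : Submodule.span ℂ (range A) = ⊤ := span_components hinj
  have hlin : ∀ i, ∀ (w : Fin N → ℂ), dfr v (e i) (D i) (fun x => ∑ a, w a * Z a x) =
      Fintype.linearCombination ℂ (fun a => dfr v (e i) (D i) (Z a)) w := by
    intro i w
    rw [H619.dfr_sum hv (hD i).1 (heD i) w (fun a => hZh a _ (hD i).2),
      Fintype.linearCombination_apply]
  have hlinF : ∀ i, ∀ (w : Fin M → ℂ), dfr v (e i) (D i) (fun x => ∑ a, w a * F a x) =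
      Fintype.linearCombination ℂ (fun a => dfr v (e i) (D i) (F a)) w := by
    intro i w
    rw [H619.dfr_sum hv (hD i).1 (heD i) w (fun a => hF a _ (hD i).2),
      Fintype.linearCombination_apply]
  have hSU2 : DimLe X (1 + 1) (S ∩ U) := (hdim.mono hSO).mono (inter_subset_inter_right _ hUU)
  -- the first coordinate
  obtain ⟨w₁, hw11, hw12, hw13⟩ := choose_step (X := X) hζ.isOpen hN hZh (T₁ := U) (T₂ := S ∩ U)
    Subset.rfl hU4 inter_subset_right hSU2 (p := p) hZp (fun x hx => hZp x hx.2) (ι := Option I)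
    (fun o => match o with
      | none => (⊥ : Submodule ℂ (Cm 2 →L[ℂ] ℂ)).comap (Fintype.linearCombination ℂ A)
      | some i => (⊥ : Submodule ℂ (Cm 4 →L[ℂ] ℂ)).comap
          (Fintype.linearCombination ℂ fun a => dfr v (e i) (D i) (Z a)))
    (by
      have hbot : ∀ n : ℕ, n ≠ 0 → (⊥ : Submodule ℂ (Cm n →L[ℂ] ℂ)) ≠ ⊤ := by
        intro n hn h
        have h1 : Module.finrank ℂ (⊥ : Submodule ℂ (Cm n →L[ℂ] ℂ)) = n := by
          rw [h, finrank_top, finrank_dual]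
        rw [finrank_bot] at h1
        exact hn h1.symm
      rintro (_ | i)
      · exact H619.comap_ne_top hAs (hbot 2 (by norm_num))
      · exact H619.comap_ne_top (hZs i) (hbot 4 (by norm_num)))
  set u₁ : X.pt → ℂ := fun x => ∑ a, w₁ a * Z a x with hu₁
  have hA1 : Fintype.linearCombination ℂ A w₁ ≠ 0 := hw13 none
  have hD1 : ∀ i, dfr v (e i) (D i) u₁ ≠ 0 := fun i => by
    rw [hlin i w₁]
    exact hw13 (some i)
  set A₁ := Fintype.linearCombination ℂ A w₁ with hA₁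
  -- the second coordinate
  obtain ⟨w₂, hw21, hw22, hw23⟩ := choose_step (X := X) hζ.isOpen hN hZh
    (T₁ := {x | x ∈ U ∧ u₁ x = 0}) (T₂ := {x | x ∈ S ∩ U ∧ u₁ x = 0}) (d₁ := 2) (d₂ := 0)
    (fun x hx => hx.1) hw11 (fun x hx => hx.1.2) hw12 (p := p) (fun x hx => hZp x hx.1)
    (fun x hx => hZp x hx.1.2) (ι := Option I)
    (fun o => match o with
      | none => (Submodule.span ℂ (range ![A₁])).comap (Fintype.linearCombination ℂ A)
      | some i => (Submodule.span ℂ (range ![dfr v (e i) (D i) u₁])).comap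
          (Fintype.linearCombination ℂ fun a => dfr v (e i) (D i) (Z a)))
    (by
      rintro (_ | i)
      · exact H619.comap_ne_top hAs (span_ne_top_of_lt _ (by rw [finrank_dual]; norm_num))
      · exact H619.comap_ne_top (hZs i) (span_ne_top_of_lt _ (by rw [finrank_dual]; norm_num)))
  set u₂ : X.pt → ℂ := fun x => ∑ a, w₂ a * Z a x with hu₂
  set A₂ := Fintype.linearCombination ℂ A w₂ with hA₂
  have hA2 : A₂ ∉ Submodule.span ℂ (range ![A₁]) := hw23 none
  have hD2 : ∀ i, dfr v (e i) (D i) u₂ ∉ Submodule.span ℂ (range ![dfr v (e i) (D i) u₁]) :=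
    fun i => by
      rw [hlin i w₂]
      exact hw23 (some i)
  -- the third coordinate
  have hT2 : DimLe X (1 + 1) {x | (x ∈ {x | x ∈ U ∧ u₁ x = 0} ∧ u₂ x = 0) ∧ x ∉ S} :=
    hw21.mono fun x hx => hx.1
  have hFne : ∀ x ∈ {x | (x ∈ {x | x ∈ U ∧ u₁ x = 0} ∧ u₂ x = 0) ∧ x ∉ S}, x ≠ p →
      ∃ m, F m x ≠ 0 := by
    rintro x ⟨⟨⟨hxU, -⟩, -⟩, hxS⟩ -
    by_contra hcon
    push Not at hcon
    exact hxS ((hfS x hxU).2 ((hFf x).2 hcon))
  obtain ⟨w₃, hw31, -, hw33⟩ := choose_step (X := X) hζ.isOpen hM hF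
    (fun x hx => hx.1.1.1) hT2 (fun x hx => hx.1.1.1) hT2 (p := p) hFne hFne (ι := I)
    (fun i => (Submodule.span ℂ (range ![dfr v (e i) (D i) u₂, dfr v (e i) (D i) u₁])).comap
          (Fintype.linearCombination ℂ fun a => dfr v (e i) (D i) (F a)))
    (fun i => H619.comap_ne_top (hFs' i) (span_ne_top_of_lt _ (by rw [finrank_dual]; norm_num)))
  set x₃ : X.pt → ℂ := fun x => ∑ a, w₃ a * F a x with hx₃
  have hD3 : ∀ i, dfr v (e i) (D i) x₃ ∉
      Submodule.span ℂ (range ![dfr v (e i) (D i) u₂, dfr v (e i) (D i) u₁]) := fun i => by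
    rw [hlinF i w₃]
    exact hw33 i
  obtain ⟨w₄, hw41, -, hw43⟩ := choose_step (X := X) hζ.isOpen hM hF
    (d₁ := 0) (d₂ := 0) (fun x hx => hx.1.1.1.1) hw31 (fun x hx => hx.1.1.1.1) hw31 (p := p)
    (fun x hx => hFne x hx.1) (fun x hx => hFne x hx.1) (ι := I)
    (fun i => (Submodule.span ℂ (range ![dfr v (e i) (D i) x₃, dfr v (e i) (D i) u₂,
      dfr v (e i) (D i) u₁])).comap
          (Fintype.linearCombination ℂ fun a => dfr v (e i) (D i) (F a)))
    (fun i => H619.comap_ne_top (hFs' i) (span_ne_top_of_lt _ (by rw [finrank_dual]; norm_num)))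
  set x₄ : X.pt → ℂ := fun x => ∑ a, w₄ a * F a x with hx₄
  have hD4 : ∀ i, dfr v (e i) (D i) x₄ ∉ Submodule.span ℂ (range ![dfr v (e i) (D i) x₃,
      dfr v (e i) (D i) u₂, dfr v (e i) (D i) u₁]) := fun i => by
    rw [hlinF i w₄]
    exact hw43 i
  -- the map
  set G : X.pt → Cm 4 := fun x => ![x₄ x, x₃ x, u₂ x, u₁ x] with hG
  have hlinh : ∀ (w : Fin N → ℂ), ∀ y ∈ U, X.Hol (fun x => ∑ a, w a * Z a x) y := fun w y hy =>
    hol_sum _ fun a _ => hol_mul (hol_const _ _) (hZh a y hy)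
  have hlinFh : ∀ (w : Fin M → ℂ), ∀ y ∈ U, X.Hol (fun x => ∑ a, w a * F a x) y := fun w y hy =>
    hol_sum _ fun a _ => hol_mul (hol_const _ _) (hF a y hy)
  have hGh : ∀ x ∈ U, ∀ i, X.Hol (fun y => G y i) x := by
    intro x hx i
    fin_cases i
    · exact hlinFh w₄ x hx
    · exact hlinFh w₃ x hx
    · exact hlinh w₂ x hx
    · exact hlinh w₁ x hx
  have hFS : ∀ x ∈ U, x ∈ S → ∀ m, F m x = 0 := fun x hx hxS => (hFf x).1 ((hfS x hx).1 hxS)
  have hGS : ∀ x ∈ U, x ∈ S → G x 0 = 0 ∧ G x 1 = 0 := by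
    intro x hx hxS
    have h1 := hFS x hx hxS
    constructor
    · show ∑ a, w₄ a * F a x = 0
      exact Finset.sum_eq_zero fun a _ => by rw [h1 a, mul_zero]
    · show ∑ a, w₃ a * F a x = 0
      exact Finset.sum_eq_zero fun a _ => by rw [h1 a, mul_zero]
  have hZ0 : ∀ w : Fin N → ℂ, ∑ a, w a * Z a p = 0 := fun w =>
    Finset.sum_eq_zero fun a _ => by simp [hZ]
  have hGp : G p = 0 := by
    ext i
    fin_cases i
    · exact (hGS p hgU hgS).1
    · exact (hGS p hgU hgS).2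
    · exact hZ0 w₂
    · exact hZ0 w₁
  have hnd : ∀ W : Set X.pt, IsOpen W → W ⊆ U → W.Nonempty → ∃ y ∈ O, v y ∈ W ∧
      ∀ e : Chart 4 Y, At e y → Jac v (fun i x => G x i) e (e y) ≠ 0 := by
    intro W hW hWU hWn
    obtain ⟨i, hi⟩ := hDd W hW hWU hWn
    refine ⟨D i, (hD i).1, hi, fun e' he' => ?_⟩
    rw [← Jac_ne_zero_iff hv (hD i).1 (heD i) he' fun j => hGh _ (hD i).2 j]
    refine H29.jac_ne_zero v _ (e i) (D i) ?_
    have e2 : (fun j => dfr v (e i) (D i) ((fun j x => G x j : Fin 4 → X.pt → ℂ) j)) =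
        Fin.cons (dfr v (e i) (D i) x₄) (Fin.cons (dfr v (e i) (D i) x₃)
          (Fin.cons (dfr v (e i) (D i) u₂) ![dfr v (e i) (D i) u₁])) := by
      ext1 j
      fin_cases j <;> rfl
    rw [e2, linearIndependent_finCons]
    refine ⟨?_, hD4 i⟩
    rw [linearIndependent_finCons]
    refine ⟨?_, hD3 i⟩
    rw [linearIndependent_finCons]
    refine ⟨?_, hD2 i⟩
    rw [linearIndependent_unique_iff]
    exact hD1 i
  have hcount : {x | x ∈ U ∧ G x = G p}.Countable := by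
    rw [hGp]
    refine (hw22.countable.union hw41.countable).mono ?_
    rintro x ⟨hxU, hx⟩
    have h0 : x₄ x = 0 := congrFun hx 0
    have h1 : x₃ x = 0 := congrFun hx 1
    have h2 : u₂ x = 0 := congrFun hx 2
    have h3 : u₁ x = 0 := congrFun hx 3
    by_cases hxS : x ∈ S
    · exact Or.inl ⟨⟨⟨hxS, hxU⟩, h3⟩, h2⟩
    · exact Or.inr ⟨⟨⟨⟨⟨hxU, h3⟩, h2⟩, hxS⟩, h1⟩, h0⟩
  obtain ⟨V, r, d, lam, θ, hc, hpV, hVU, -⟩ := hcov Y X hX O v hv hdim G p U hζ.isOpen hgU hGh hnd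
    hcount univ univ_mem
  rw [hGp] at hc
  -- the surface covers a neighbourhood in the plane
  let H : Cm 2 → Cm 2 := fun q => ![u₂ (g q), u₁ (g q)]
  have hζg : AnalyticAt ℂ (fun q a => ζ a (g q)) b :=
    AnalyticAt.pi fun a => hgb.analyticAt (hζ.hol a _ hgU)
  have hZd : ∀ w : Fin N → ℂ, HasFDerivAt (fun q => ∑ a, w a * Z a (g q))
      (Fintype.linearCombination ℂ A w) b := by
    intro w
    rw [Fintype.linearCombination_apply]
    refine HasFDerivAt.fun_sum fun a _ => ?_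
    have h1 : HasFDerivAt (fun q => ζ a (g q)) (A a) b :=
      (ContinuousLinearMap.proj (R := ℂ) (φ := fun _ : Fin N => ℂ) a).hasFDerivAt.comp b
        hζg.differentiableAt.hasFDerivAt
    exact (h1.sub_const (ζ a p)).const_mul (w a)
  have hHan : AnalyticAt ℂ H b := by
    refine AnalyticAt.pi fun i => ?_
    fin_cases i
    · exact hgb.analyticAt (hlinh w₂ _ hgU)
    · exact hgb.analyticAt (hlinh w₁ _ hgU)
  have hHd : HasFDerivAt H (ContinuousLinearMap.pi ![A₂, A₁]) b := by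
    refine hasFDerivAt_pi'.2 fun i => ?_
    fin_cases i
    · exact hZd w₂
    · exact hZd w₁
  have hHinj : Function.Injective (fderiv ℂ H b) := by
    rw [hHd.fderiv, injective_iff_map_eq_zero]
    intro z hz
    refine injective_pair (A := A₂) (B := A₁) ?_ (congrFun hz 0) (congrFun hz 1)
    have e3 : (![A₂, A₁] : Fin 2 → (Cm 2 →L[ℂ] ℂ)) = Fin.cons A₂ ![A₁] := rfl
    rw [e3, linearIndependent_finCons]
    refine ⟨?_, hA2⟩
    rw [linearIndependent_unique_iff]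
    exact hA1
  obtain ⟨E, hE, hbE, -, -⟩ := H73.exists_localInv hHan hHinj
  have hQ : ∀ᶠ q in 𝓝 b, g q ∈ V ∧ g q ∈ S := by
    filter_upwards [hg, hgb.1.eventually_mem (hc.isOpen.mem_nhds hpV)] with q h1 h2
    exact ⟨h2, h1.2.2⟩
  have hHQ : H '' {q | g q ∈ V ∧ g q ∈ S} ∈ 𝓝 (0 : Cm 2) := by
    have h1 : H b = 0 := by
      ext i
      fin_cases i
      · exact hZ0 w₂
      · exact hZ0 w₁
    rw [← h1, ← hE, ← E.map_nhds_eq hbE]
    exact image_mem_map hQ
  obtain ⟨ρ, hρ, hρsub⟩ := Metric.mem_nhds_iff.1 hHQ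
  have hr := hc.pos
  have hres' := hres X V G 0 r d lam θ hc 0 (min r ρ) (lt_min hr hρ)
    (ball_subset_ball (min_le_left _ _))
  refine ⟨_, G, 0, min r ρ, d, fun x hx => hUU (hVU hx.1).2, ⟨lam, θ, hres'⟩,
    ⟨N, ζ, hζ.mono hres'.isOpen fun x hx => (hVU hx.1).2⟩, rfl, rfl,
    fun x hx hxS => hGS x (hVU hx.1).2 hxS, fun z hz h0 h1 => ?_⟩
  have h2 : ![z 2, z 3] ∈ ball (0 : Cm 2) ρ := by
    rw [mem_ball, dist_pi_lt_iff (lt_min hr hρ)] at hz
    rw [mem_ball, dist_pi_lt_iff hρ]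
    intro i
    fin_cases i
    · exact (hz 2).trans_le (min_le_right _ _)
    · exact (hz 3).trans_le (min_le_right _ _)
  obtain ⟨q, ⟨hqV, hqS⟩, hq⟩ := hρsub h2
  have h3 := hGS (g q) (hVU hqV).2 hqS
  have h4 : G (g q) = z := by
    ext i
    fin_cases i
    · exact h3.1.trans h0.symm
    · exact h3.2.trans h1.symm
    · exact congrFun hq 0
    · exact congrFun hq 1
  exact ⟨g q, ⟨hqV, by rw [h4]; exact hz⟩, hqS, h4⟩

/-- (TX-MIN), local version: good coverings inside a given open set `U₀`. -/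
theorem stMinLoc (hP : StCovP) (hcov : StCov) (hloc : StCovLoc) (hres : StCovRes) (hR : StRank)
    (Y : Type) [TopologicalSpace Y] [T2Space Y] [CompactSpace Y] [ChartedSpace (Cm 4) Y]
    [IsManifold 𝓘(ℂ, Cm 4) ω Y] (X : CSp) (hX : IsNormal 4 X) (O : Set Y) (v : Y → X.pt)
    (hv : IsOpenEmb X O v) (hdim : DimLe X 2 (v '' O)ᶜ) (S : Set X.pt) (hSan : IsAn X univ S)
    (U₀ : Set X.pt) (hU₀ : IsOpen U₀) (hSO : S ∩ U₀ ⊆ (v '' O)ᶜ) (hS1 : ¬ DimLe X 1 (S ∩ U₀)) :
    ∃ (V : Set X.pt) (G : X.pt → Cm 4) (c : Cm 4) (r : ℝ) (d : ℕ) (lam : X.pt → ℂ)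
      (θ : Cm 4 → ℂ) (n : ℕ) (ζ : Fin n → X.pt → ℂ),
      V ⊆ U₀ ∧ IsGood X S V G c r d lam θ ∧ IsCoord X V ζ := by
  classical
  have hS : IsClosed S := isClosed_of_isAn hSan
  have hex : ∃ d : ℕ, ∃ (V : Set X.pt) (G : X.pt → Cm 4) (c : Cm 4) (r : ℝ),
      Adm X U₀ S V G c r d := by
    obtain ⟨V, G, c, r, d, h⟩ := exists_adm hcov hres hX hv hdim hSan hU₀ hSO hS1
    exact ⟨d, V, G, c, r, h⟩
  obtain ⟨V, G, c, r, h⟩ := Nat.find_spec hex
  obtain ⟨lam, θ, hgood⟩ := h.good hP hR hloc hres hX hv hdim hS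
    (fun V' G' c' r' d' h' => Nat.find_min' hex ⟨V', G', c', r', h'⟩)
  obtain ⟨n, ζ, hζ⟩ := h.coord
  exact ⟨V, G, c, r, _, lam, θ, n, ζ, h.sub, hgood, hζ⟩

/-- (TX-MIN) -/
theorem stMin (hP : StCovP) (hcov : StCov) (hloc : StCovLoc) (hres : StCovRes) (hR : StRank) :
    StMin := by
  intro Y _ _ _ _ _ X hX O v hv hdim S hSan hSO hS1
  obtain ⟨V, G, c, r, d, lam, θ, n, ζ, -, h⟩ := stMinLoc hP hcov hloc hres hR Y X hX O v hv hdim S
    hSan univ isOpen_univ (by rw [inter_univ]; exact hSO) (by rw [inter_univ]; exact hS1)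
  exact ⟨V, G, c, r, d, lam, θ, n, ζ, h⟩

end Vale.Agent.P277.TX
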