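import Vale.Agent.P277.Stmts4
import Vale.Agent.P298.H983.AJ4

/-!
# P277, TX-PUI: lifting maps through branched coverings
-/

open scoped Manifold ContDiff Topology
open Vale.Agent.P272.K Vale.Agent.P285.H281.FD Set Filter

noncomputable section

namespace Vale.Agent.P277.TX

variable {X : CSp} {V : Set X.pt} {G : X.pt → Cm 4} {c : Cm 4} {r : ℝ} {d : ℕ}
  {lam : X.pt → ℂ} {θ : Cm 4 → ℂ}

theorem IsCov.continuousAt (h : IsCov X V G c r d lam θ) {x : X.pt} (hx : x ∈ V) :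
    ContinuousAt G x :=
  continuousAt_pi.2 fun i => hol_continuousAt (h.holo x hx i)

/-- limits of points over converging values -/
theorem IsCov.exists_lim (h : IsCov X V G c r d lam θ) {T : Type*} [TopologicalSpace T]
    {b : T → Cm 4} {w : T} (hb : ContinuousAt b w) (hbw : b w ∈ Metric.ball c r)
    {ψ : T → X.pt} {U : Ultrafilter T} (hU : ↑U ≤ 𝓝 w)
    (hψ : ∀ᶠ v in (U : Filter T), ψ v ∈ V ∧ G (ψ v) = b v) :
    ∃ y, y ∈ V ∧ G y = b w ∧ Tendsto ψ U (𝓝 y) := by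
  obtain ⟨r', hr', hr'r⟩ := exists_between (Metric.mem_ball.1 hbw)
  have h1 : ∀ᶠ v in 𝓝 w, b v ∈ Metric.closedBall c r' :=
    (hb.eventually (Metric.isOpen_ball.mem_nhds (Metric.mem_ball.2 hr'))).mono
      fun v hv => Metric.ball_subset_closedBall hv
  have h2 : ∀ᶠ v in (U : Filter T), ψ v ∈ {x | x ∈ V ∧ G x ∈ Metric.closedBall c r'} := by
    filter_upwards [hψ, hU h1] with v hv hv'
    exact ⟨hv.1, by rw [hv.2]; exact hv'⟩
  obtain ⟨y, hy, hyU⟩ := (h.proper r' hr'r).ultrafilter_le_nhds (U.map ψ) (by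
    rw [le_principal_iff]
    exact h2)
  have h3 : Tendsto ψ U (𝓝 y) := hyU
  refine ⟨y, hy.1, ?_, h3⟩
  have h4 : Tendsto (fun v => G (ψ v)) U (𝓝 (G y)) := (h.continuousAt hy.1).tendsto.comp h3
  have h5 : Tendsto b U (𝓝 (b w)) := hb.mono_left hU
  exact tendsto_nhds_unique h4 (h5.congr' (hψ.mono fun v hv => hv.2.symm))

/-- Lifting through the unbranched part, along a root of the polynomial of `lam`. -/
theorem IsCov.lift (h : IsCov X V G c r d lam θ) {P : Cm 4 → Polynomial ℂ}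
    (hP : ∀ z ∈ Metric.ball c r, θ z ≠ 0 → ∀ x : Fin d → X.pt, Enum V G z x →
      P z = ∏ k, (Polynomial.X - Polynomial.C (lam (x k)))) {n : ℕ} {T : Set (Cm n)}
    (hT : IsOpen T) {b : Cm n → Cm 4} (hb : ∀ w ∈ T, AnalyticAt ℂ b w)
    (hbr : ∀ w ∈ T, b w ∈ Metric.ball c r) (hbθ : ∀ w ∈ T, θ (b w) ≠ 0) {η : Cm n → ℂ}
    (hη : ContinuousOn η T) (hroot : ∀ w ∈ T, (P (b w)).eval (η w) = 0) :
    ∃ ψ : Cm n → X.pt, ∀ w ∈ T, HolAt X ψ w ∧ ψ w ∈ V ∧ G (ψ w) = b w ∧ lam (ψ w) = η w := by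
  classical
  have hex : ∀ w ∈ T, ∃ y, y ∈ V ∧ G y = b w ∧ lam y = η w := by
    intro w hw
    obtain ⟨x, hx⟩ := h.enum (b w) (hbr w hw) (hbθ w hw)
    have h1 := hroot w hw
    rw [hP _ (hbr w hw) (hbθ w hw) x hx, Polynomial.eval_prod, Finset.prod_eq_zero_iff] at h1
    obtain ⟨k, -, hk⟩ := h1
    rw [Polynomial.eval_sub, Polynomial.eval_X, Polynomial.eval_C, sub_eq_zero] at hk
    have h2 := (hx.2 (x k)).1 ⟨k, rfl⟩
    exact ⟨x k, h2.1, h2.2, hk.symm⟩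
  rcases T.eq_empty_or_nonempty with hT0 | ⟨w₀, hw₀⟩
  · obtain ⟨x, hx⟩ := (h.finite c (Metric.mem_ball_self h.pos)).2
    exact ⟨fun _ => x, fun w hw => by simp [hT0] at hw⟩
  have : Nonempty X.pt := ⟨(hex w₀ hw₀).choose⟩
  choose! ψ hψ using hex
  have hcont : ∀ w ∈ T, ContinuousAt ψ w := by
    intro w hw
    rw [ContinuousAt, tendsto_iff_ultrafilter]
    intro U hU
    have hev : ∀ᶠ v in (U : Filter (Cm n)), v ∈ T := hU (hT.mem_nhds hw)
    obtain ⟨y, hyV, hyG, hy⟩ := h.exists_lim (hb w hw).continuousAt (hbr w hw) hU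
      (hev.mono fun v hv => ⟨(hψ v hv).1, (hψ v hv).2.1⟩)
    have h1 : Tendsto (fun v => lam (ψ v)) U (𝓝 (lam y)) :=
      (hol_continuousAt (h.lamHol y hyV)).tendsto.comp hy
    have h2 : Tendsto η U (𝓝 (η w)) := (hη.continuousAt (hT.mem_nhds hw)).mono_left hU
    have h3 : lam y = η w :=
      tendsto_nhds_unique h1 (h2.congr' (hev.mono fun v hv => (hψ v hv).2.2.symm))
    have h4 : ψ w = y := h.sep (b w) (hbr w hw) (hbθ w hw) ⟨(hψ w hw).1, (hψ w hw).2.1⟩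
      ⟨hyV, hyG⟩ (by rw [(hψ w hw).2.2, h3])
    rw [h4]
    exact hy
  refine ⟨ψ, fun w hw => ⟨⟨hcont w hw, fun g hg => ?_⟩, hψ w hw⟩⟩
  obtain ⟨N, hN, hψN, hNV, -, -, hNh⟩ := h.etale (ψ w) (hψ w hw).1 (by
    rw [(hψ w hw).2.1]; exact hbθ w hw)
  obtain ⟨Φ, hΦ, hgΦ⟩ := (hNh (ψ w) hψN g).1 hg
  rw [(hψ w hw).2.1] at hΦ
  refine (hΦ.comp (hb w hw)).congr ?_
  filter_upwards [(hcont w hw).eventually hgΦ, hT.mem_nhds hw] with v hv hvT
  simp only [Function.comp] at hv ⊢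
  rw [hv, (hψ v hvT).2.1]

theorem isPreconnected_ball_ne {n : ℕ} {w₁ : Cm (n + 1)} (h0 : w₁ 0 = 0) {δ : ℝ} (hδ : 0 < δ) :
    IsPreconnected {w : Cm (n + 1) | w ∈ Metric.ball w₁ δ ∧ w 0 ≠ 0} := by
  have h1 : IsPreconnected {a : ℂ | a ∈ Vale.Agent.P298.H983.powBall 1 δ ∧ a ≠ 0} :=
    Vale.Agent.P298.H983.isPreconnected_punctured one_ne_zero hδ
  have h2 : IsPreconnected (Metric.ball (Fin.tail w₁) δ) :=
    (convex_ball (Fin.tail w₁) δ).isPreconnected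
  have h3 : Continuous fun p : ℂ × Cm n => (Fin.cons p.1 p.2 : Cm (n + 1)) := by
    refine continuous_pi fun i => ?_
    refine Fin.cases ?_ (fun j => ?_) i
    · simpa using continuous_fst
    · simp only [Fin.cons_succ]; fun_prop
  have h4 := (h1.prod h2).image _ h3.continuousOn
  convert h4 using 1
  ext w
  constructor
  · rintro ⟨hw, hw0⟩
    refine ⟨(w 0, Fin.tail w), ⟨⟨?_, hw0⟩, ?_⟩, Fin.cons_self_tail w⟩
    · rw [Metric.mem_ball, dist_pi_lt_iff hδ] at hw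
      have := hw 0
      rw [h0, dist_zero_right] at this
      change ‖w 0‖ ^ 1 < δ
      rwa [pow_one]
    · rw [Metric.mem_ball, dist_pi_lt_iff hδ] at hw ⊢
      exact fun i => hw i.succ
  · rintro ⟨⟨a, x⟩, ⟨⟨ha, ha0⟩, hx⟩, rfl⟩
    refine ⟨?_, by simpa using ha0⟩
    rw [Metric.mem_ball, dist_pi_lt_iff hδ] at hx ⊢
    refine Fin.cases ?_ (fun j => ?_)
    · have ha' : ‖a‖ ^ 1 < δ := ha
      simpa [h0] using ha'
    · exact hx j

theorem mem_closure_ne {n : ℕ} {T : Set (Cm (n + 1))} (hT : IsOpen T) {w : Cm (n + 1)}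
    (hw : w ∈ T) : w ∈ closure {v | v ∈ T ∧ v 0 ≠ 0} := by
  rw [mem_closure_iff_nhds]
  intro N hN
  have h1 : Continuous fun t : ℂ => Function.update w 0 t := by fun_prop
  have h2 : ∀ᶠ t in 𝓝 (w 0), Function.update w 0 t ∈ N ∩ T := by
    refine h1.continuousAt.eventually ?_
    change N ∩ T ∈ 𝓝 (Function.update w 0 (w 0))
    rw [Function.update_eq_self]
    exact inter_mem hN (hT.mem_nhds hw)
  have h3 : Dense ({0}ᶜ : Set ℂ) := dense_compl_singleton 0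
  obtain ⟨t, ht, ht0⟩ := mem_closure_iff_nhds.1 (h3 (w 0)) _ h2
  exact ⟨Function.update w 0 t, ht.1, ht.2, by simpa using ht0⟩

/-- Extension of a lift over `{w 0 = 0}`. -/
theorem IsCov.extend (h : IsCov X V G c r d lam θ) {n : ℕ} {T : Set (Cm (n + 1))}
    (hT : IsOpen T) {b : Cm (n + 1) → Cm 4} (hb : ∀ w ∈ T, ContinuousAt b w)
    (hbr : ∀ w ∈ T, b w ∈ Metric.ball c r) {ψ : Cm (n + 1) → X.pt}
    (hψ : ∀ w ∈ T, w 0 ≠ 0 → HolAt X ψ w ∧ ψ w ∈ V ∧ G (ψ w) = b w) :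
    ∃ Ψ : Cm (n + 1) → X.pt, (∀ w ∈ T, HolAt X Ψ w ∧ Ψ w ∈ V ∧ G (Ψ w) = b w) ∧
      ∀ w ∈ T, w 0 ≠ 0 → Ψ w = ψ w := by
  classical
  set S : Set (Cm (n + 1)) := {w | w ∈ T ∧ w 0 ≠ 0} with hS
  have hSo : IsOpen S := hT.inter (isOpen_ne_fun (continuous_apply 0) continuous_const)
  have hcl : T ⊆ closure S := fun w hw => mem_closure_ne hT hw
  -- limits
  have hlim : ∀ w ∈ T, ∃ y, Tendsto ψ (𝓝[S] w) (𝓝 y) ∧ y ∈ V ∧ G y = b w := by
    intro w hw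
    by_cases hw0 : w 0 = 0
    swap
    · exact ⟨ψ w, ((hψ w hw hw0).1.1.tendsto).mono_left nhdsWithin_le_nhds, (hψ w hw hw0).2⟩
    have hUlim : ∀ U : Ultrafilter (Cm (n + 1)), ↑U ≤ 𝓝[S] w →
        ∃ y, y ∈ V ∧ G y = b w ∧ Tendsto ψ U (𝓝 y) := by
      intro U hU
      have h1 : ∀ᶠ v in (U : Filter (Cm (n + 1))), v ∈ S := hU self_mem_nhdsWithin
      exact h.exists_lim (hb w hw) (hbr w hw) (hU.trans nhdsWithin_le_nhds)
        (h1.mono fun v hv => (hψ v hv.1 hv.2).2)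
    have hne : (𝓝[S] w).NeBot := mem_closure_iff_nhdsWithin_neBot.1 (hcl hw)
    obtain ⟨U₀, hU₀⟩ := Ultrafilter.exists_le (𝓝[S] w)
    obtain ⟨y, hyV, hyG, hy⟩ := hUlim U₀ hU₀
    refine ⟨y, ?_, hyV, hyG⟩
    rw [tendsto_iff_ultrafilter]
    intro U₁ hU₁
    obtain ⟨y₁, hy₁V, hy₁G, hy₁⟩ := hUlim U₁ hU₁
    have hyy : y₁ = y := by
      by_contra hyy
      -- separate the points of the fibre
      have hF := (h.finite (b w) (hbr w hw)).1
      obtain ⟨N, hN, hNd⟩ := hF.t2_separation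
      set O₁ : Set X.pt := N y with hO₁
      set O₂ : Set X.pt := ⋃ x ∈ {x | (x ∈ V ∧ G x = b w) ∧ x ≠ y}, N x with hO₂
      have hO₁o : IsOpen O₁ := (hN y).2
      have hO₂o : IsOpen O₂ := isOpen_biUnion fun x _ => (hN x).2
      have hdis : Disjoint O₁ O₂ := by
        rw [hO₂, disjoint_iUnion₂_right]
        intro x hx
        exact hNd ⟨hyV, hyG⟩ hx.1 (Ne.symm hx.2)
      have hy₁O₂ : y₁ ∈ O₂ := mem_iUnion₂.2 ⟨y₁, ⟨⟨hy₁V, hy₁G⟩, hyy⟩, (hN y₁).1⟩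
      have hev : ∀ᶠ v in 𝓝[S] w, ψ v ∈ O₁ ∪ O₂ := by
        by_contra hnot
        rw [Filter.not_eventually] at hnot
        have hne2 : (𝓝[S] w ⊓ 𝓟 {v | ¬ ψ v ∈ O₁ ∪ O₂}).NeBot := frequently_iff_neBot.1 hnot
        obtain ⟨U₂, hU₂⟩ := Ultrafilter.exists_le (𝓝[S] w ⊓ 𝓟 {v | ¬ ψ v ∈ O₁ ∪ O₂})
        obtain ⟨y₂, hy₂V, hy₂G, hy₂⟩ := hUlim U₂ (hU₂.trans inf_le_left)
        have hy₂O : y₂ ∈ O₁ ∪ O₂ := by
          by_cases hy₂y : y₂ = y
          · left; rw [hy₂y]; exact (hN y).1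
          · right; exact mem_iUnion₂.2 ⟨y₂, ⟨⟨hy₂V, hy₂G⟩, hy₂y⟩, (hN y₂).1⟩
        have h1 : ∀ᶠ v in (U₂ : Filter (Cm (n + 1))), ψ v ∈ O₁ ∪ O₂ :=
          hy₂.eventually ((hO₁o.union hO₂o).mem_nhds hy₂O)
        have h2 : ∀ᶠ v in (U₂ : Filter (Cm (n + 1))), ¬ ψ v ∈ O₁ ∪ O₂ :=
          (hU₂.trans inf_le_right) (mem_principal_self _)
        obtain ⟨v, hv1, hv2⟩ := (h1.and h2).exists
        exact hv2 hv1
      rw [eventually_nhdsWithin_iff] at hev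
      obtain ⟨δ, hδ, hδb⟩ := Metric.eventually_nhds_iff_ball.1 (hev.and (hT.eventually_mem hw))
      set C : Set (Cm (n + 1)) := {v | v ∈ Metric.ball w δ ∧ v 0 ≠ 0} with hC
      have hCS : C ⊆ S := fun v hv => ⟨(hδb v hv.1).2, hv.2⟩
      have hCc : IsPreconnected (ψ '' C) :=
        (isPreconnected_ball_ne hw0 hδ).image ψ fun v hv =>
          (hψ v (hCS hv).1 hv.2).1.1.continuousWithinAt
      have hCO : ψ '' C ⊆ O₁ ∪ O₂ := by
        rintro _ ⟨v, hv, rfl⟩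
        exact (hδb v hv.1).1 (hCS hv)
      have hCnhds : C ∈ 𝓝[S] w := by
        filter_upwards [mem_nhdsWithin_of_mem_nhds (Metric.ball_mem_nhds w hδ),
          self_mem_nhdsWithin] with v hv hvS
        exact ⟨hv, hvS.2⟩
      have hm1 : (ψ '' C ∩ O₁).Nonempty := by
        have e1 : ∀ᶠ v in (U₀ : Filter (Cm (n + 1))), v ∈ C := hU₀ hCnhds
        obtain ⟨v, hv1, hv2⟩ := (e1.and (hy.eventually (hO₁o.mem_nhds (hN y).1))).exists
        exact ⟨ψ v, ⟨v, hv1, rfl⟩, hv2⟩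
      have hm2 : (ψ '' C ∩ O₂).Nonempty := by
        have e1 : ∀ᶠ v in (U₁ : Filter (Cm (n + 1))), v ∈ C := hU₁ hCnhds
        obtain ⟨v, hv1, hv2⟩ := (e1.and (hy₁.eventually (hO₂o.mem_nhds hy₁O₂))).exists
        exact ⟨ψ v, ⟨v, hv1, rfl⟩, hv2⟩
      obtain ⟨z, -, hz1, hz2⟩ := hCc O₁ O₂ hO₁o hO₂o hCO hm1 hm2
      exact disjoint_left.1 hdis hz1 hz2
    rw [← hyy]
    exact hy₁
  have : Nonempty X.pt := ⟨(h.finite c (Metric.mem_ball_self h.pos)).2.some⟩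
  choose! y hy hyV hyG using hlim
  refine ⟨extendFrom S ψ, ?_, fun w hw hw0 => ?_⟩
  swap
  · exact extendFrom_eq (hcl hw) ((hψ w hw hw0).1.1.tendsto.mono_left nhdsWithin_le_nhds)
  have hval : ∀ w ∈ T, extendFrom S ψ w = y w := fun w hw => extendFrom_eq (hcl hw) (hy w hw)
  have hval' : ∀ w ∈ T, w 0 ≠ 0 → extendFrom S ψ w = ψ w := fun w hw hw0 =>
    extendFrom_eq (hcl hw) ((hψ w hw hw0).1.1.tendsto.mono_left nhdsWithin_le_nhds)
  have hcont : ContinuousOn (extendFrom S ψ) T :=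
    continuousOn_extendFrom hcl fun w hw => ⟨y w, hy w hw⟩
  have hcontAt : ∀ w ∈ T, ContinuousAt (extendFrom S ψ) w := fun w hw =>
    hcont.continuousAt (hT.mem_nhds hw)
  intro w hw
  refine ⟨?_, by rw [hval w hw]; exact hyV w hw, by rw [hval w hw]; exact hyG w hw⟩
  obtain ⟨M, V', u, hyV', hu⟩ := exists_isCoord X (extendFrom S ψ w)
  obtain ⟨δ, hδ, hδb⟩ := Metric.eventually_nhds_iff_ball.1
    ((hT.eventually_mem hw).and ((hcontAt w hw).eventually (hu.isOpen.mem_nhds hyV')))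
  have hBo : IsOpen (Metric.ball w δ) := Metric.isOpen_ball
  refine holAt_of_coord hu ?_ fun a => ?_
  · filter_upwards [hBo.mem_nhds (Metric.mem_ball_self hδ)] with v hv using (hδb v hv).2
  have hfreq : ∀ p ∈ Metric.ball w δ, ∃ᶠ v in 𝓝 p, v 0 ≠ 0 := by
    intro p hp
    have h1 := mem_closure_ne hBo hp
    exact (mem_closure_iff_frequently.1 h1).mono fun v hv => hv.2
  have hca : ContinuousOn (fun v => u a (extendFrom S ψ v)) (Metric.ball w δ) := by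
    intro v hv
    exact ((hol_continuousAt (hu.hol a _ (hδb v hv).2)).comp
      (hcontAt v (hδb v hv).1)).continuousWithinAt
  have hda : DifferentiableOn ℂ (fun v => u a (extendFrom S ψ v))
      (Metric.ball w δ ∩ {v | v 0 ≠ 0}) := by
    rintro v ⟨hv, hv0⟩
    have h1 : AnalyticAt ℂ (fun q => u a (ψ q)) v :=
      (hψ v (hδb v hv).1 hv0).1.analyticAt (by
        rw [← hval' v (hδb v hv).1 hv0]; exact hu.hol a _ (hδb v hv).2)
    have h2 : (fun q => u a (extendFrom S ψ q)) =ᶠ[𝓝 v] fun q => u a (ψ q) := by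
      filter_upwards [hSo.mem_nhds ⟨(hδb v hv).1, hv0⟩] with q hq
      rw [hval' q hq.1 hq.2]
    exact (h2.differentiableAt_iff.2 h1.differentiableAt).differentiableWithinAt
  obtain ⟨F, hF, hF'⟩ := Vale.Agent.P298.H983.riemann_global (g := fun v : Cm (n + 1) => v 0) hBo
    (by fun_prop) hfreq hda (by
      intro p hp
      refine ⟨‖u a (extendFrom S ψ p)‖ + 1, ?_⟩
      filter_upwards [((hca.continuousAt (hBo.mem_nhds hp)).norm).eventually
        (eventually_lt_nhds (lt_add_one _))] with v hv _ using hv.le)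
  have hEq : ∀ v ∈ Metric.ball w δ, F v = u a (extendFrom S ψ v) :=
    Vale.Agent.P267.H338.eqOn_of_dense hBo hfreq hF.continuousOn hca hF'
  have h3 : AnalyticAt ℂ F w :=
    Vale.Agent.P268.analyticAt_of_differentiableOn hBo hF (Metric.mem_ball_self hδ)
  refine h3.congr ?_
  filter_upwards [hBo.mem_nhds (Metric.mem_ball_self hδ)] with v hv using hEq v hv

end Vale.Agent.P277.TX
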