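import Vale.Agent.P277.H884.Min1
import Mathlib.Analysis.Calculus.ContDiff.RCLike
import Mathlib.Analysis.Analytic.IsolatedZeros

/-!
# P277, TX-MIN: perturbations of a branched covering
-/

open scoped Manifold ContDiff Topology
open Vale.Agent.P272.K Vale.Agent.P285.H281.FD Set Filter Metric

noncomputable section

namespace Vale.Agent.P277.TX

variable {X : CSp} {S V : Set X.pt} {G : X.pt → Cm 4} {c : Cm 4} {r : ℝ} {d : ℕ}
  {lam : X.pt → ℂ} {θ : Cm 4 → ℂ}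

/-- A map `G + f a` has countable fibres. -/
theorem IsCov.countable_line (h : IsCov X V G c r d lam θ) {f : X.pt → ℂ}
    (hf : ∀ x ∈ V, X.Hol f x) {z₀ a z : Cm 4} {B s : ℝ} (hz : ball z₀ s ⊆ ball c r)
    (hB : ∀ x ∈ V, G x ∈ ball z₀ s → ‖f x‖ ≤ B) (hB0 : 0 ≤ B)
    (hline : ∀ T : ℂ, ‖T‖ < B + 2 → z - T • a ∈ ball z₀ s) :
    {q | q ∈ V ∧ G q ∈ ball z₀ s ∧ G q + f q • a = z}.Countable := by
  obtain ⟨P, hP1, hP2, hP3⟩ := h.sym f hf
  have heval : ∀ w ∈ ball c r, ∀ T : ℂ,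
      (P w).eval T = ∑ i ∈ Finset.range (d + 1), (P w).coeff i * T ^ i := by
    intro w hw T
    rw [Polynomial.eval_eq_sum_range, (hP1 w hw).2.1]
  -- lower bound
  have hlow : ∀ w ∈ ball z₀ s, ∀ T : ℂ, B + 1 ≤ ‖T‖ → 1 ≤ ‖(P w).eval T‖ := by
    intro w hw T hT
    by_contra hcon
    push Not at hcon
    have h1 : ContinuousAt (fun w => ∑ i ∈ Finset.range (d + 1), (P w).coeff i * T ^ i) w :=
      tendsto_finsetSum _ fun i _ => ((((hP1 w (hz hw)).2.2 i).continuousAt).mul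
        continuousAt_const)
    have h2 : ∀ᶠ w' in 𝓝 w, w' ∈ ball z₀ s ∧ ‖(P w').eval T‖ < 1 := by
      have h3 : ∀ᶠ w' in 𝓝 w, ‖∑ i ∈ Finset.range (d + 1), (P w').coeff i * T ^ i‖ < 1 := by
        refine h1.norm.eventually_lt continuousAt_const ?_
        rw [← heval w (hz hw)]
        exact hcon
      filter_upwards [h3, isOpen_ball.mem_nhds hw] with w' h4 h5
      rw [heval w' (hz h5)]
      exact ⟨h5, h4⟩
    have h3 : ∃ᶠ w' in 𝓝 w, θ w' ≠ 0 := by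
      have := h.ne w (hz hw)
      rw [EventuallyEq, not_eventually] at this
      exact this
    obtain ⟨w', hw', hw'b, hw'1⟩ := (h3.and_eventually h2).exists
    obtain ⟨x, hx⟩ := h.enum w' (hz hw'b) hw'
    rw [hP3 w' (hz hw'b) hw' x hx, Polynomial.eval_prod, norm_prod] at hw'1
    refine absurd hw'1 (not_lt.2 ?_)
    have h4 : ∀ k ∈ (Finset.univ : Finset (Fin d)), (1 : ℝ) ≤
        ‖Polynomial.eval T (Polynomial.X - Polynomial.C (f (x k)))‖ := by
      intro k _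
      have h5 := (hx.2 (x k)).1 ⟨k, rfl⟩
      rw [Polynomial.eval_sub, Polynomial.eval_X, Polynomial.eval_C]
      have h6 := hB (x k) h5.1 (by rw [h5.2]; exact hw'b)
      have h7 := norm_sub_norm_le T (f (x k))
      linarith
    calc (1 : ℝ) = ∏ _k : Fin d, (1 : ℝ) := by simp
      _ ≤ _ := Finset.prod_le_prod (fun _ _ => zero_le_one) h4
  set F : ℂ → ℂ := fun T => (P (z - T • a)).eval T with hF
  have hFan : AnalyticOnNhd ℂ F (ball 0 (B + 2)) := by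
    intro T hT
    have hT' : ‖T‖ < B + 2 := by simpa using hT
    have h1 : AnalyticAt ℂ (fun T : ℂ => z - T • a) T :=
      analyticAt_const.sub (analyticAt_id.smul analyticAt_const)
    have h2 : AnalyticAt ℂ (fun T => ∑ i ∈ Finset.range (d + 1), (P (z - T • a)).coeff i * T ^ i)
        T := by
      refine Finset.analyticAt_fun_sum _ fun i _ => ?_
      refine AnalyticAt.mul ?_ (analyticAt_id.pow i)
      exact AnalyticAt.fun_comp (g := fun w => (P w).coeff i)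
        ((hP1 _ (hz (hline T hT'))).2.2 i) h1
    refine h2.congr ?_
    filter_upwards [isOpen_ball.mem_nhds hT] with T' hT''
    have hT3 : ‖T'‖ < B + 2 := by simpa using hT''
    rw [hF, ← heval _ (hz (hline T' hT3))]
  have hZ : {T : ℂ | ‖T‖ ≤ B ∧ F T = 0}.Finite := by
    by_contra hinf
    obtain ⟨T₀, hT₀, hacc⟩ := Set.Infinite.exists_accPt_of_subset_isCompact hinf
      (ProperSpace.isCompact_closedBall (0 : ℂ) B) fun T hT => by simpa using hT.1
    have h1 : ∃ᶠ T in 𝓝[≠] T₀, F T = 0 :=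
      (accPt_iff_frequently_nhdsNE.1 hacc).mono fun T hT => hT.2
    have h2 : T₀ ∈ ball (0 : ℂ) (B + 2) := by
      have : ‖T₀‖ ≤ B := by simpa using hT₀
      rw [mem_ball_zero_iff]; linarith
    have h3 := hFan.eqOn_zero_of_preconnected_of_frequently_eq_zero
      (convex_ball _ _).isPreconnected h2 h1
    have hn : ‖((B + 1 : ℝ) : ℂ)‖ = B + 1 := by
      rw [Complex.norm_real, Real.norm_of_nonneg (by linarith)]
    have h4 : ((B + 1 : ℝ) : ℂ) ∈ ball (0 : ℂ) (B + 2) := by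
      rw [mem_ball_zero_iff, hn]; linarith
    have h5 := hlow _ (hline ((B + 1 : ℝ) : ℂ) (by rw [hn]; linarith)) ((B + 1 : ℝ) : ℂ) hn.ge
    have h6 : F ((B + 1 : ℝ) : ℂ) = 0 := h3 h4
    change 1 ≤ ‖F ((B + 1 : ℝ) : ℂ)‖ at h5
    rw [h6, norm_zero] at h5
    linarith
  have hsub : {q | q ∈ V ∧ G q ∈ ball z₀ s ∧ G q + f q • a = z} ⊆
      ⋃ T ∈ {T : ℂ | ‖T‖ ≤ B ∧ F T = 0}, {q | q ∈ V ∧ G q ∈ ball z₀ s ∧ G q = z - T • a} := by
    rintro q ⟨hq1, hq2, hq3⟩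
    have h1 : G q = z - f q • a := eq_sub_of_add_eq hq3
    refine mem_iUnion₂.2 ⟨f q, ⟨hB q hq1 hq2, ?_⟩, hq1, hq2, h1⟩
    show (P (z - f q • a)).eval (f q) = 0
    rw [← h1]
    exact hP2 q hq1
  refine Countable.mono hsub (hZ.countable.biUnion fun T _ => ?_)
  by_cases hT : z - T • a ∈ ball z₀ s
  · refine ((h.finite (z - T • a) (hz hT)).1.countable).mono ?_
    rintro q ⟨hq1, -, hq3⟩
    exact ⟨hq1, hq3⟩
  · refine countable_empty.mono ?_
    rintro q ⟨-, hq2, hq3⟩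
    rw [hq3] at hq2
    exact hT hq2

theorem IsCov.eventually_mem (h : IsCov X V G c r d lam θ) {z₀ : Cm 4} (hz₀ : z₀ ∈ ball c r)
    {W : Set X.pt} (hW : ∀ x ∈ V, G x = z₀ → W ∈ 𝓝 x) :
    ∀ᶠ z in 𝓝 z₀, ∀ x ∈ V, G x = z → x ∈ W := by
  obtain ⟨r', h1, h2⟩ := exists_between (mem_ball.1 hz₀)
  have hK := h.proper r' h2
  have hcomp : IsCompact ({x | x ∈ V ∧ G x ∈ closedBall c r'} \ interior W) :=
    hK.diff isOpen_interior
  have hcont : ContinuousOn G ({x | x ∈ V ∧ G x ∈ closedBall c r'} \ interior W) := fun x hx =>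
    (h.continuousAt hx.1.1).continuousWithinAt
  have hcl := (hcomp.image_of_continuousOn hcont).isClosed
  have hz : z₀ ∉ G '' ({x | x ∈ V ∧ G x ∈ closedBall c r'} \ interior W) := by
    rintro ⟨x, ⟨hx1, hx2⟩, hx3⟩
    exact hx2 (mem_interior_iff_mem_nhds.2 (hW x hx1.1 hx3))
  filter_upwards [hcl.isOpen_compl.mem_nhds hz, isOpen_ball.mem_nhds (mem_ball.2 h1)] with z hz1 hz2
  intro x hx hxz
  by_contra hxW
  exact hz1 ⟨x, ⟨⟨hx, by rw [hxz]; exact ball_subset_closedBall hz2⟩,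
    fun h3 => hxW (interior_subset h3)⟩, hxz⟩

/-- Small perturbations do not have more sheets. -/
theorem IsCov.degree_le (h : IsCov X V G c r d lam θ) {f : X.pt → ℂ}
    (hf : ∀ x ∈ V, X.Hol f x) {z₀ : Cm 4} {B s t : ℝ} (hz : ball z₀ s ⊆ ball c r)
    (hB : ∀ x ∈ V, G x ∈ ball z₀ s → ‖f x‖ ≤ B) (hB0 : 0 ≤ B) (ht : 0 < t) (hts : t ≤ s) :
    ∃ δ > 0, ∀ a : Cm 4, ‖a‖ < δ → ∀ (d' : ℕ) (lam' : X.pt → ℂ) (θ' : Cm 4 → ℂ)
      (V' : Set X.pt), (∀ q ∈ V', q ∈ V ∧ G q ∈ ball z₀ s) →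
      IsCov X V' (fun q => G q + f q • a) z₀ t d' lam' θ' → d' ≤ d := by
  classical
  -- an unbranched value
  obtain ⟨z, hzθ, hzb⟩ : ∃ z, θ z ≠ 0 ∧ z ∈ ball z₀ t := by
    have h1 : ∃ᶠ w' in 𝓝 z₀, θ w' ≠ 0 := by
      have := h.ne z₀ (hz (mem_ball_self (ht.trans_le hts)))
      rw [EventuallyEq, not_eventually] at this
      exact this
    exact (h1.and_eventually (isOpen_ball.mem_nhds (mem_ball_self ht))).exists
  have hzr : z ∈ ball c r := hz (ball_subset_ball hts hzb)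
  obtain ⟨x, hxinj, hx⟩ := h.enum z hzr hzθ
  have hxk : ∀ k, x k ∈ V ∧ G (x k) = z := fun k => (hx (x k)).1 ⟨k, rfl⟩
  have key : ∀ k, ∃ (U : Set X.pt) (L : ℝ), U ∈ 𝓝 (x k) ∧ 0 ≤ L ∧ InjOn G U ∧
      ∀ p ∈ U, ∀ q ∈ U, ‖f p - f q‖ ≤ L * ‖G p - G q‖ := by
    intro k
    obtain ⟨N, hN, hxN, hNV, hNinj, -, hNh⟩ := h.etale (x k) (hxk k).1 (by rw [(hxk k).2]; exact hzθ)
    obtain ⟨g, hg, hfg⟩ := (hNh (x k) hxN f).1 (hf _ (hxk k).1)
    obtain ⟨L, T, hT, hL⟩ := (hg.contDiffAt (n := 1)).exists_lipschitzOnWith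
    refine ⟨N ∩ {y | f y = (g ∘ G) y} ∩ G ⁻¹' T, L, ?_, L.2, ?_, ?_⟩
    · exact inter_mem (inter_mem (hN.mem_nhds hxN) hfg) ((h.continuousAt (hxk k).1) hT)
    · exact hNinj.mono fun y hy => hy.1.1
    · intro p hp q hq
      have h1 := hL.dist_le_mul _ hp.2 _ hq.2
      rw [dist_eq_norm, dist_eq_norm] at h1
      rw [show f p = g (G p) from hp.1.2, show f q = g (G q) from hq.1.2]
      exact h1
  choose U L hU hL hUinj hUL using key
  have hev := h.eventually_mem hzr (W := ⋃ k, U k) (by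
    intro y hy hyz
    obtain ⟨k, rfl⟩ := (hx y).2 ⟨hy, hyz⟩
    exact mem_of_superset (hU k) (subset_iUnion U k))
  obtain ⟨ρ, hρ, hρsub⟩ := Metric.eventually_nhds_iff_ball.1 hev
  set M : ℝ := ∑ k, L k with hM
  have hLM : ∀ k, L k ≤ M := fun k => Finset.single_le_sum (fun k _ => hL k) (Finset.mem_univ k)
  have hM0 : 0 ≤ M := Finset.sum_nonneg fun k _ => hL k
  refine ⟨min (ρ / 2 / (B + 1)) (1 / (M + 1)), by positivity, fun a ha d' lam' θ' V' hV' h' => ?_⟩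
  have ha1 : ‖a‖ * B < ρ / 2 := by
    have h1 := ha.trans_le (min_le_left _ _)
    rw [lt_div_iff₀ (by positivity)] at h1
    nlinarith [norm_nonneg a]
  have ha2 : ‖a‖ * M < 1 := by
    have h1 := ha.trans_le (min_le_right _ _)
    rw [lt_div_iff₀ (by positivity)] at h1
    nlinarith [norm_nonneg a]
  obtain ⟨z', hz'θ, hz'b, hz'ρ⟩ : ∃ z', θ' z' ≠ 0 ∧ z' ∈ ball z₀ t ∧ z' ∈ ball z (ρ / 2) := by
    have h1 : ∃ᶠ w' in 𝓝 z, θ' w' ≠ 0 := by
      have := h'.ne z hzb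
      rw [EventuallyEq, not_eventually] at this
      exact this
    exact (h1.and_eventually (inter_mem (isOpen_ball.mem_nhds hzb)
      (isOpen_ball.mem_nhds (mem_ball_self (half_pos hρ))))).exists
  obtain ⟨x', hx'inj, hx'⟩ := h'.enum z' hz'b hz'θ
  have hx'k : ∀ k, x' k ∈ V' ∧ G (x' k) + f (x' k) • a = z' := fun k => (hx' (x' k)).1 ⟨k, rfl⟩
  have hcov : ∀ k, ∃ l, x' k ∈ U l := by
    intro k
    obtain ⟨h1, h2⟩ := hx'k k
    obtain ⟨h3, h4⟩ := hV' _ h1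
    have h5 : G (x' k) ∈ ball z ρ := by
      have h6 : dist (G (x' k)) z' ≤ ‖a‖ * B := by
        rw [dist_eq_norm, ← h2, sub_add_cancel_left, norm_neg, norm_smul, mul_comm]
        exact mul_le_mul_of_nonneg_left (hB _ h3 h4) (norm_nonneg a)
      calc dist (G (x' k)) z ≤ dist (G (x' k)) z' + dist z' z := dist_triangle _ _ _
        _ < ρ / 2 + ρ / 2 := add_lt_add (h6.trans_lt ha1) hz'ρ
        _ = ρ := by ring
    exact mem_iUnion.1 (hρsub _ h5 _ h3 rfl)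
  choose κ hκ using hcov
  have hκinj : Function.Injective κ := by
    intro i j hij
    apply hx'inj
    have h1 := hκ i
    have h2 := hκ j
    rw [← hij] at h2
    refine hUinj _ h1 h2 ?_
    have h3 := hUL _ _ h1 _ h2
    have h4 : G (x' i) - G (x' j) = -((f (x' i) - f (x' j)) • a) := by
      have h5 := (hx'k i).2.trans (hx'k j).2.symm
      rw [sub_smul]
      have h6 : G (x' i) = G (x' j) + f (x' j) • a - f (x' i) • a := by
        rw [← h5]; abel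
      rw [h6]; abel
    have h5 : ‖G (x' i) - G (x' j)‖ ≤ ‖a‖ * M * ‖G (x' i) - G (x' j)‖ := by
      calc ‖G (x' i) - G (x' j)‖ = ‖f (x' i) - f (x' j)‖ * ‖a‖ := by
            rw [h4, norm_neg, norm_smul]
        _ ≤ (M * ‖G (x' i) - G (x' j)‖) * ‖a‖ := by
            refine mul_le_mul_of_nonneg_right (h3.trans ?_) (norm_nonneg a)
            exact mul_le_mul_of_nonneg_right (hLM _) (norm_nonneg _)
        _ = ‖a‖ * M * ‖G (x' i) - G (x' j)‖ := by ring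
    have h6 : ‖G (x' i) - G (x' j)‖ = 0 := by
      by_contra hne
      have h7 : 0 < ‖G (x' i) - G (x' j)‖ := lt_of_le_of_ne (norm_nonneg _) (Ne.symm hne)
      nlinarith
    exact sub_eq_zero.1 (norm_eq_zero.1 h6)
  simpa using Fintype.card_le_of_injective κ hκinj

end Vale.Agent.P277.TX
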