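import Vale.Agent.P277.H884.PH4

/-!
# P277, T3, P2: pluriharmonic functions on a compact threefold outside a thin set are constant
-/

open scoped Manifold ContDiff Topology
open Vale.Agent.P272.K Vale.Agent.P285.H281.FD Set Filter Metric MeasureTheory

noncomputable section

namespace Vale.Agent.P277

/-- (P2) Let `B` be a closed subset of dimension `≤ 3` of a compact complex space, which is a
connected threefold outside `S ∪ τ`, `dim S ≤ 2`, `dim τ ≤ 1`. A function on `B \ (S ∪ τ)` which is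
locally the real part of a holomorphic function and which is locally bounded near the points of
`B \ τ` is constant. -/
def StConst : Prop :=
  ∀ (X : CSp) (B τ S : Set X.pt) (u : X.pt → ℝ) (_ : IsClosed B) (_ : DimLe X 3 B)
    (_ : IsClosed τ) (_ : DimLe X 1 τ) (_ : IsClosed S) (_ : DimLe X 2 S)
    (_ : ∀ x ∈ B \ (S ∪ τ), IsMfX 3 X B x) (_ : IsPreconnected (B \ (S ∪ τ)))
    (_ : ∀ x ∈ B \ (S ∪ τ), ∃ G, X.Hol G x ∧ ∀ᶠ y in 𝓝 x, y ∈ B → u y = (G y).re)
    (_ : ∀ x ∈ B \ τ, ∃ C, ∀ᶠ y in 𝓝 x, y ∈ B \ (S ∪ τ) → |u y| ≤ C),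
    ∃ c, ∀ x ∈ B \ (S ∪ τ), u x = c

namespace H884.PH

theorem stConst : StConst := by
  intro X B τ S u hBc hB3 hτc hτ1 hSc hS2 hmf hpre hu hbd
  set Q : Set X.pt := S ∪ τ with hQ
  have hQc : IsClosed Q := hSc.union hτc
  rcases (B \ Q).eq_empty_or_nonempty with hem | ⟨x₁, hx₁⟩
  · refine ⟨0, fun x hx => ?_⟩
    rw [hem] at hx
    exact hx.elim
  have hne : Nonempty X.pt := ⟨x₁⟩
  have hτ2 : DimLe X 2 τ := hτ1.le (by norm_num)
  have hQ2 : DimLe X 2 Q := hS2.union hτ2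
  have key := loc hBc hB3 hQc hQ2 hτ1 hmf hu hbd
  choose W hW K hK hKR hKW using key
  obtain ⟨t, ht⟩ := isCompact_univ.elim_nhds_subcover W fun x _ => hW x
  set K₀ : Set X.pt := ⋃ x ∈ t, K x with hK₀
  have hK₀c : IsCompact K₀ := t.isCompact_biUnion fun x _ => hK x
  have hK₀R : K₀ ⊆ B \ Q := iUnion₂_subset fun x _ => hKR x
  have hle : ∀ M, (∀ y ∈ K₀, u y ≤ M) → ∀ x ∈ B \ Q, u x ≤ M := by
    intro M hM x hx
    obtain ⟨y, hy, hxy⟩ := mem_iUnion₂.1 (ht.2 (mem_univ x))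
    exact hKW y M (fun z hz => hM z (mem_iUnion₂.2 ⟨y, hy, hz⟩)) x hxy hx
  have hK₀n : K₀.Nonempty := by
    by_contra hcon
    rw [not_nonempty_iff_eq_empty] at hcon
    have h1 := hle (u x₁ - 1) (by rw [hcon]; simp) x₁ hx₁
    linarith
  have hcont : ∀ x ∈ B \ Q, ContinuousWithinAt u B x := by
    intro x hx
    obtain ⟨G, hG, hGe⟩ := hu x hx
    have h1 : ContinuousWithinAt (fun y => (G y).re) B x :=
      (Complex.continuous_re.continuousAt.comp (hol_continuousAt hG)).continuousWithinAt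
    refine h1.congr_of_eventuallyEq ?_ (hGe.self_of_nhds hx.1)
    filter_upwards [mem_nhdsWithin_of_mem_nhds hGe, self_mem_nhdsWithin] with z hz hzB
    exact hz hzB
  obtain ⟨y₀, hy₀, hmax⟩ := hK₀c.exists_isMaxOn hK₀n (f := u) fun y hy =>
    (hcont y (hK₀R hy)).mono (hK₀R.trans sdiff_subset)
  have hleM : ∀ x ∈ B \ Q, u x ≤ u y₀ := hle (u y₀) hmax
  -- the maximum is attained on an open set
  have hopen : ∀ x ∈ B \ Q, u x = u y₀ → ∀ᶠ y in 𝓝 x, y ∈ B → u y = u y₀ := by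
    intro x hx hxM
    obtain ⟨G, hG, hGe⟩ := hu x hx
    obtain ⟨u', c, ρ, g, hP, rfl⟩ := exists_patch hQc isOpen_univ hx.2 (mem_univ x) (hmf x hx)
    have hc := mem_ball_self (x := c) hP.pos
    have hGa : AnalyticAt ℂ (fun p => G (g p)) c := (hP.hol c hc).analyticAt hG
    have h1 : ∀ᶠ p in 𝓝 c, u (g p) = (G (g p)).re ∧ u (g p) ≤ u y₀ := by
      filter_upwards [(hP.hol c hc).1.eventually hGe, isOpen_ball.mem_nhds hc] with p hp hpb
      exact ⟨hp (hP.mem p hpb).1, hleM _ ⟨(hP.mem p hpb).1, (hP.mem p hpb).2.1⟩⟩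
    have h2 : ∀ᶠ p in 𝓝 c, (G (g p)).re ≤ (G (g c)).re := by
      have h3 := h1.self_of_nhds.1
      filter_upwards [h1] with p hp
      rw [← hp.1, ← h3, hxM]
      exact hp.2
    have h4 : ∀ᶠ p in 𝓝 c, u (g p) = u y₀ := by
      have h3 := h1.self_of_nhds.1
      filter_upwards [re_locmax hGa h2, h1] with p hp hp1
      rw [hp1.1, hp, ← h3, hxM]
    filter_upwards [hP.nhd c hc _ h4] with y hy hyB
    obtain ⟨p, hp, rfl⟩ := hy hyB
    exact hp
  refine ⟨u y₀, fun x hx => ?_⟩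
  by_contra hcon
  have hlt : u x < u y₀ := lt_of_le_of_ne (hleM x hx) hcon
  set U₁ : Set X.pt := {x | ∀ᶠ y in 𝓝 x, y ∈ B → u y = u y₀} with hU₁
  set U₂ : Set X.pt := {x | ∀ᶠ y in 𝓝 x, y ∈ B → u y < u y₀} with hU₂
  have hU₁o : IsOpen U₁ := isOpen_iff_eventually.2 fun y hy => eventually_eventually_nhds.2 hy
  have hU₂o : IsOpen U₂ := isOpen_iff_eventually.2 fun y hy => eventually_eventually_nhds.2 hy
  have hlt' : ∀ z ∈ B \ Q, u z < u y₀ → z ∈ U₂ := by
    intro z hz hzl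
    have h1 := (hcont z hz).eventually_lt_const hzl
    exact eventually_nhdsWithin_iff.1 h1
  obtain ⟨z, hz, hz1, hz2⟩ := hpre U₁ U₂ hU₁o hU₂o (fun z hz => by
    rcases (hleM z hz).lt_or_eq with h | h
    · exact Or.inr (hlt' z hz h)
    · exact Or.inl (hopen z hz h)) ⟨y₀, hK₀R hy₀, hopen y₀ (hK₀R hy₀) rfl⟩ ⟨x, hx, hlt' x hx hlt⟩
  have h1 := hz1.self_of_nhds hz.1
  have h2 := hz2.self_of_nhds hz.1
  exact absurd h1 h2.ne

end H884.PH

end Vale.Agent.P277
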