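import Vale.Agent.P277.H762.L3b

/-!
# P277, T3, P2: patches of submanifolds of complex spaces
-/

open scoped Manifold ContDiff Topology
open Vale.Agent.P272.K Vale.Agent.P285.H281.FD Set Filter Metric

noncomputable section

namespace Vale.Agent.P277

/-- `S` is near `x` a complex manifold of dimension `n`: the image of an injective immersion of
an open set of `ℂⁿ` which is a homeomorphism onto a neighbourhood of `x` in `S`. -/
def IsMfX (n : ℕ) (X : CSp) (S : Set X.pt) (x : X.pt) : Prop :=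
  ∃ (Ω : Set (Cm n)) (g : Cm n → X.pt) (u : X.pt → Cm n), IsOpen Ω ∧ (∀ p ∈ Ω, HolAt X g p) ∧
    x ∈ g '' Ω ∧ (∀ i, ∀ᶠ y in 𝓝 x, X.Hol (fun y => u y i) y) ∧ (∀ p ∈ Ω, u (g p) = p) ∧
    ∀ᶠ y in 𝓝 x, y ∈ S ↔ (u y ∈ Ω ∧ g (u y) = y)

namespace H884.PH

open H762 (Cv not_cv_nhds)

variable {X : CSp} {S T V : Set X.pt} {n : ℕ} {c : Cm n} {ρ : ℝ} {g : Cm n → X.pt}
  {u' : X.pt → Cm n}

/-- a parametrised piece of the manifold `S \ T` -/
structure Patch (X : CSp) (S T V : Set X.pt) {n : ℕ} (u' : X.pt → Cm n) (c : Cm n) (ρ : ℝ)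
    (g : Cm n → X.pt) : Prop where
  pos : 0 < ρ
  hol : ∀ p ∈ ball c ρ, HolAt X g p
  mem : ∀ p ∈ ball c ρ, g p ∈ S ∧ g p ∉ T ∧ g p ∈ V
  inv : ∀ p ∈ ball c ρ, (∀ i, X.Hol (fun y => u' y i) (g p)) ∧ u' (g p) = p
  nhd : ∀ p ∈ ball c ρ, ∀ O ∈ 𝓝 p, ∀ᶠ y in 𝓝 (g p), y ∈ S → y ∈ g '' O

theorem exists_patch (hT : IsClosed T) (hV : IsOpen V) {x : X.pt} (hxT : x ∉ T)
    (hxV : x ∈ V) (hs : IsMfX n X S x) :
    ∃ (u' : X.pt → Cm n) (c : Cm n) (ρ : ℝ) (g : Cm n → X.pt), Patch X S T V u' c ρ g ∧ g c = x := by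
  obtain ⟨Ω, g, u', hΩ, hg, ⟨c, hc, rfl⟩, hu, hug, hiff⟩ := hs
  have h1 : ∀ᶠ y in 𝓝 (g c), (∀ᶠ z in 𝓝 y, z ∈ S ↔ (u' z ∈ Ω ∧ g (u' z) = z)) ∧
      (∀ i, X.Hol (fun y => u' y i) y) ∧ y ∉ T ∧ y ∈ V :=
    (eventually_eventually_nhds.2 hiff).and ((eventually_all.2 hu).and
      ((hT.isOpen_compl.eventually_mem hxT).and (hV.eventually_mem hxV)))
  have h2 : ∀ᶠ p in 𝓝 c, p ∈ Ω ∧ ((∀ᶠ z in 𝓝 (g p), z ∈ S ↔ (u' z ∈ Ω ∧ g (u' z) = z)) ∧
      (∀ i, X.Hol (fun y => u' y i) (g p)) ∧ g p ∉ T ∧ g p ∈ V) :=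
    (hΩ.eventually_mem hc).and ((hg c hc).1.eventually h1)
  obtain ⟨ρ, hρ, hball⟩ := Metric.eventually_nhds_iff_ball.1 h2
  refine ⟨u', c, ρ, g, ⟨hρ, fun p hp => hg p (hball p hp).1, fun p hp => ?_, fun p hp => ?_,
    fun p hp O hO => ?_⟩, rfl⟩
  · obtain ⟨h3, h4, h5, h6, h7⟩ := hball p hp
    refine ⟨h4.self_of_nhds.2 ⟨?_, ?_⟩, h6, h7⟩
    · rw [hug p h3]; exact h3
    · rw [hug p h3]
  · obtain ⟨h3, h4, h5, h6, h7⟩ := hball p hp
    exact ⟨h5, hug p h3⟩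
  · obtain ⟨h3, h4, h5, h6, h7⟩ := hball p hp
    have h8 : ContinuousAt u' (g p) := continuousAt_pi.2 fun i => hol_continuousAt (h5 i)
    have h9 : ∀ᶠ y in 𝓝 (g p), u' y ∈ O := by
      refine h8.eventually ?_
      rw [hug p h3]
      exact hO
    filter_upwards [h4, h9] with y hy hy' hyS
    exact ⟨u' y, hy', (hy.1 hyS).2⟩

theorem Patch.shrink (h : Patch X S T V u' c ρ g) {p : Cm n} {ρ' : ℝ} (hρ' : 0 < ρ')
    (hs : ball p ρ' ⊆ ball c ρ) : Patch X S T V u' p ρ' g where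
  pos := hρ'
  hol q hq := h.hol q (hs hq)
  mem q hq := h.mem q (hs hq)
  inv q hq := h.inv q (hs hq)
  nhd q hq := h.nhd q (hs hq)

theorem Patch.mono (h : Patch X S T V u' c ρ g) {W : Set X.pt} (hW : V ⊆ W) :
    Patch X S T W u' c ρ g where
  pos := h.pos
  hol := h.hol
  mem p hp := ⟨(h.mem p hp).1, (h.mem p hp).2.1, hW (h.mem p hp).2.2⟩
  inv := h.inv
  nhd := h.nhd

theorem Patch.imm (h : Patch X S T V u' c ρ g) {N : ℕ} {u : Fin N → X.pt → ℂ} (hu : IsCoord X V u)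
    {p : Cm n} (hp : p ∈ ball c ρ) : Function.Injective (fderiv ℂ (fun q a => u a (g q)) p) := by
  obtain ⟨h1, h2⟩ := h.inv p hp
  have hV := (h.mem p hp).2.2
  have h3 : ∀ i, ∃ G : Cm N → ℂ, AnalyticAt ℂ G (fun a => u a (g p)) ∧
      (fun y => u' y i) =ᶠ[𝓝 (g p)] fun y => G fun a => u a y := fun i => (hu.iff _ hV _).1 (h1 i)
  choose G hG hGe using h3
  have hΓ : AnalyticAt ℂ (fun q a => u a (g q)) p :=
    AnalyticAt.pi fun a => (h.hol p hp).analyticAt (hu.hol a _ hV)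
  have hGa : AnalyticAt ℂ (fun z i => G i z) (fun a => u a (g p)) := AnalyticAt.pi hG
  have h4 : (fun q : Cm n => (fun z i => G i z) (fun a => u a (g q))) =ᶠ[𝓝 p] fun q => q := by
    have h5 : ∀ᶠ q in 𝓝 p, ∀ i, u' (g q) i = G i fun a => u a (g q) :=
      (h.hol p hp).1.eventually (eventually_all.2 hGe)
    filter_upwards [h5, isOpen_ball.mem_nhds hp] with q hq hqb
    funext i
    rw [← hq i, (h.inv q hqb).2]
  have h6 := (hGa.differentiableAt.hasFDerivAt.comp p hΓ.differentiableAt.hasFDerivAt)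
  have h7 : HasFDerivAt (fun q : Cm n => q)
      ((fderiv ℂ (fun z i => G i z) (fun a => u a (g p))).comp
        (fderiv ℂ (fun q a => u a (g q)) p)) p := h6.congr_of_eventuallyEq h4.symm
  have h8 := h7.unique (hasFDerivAt_id p)
  rw [injective_iff_map_eq_zero]
  intro v hv
  have h9 := congrArg (fun L : Cm n →L[ℂ] Cm n => L v) h8
  simp only [ContinuousLinearMap.comp_apply, hv, map_zero, ContinuousLinearMap.id_apply] at h9
  exact h9.symm

/-- patches have full dimension -/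
theorem Patch.not_dimLe (h : Patch X S T V u' c ρ g) {k : ℕ} (hk : k < n) :
    ¬ DimLe X k (g '' ball c ρ) := by
  rintro ⟨Ω, G, h1, h2, h3⟩
  have h4 : Cv k (ball c ρ) := by
    refine ⟨fun l => {p | p ∈ Ω l ∧ ∀ i, X.Hol (fun y => u' y i) (G l p)}, fun l p => u' (G l p),
      fun l => ?_, fun l p hp => ?_, fun p hp => ?_⟩
    · rw [isOpen_iff_eventually]
      intro p hp
      exact ((h1 l).eventually_mem hp.1).and
        ((h2 l p hp.1).1.eventually (eventually_all.2 fun i => hol_eventually (hp.2 i)))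
    · exact AnalyticAt.pi fun i => (h2 l p hp.1).analyticAt (hp.2 i)
    · obtain ⟨l, q, hq, hqp⟩ := mem_iUnion.1 (h3 (mem_image_of_mem g hp))
      refine mem_iUnion.2 ⟨l, q, ⟨hq, ?_⟩, ?_⟩
      · rw [hqp]; exact (h.inv p hp).1
      · simp only [hqp]; exact (h.inv p hp).2
  exact not_cv_nhds (by rw [Module.finrank_fin_fun]; exact hk) (ball_mem_nhds c h.pos) h4

/-! ### good points -/

variable {F : X.pt → Cm n}

/-- `F` is a local biholomorphism of `S` at `y` -/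
def GoodAt (X : CSp) (S T V : Set X.pt) {n : ℕ} (F : X.pt → Cm n) (y : X.pt) : Prop :=
  ∃ (u' : X.pt → Cm n) (c : Cm n) (ρ : ℝ) (g : Cm n → X.pt), Patch X S T V u' c ρ g ∧ g c = y ∧
    Function.Injective (fderiv ℂ (fun q => F (g q)) c)

theorem Patch.analyticAt (h : Patch X S T V u' c ρ g) (hF : ∀ i, ∀ y ∈ V, X.Hol (fun y => F y i) y)
    {p : Cm n} (hp : p ∈ ball c ρ) : AnalyticAt ℂ (fun q => F (g q)) p :=
  AnalyticAt.pi fun i => (h.hol p hp).analyticAt (hF i _ (h.mem p hp).2.2)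

theorem Patch.isOpen_map (h : Patch X S T V u' c ρ g)
    (hF : ∀ i, ∀ y ∈ V, X.Hol (fun y => F y i) y)
    {p : Cm n} (hp : p ∈ ball c ρ) (hi : Function.Injective (fderiv ℂ (fun q => F (g q)) p))
    {O : Set (Cm n)} (hO : O ∈ 𝓝 p) : F '' (g '' O) ∈ 𝓝 (F (g p)) := by
  obtain ⟨e, he, hpe, -, -⟩ := H73.exists_localInv (h.analyticAt hF hp) hi
  have h1 : e '' O ∈ 𝓝 (e p) := by
    rw [← e.map_nhds_eq hpe]
    exact image_mem_map hO
  rw [he] at h1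
  rwa [image_image]

theorem good_of_patch (h : Patch X S T V u' c ρ g) {p : Cm n} (hp : p ∈ ball c ρ)
    (hi : Function.Injective (fderiv ℂ (fun q => F (g q)) p)) : GoodAt X S T V F (g p) := by
  obtain ⟨ρ', hρ', hs⟩ := Metric.isOpen_iff.1 isOpen_ball p hp
  exact ⟨u', p, ρ', g, h.shrink hρ' hs, rfl, hi⟩

theorem GoodAt.mem {y : X.pt} (h : GoodAt X S T V F y) : y ∈ S ∧ y ∉ T ∧ y ∈ V := by
  obtain ⟨u', c, ρ, g, hP, rfl, -⟩ := h
  exact hP.mem c (mem_ball_self hP.pos)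

/-- the matrix of an endomorphism of `ℂⁿ` -/
def mt (L : Cm n →L[ℂ] Cm n) : Matrix (Fin n) (Fin n) ℂ := Matrix.of fun i j => L (Pi.single j 1) i

theorem injective_iff_det (L : Cm n →L[ℂ] Cm n) : Function.Injective L ↔ (mt L).det ≠ 0 := by
  have h1 : mt L = LinearMap.toMatrix' (L : Cm n →ₗ[ℂ] Cm n) := by
    ext i j
    rw [LinearMap.toMatrix'_apply]
    rfl
  rw [h1, LinearMap.det_toMatrix']
  constructor
  · intro h
    exact (LinearEquiv.ofInjectiveEndo (L : Cm n →ₗ[ℂ] Cm n) h).isUnit_det'.ne_zero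
  · intro h
    have h2 : LinearMap.ker (L : Cm n →ₗ[ℂ] Cm n) = ⊥ := by
      by_contra hk
      exact h (LinearMap.det_eq_zero_iff_ker_ne_bot.2 hk)
    exact LinearMap.ker_eq_bot.1 h2

theorem analyticAt_det {f : Cm n → Cm n} {p : Cm n} (hf : AnalyticAt ℂ f p) :
    AnalyticAt ℂ (fun q => (mt (fderiv ℂ f q)).det) p := by
  refine H762.analyticAt_det fun i j => ?_
  have h2 := ((ContinuousLinearMap.apply ℂ (Cm n) (Pi.single j (1 : ℂ) : Cm n)).analyticAt _).comp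
    hf.fderiv
  exact ((ContinuousLinearMap.proj (R := ℂ) (φ := fun _ : Fin n => ℂ) i).analyticAt _).comp h2

theorem eventually_injective {f : Cm n → Cm n} {p : Cm n} (hf : AnalyticAt ℂ f p)
    (hi : Function.Injective (fderiv ℂ f p)) : ∀ᶠ q in 𝓝 p, Function.Injective (fderiv ℂ f q) := by
  filter_upwards [(analyticAt_det hf).continuousAt.eventually_ne ((injective_iff_det _).1 hi)]
    with q hq using (injective_iff_det _).2 hq

theorem GoodAt.eventually (hF : ∀ i, ∀ y ∈ V, X.Hol (fun y => F y i) y) {y : X.pt}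
    (h : GoodAt X S T V F y) : ∀ᶠ z in 𝓝 y, z ∈ S → GoodAt X S T V F z := by
  obtain ⟨u', c, ρ, g, hP, rfl, hi⟩ := h
  have hc := mem_ball_self (x := c) hP.pos
  have h1 := eventually_injective (hP.analyticAt hF hc) hi
  filter_upwards [hP.nhd c hc _ (inter_mem h1 (isOpen_ball.mem_nhds hc))] with z hz hzS
  obtain ⟨p, ⟨hp1, hp2⟩, rfl⟩ := hz hzS
  exact good_of_patch hP hp2 hp1

theorem GoodAt.image_mem (hF : ∀ i, ∀ y ∈ V, X.Hol (fun y => F y i) y) {y : X.pt}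
    (h : GoodAt X S T V F y) {N : Set X.pt} (hN : N ∈ 𝓝 y) : F '' (S ∩ N) ∈ 𝓝 (F y) := by
  obtain ⟨u', c, ρ, g, hP, rfl, hi⟩ := h
  have hc := mem_ball_self (x := c) hP.pos
  have hO : g ⁻¹' N ∩ ball c ρ ∈ 𝓝 c := inter_mem ((hP.hol c hc).1 hN) (isOpen_ball.mem_nhds hc)
  refine mem_of_superset (hP.isOpen_map hF hc hi hO) ?_
  rintro _ ⟨_, ⟨p, ⟨hpN, hp⟩, rfl⟩, rfl⟩
  exact ⟨g p, ⟨(hP.mem p hp).1, hpN⟩, rfl⟩

/-- local sections at good points -/
theorem GoodAt.section (hF : ∀ i, ∀ y ∈ V, X.Hol (fun y => F y i) y) {y : X.pt}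
    (h : GoodAt X S T V F y) : ∃ s : Cm n → X.pt, HolAt X s (F y) ∧ s (F y) = y ∧
      ∀ᶠ z in 𝓝 (F y), s z ∈ S ∧ s z ∉ T ∧ s z ∈ V ∧ F (s z) = z := by
  obtain ⟨u', c, ρ, g, hP, rfl, hi⟩ := h
  have hc := mem_ball_self (x := c) hP.pos
  obtain ⟨e, he, hpe, -, he'⟩ := H73.exists_localInv (hP.analyticAt hF hc) hi
  have hec : e c = F (g c) := by rw [he]
  have ht : F (g c) ∈ e.target := hec ▸ e.map_source hpe
  have hsy : e.symm (F (g c)) = c := by rw [← hec, e.left_inv hpe]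
  refine ⟨fun z => g (e.symm z), ?_, by simp only [hsy], ?_⟩
  · have h1 : HolAt X g (e.symm (F (g c))) := by rw [hsy]; exact hP.hol c hc
    exact h1.comp (he' _ ht)
  · have h2 : ∀ᶠ z in 𝓝 (F (g c)), e.symm z ∈ ball c ρ := by
      have h3 := e.continuousAt_symm ht
      refine h3.eventually_mem ?_
      rw [hsy]
      exact isOpen_ball.mem_nhds hc
    filter_upwards [h2, e.open_target.mem_nhds ht] with z hz hzt
    refine ⟨(hP.mem _ hz).1, (hP.mem _ hz).2.1, (hP.mem _ hz).2.2, ?_⟩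
    have h4 := e.right_inv hzt
    rw [he] at h4
    exact h4

end H884.PH

end Vale.Agent.P277
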