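import Vale.Agent.P277.H884.Min3
import Vale.Agent.P277.H29.D5
import Vale.Agent.P277.H619.Jet

/-!
# P277, TX-MIN: existence of admissible coverings, preparations
-/

open scoped Manifold ContDiff Topology
open Vale.Agent.P272.K Vale.Agent.P285.H281.FD Set Filter Metric

noncomputable section

namespace Vale.Agent.P277.TX

open H619 (dfr)

/-- A parametrised piece of a two-dimensional analytic set. -/
theorem exists_patch {X : CSp} {S U₀ : Set X.pt} (hU₀ : IsOpen U₀) (hSan : IsAn X univ S)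
    (hS2 : DimLe X 2 (S ∩ U₀)) (hS1 : ¬ DimLe X 1 (S ∩ U₀)) :
    ∃ (U : Set X.pt) (N k : ℕ) (ζ : Fin N → X.pt → ℂ) (f : Fin k → X.pt → ℂ) (g : Cm 2 → X.pt)
      (b : Cm 2), U ⊆ U₀ ∧ IsCoord X U ζ ∧ (∀ i, ∀ y ∈ U, X.Hol (f i) y) ∧
      (∀ y ∈ U, (y ∈ S ↔ ∀ i, f i y = 0)) ∧ (∀ᶠ p in 𝓝 b, HolAt X g p ∧ g p ∈ U ∧ g p ∈ S) ∧
      Function.Injective (fderiv ℂ (fun q a => ζ a (g q)) b) := by
  have : Nonempty X.pt := hS2.nonempty
  have hB1 : StB1 := H622.stB1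
  have key : ∀ x : {x : X.pt // x ∈ U₀}, ∃ (U : Set X.pt) (N k : ℕ) (ζ : Fin N → X.pt → ℂ)
      (f : Fin k → X.pt → ℂ), x.1 ∈ U ∧ U ⊆ U₀ ∧ IsCoord X U ζ ∧ (∀ i, ∀ y ∈ U, X.Hol (f i) y) ∧
      ∀ y ∈ U, (y ∈ S ↔ ∀ i, f i y = 0) := by
    rintro ⟨x, hxU₀⟩
    obtain ⟨N, V, ζ, hx, hζ⟩ := exists_isCoord X x
    obtain ⟨k, f, hf, hfS⟩ := hSan x (mem_univ x)
    have h1 : ∀ᶠ y in 𝓝 x, y ∈ U₀ ∧ y ∈ V ∧ (∀ i, X.Hol (f i) y) ∧ (y ∈ S ↔ ∀ i, f i y = 0) :=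
      (hU₀.eventually_mem hxU₀).and ((hζ.isOpen.eventually_mem hx).and
        ((eventually_all.2 fun i => hol_eventually (hf i)).and hfS))
    obtain ⟨U, hU, hUo, hxU⟩ := eventually_nhds_iff.1 h1
    exact ⟨U, N, k, ζ, f, hxU, fun y hy => (hU y hy).1, hζ.mono hUo fun y hy => (hU y hy).2.1,
      fun i y hy => (hU y hy).2.2.1 i, fun y hy => (hU y hy).2.2.2⟩
  choose U N k ζ f hxU hUU hζ hf hfS using key
  obtain ⟨κ, hκ, c, r, g, i, hr, hg, hgU, hcov⟩ := hS2.refine (U := U) (fun x => (hζ x).isOpen)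
      (fun x hx => mem_iUnion.2 ⟨⟨x, hx.2⟩, hxU _⟩)
  have hpiece : ∃ a, ¬ DimLe X 1 (S ∩ g a '' Metric.ball (c a) (r a)) := by
    by_contra hcon
    push Not at hcon
    apply hS1
    refine (dimLe_iUnion hcon).mono fun x hx => ?_
    obtain ⟨a, ha⟩ := mem_iUnion.1 (hcov hx)
    exact mem_iUnion.2 ⟨a, hx.1, ha⟩
  obtain ⟨a, ha⟩ := hpiece
  have hga : ∀ p ∈ Metric.ball (c a) (r a), HolAt X (g a) p := fun p hp =>
    hg a p (Metric.ball_subset_closedBall hp)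
  have hgaU : ∀ p ∈ Metric.ball (c a) (r a), g a p ∈ U (i a) := fun p hp =>
    hgU a p (Metric.ball_subset_closedBall hp)
  have hsub : ∀ p ∈ Metric.ball (c a) (r a), ∀ l, f (i a) l (g a p) = 0 := by
    by_contra hcon
    push Not at hcon
    obtain ⟨p, hp, l, hl⟩ := hcon
    apply ha
    refine (H73.dimLe_image_zeros hB1 hga (F := fun q => f (i a) l (g a q))
      (fun q hq => (hga q hq).analyticAt (hf _ _ _ (hgaU q hq))) ⟨p, hp, hl⟩).mono ?_
    rintro _ ⟨hxS, q, hq, rfl⟩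
    exact ⟨q, ⟨hq, (hfS _ _ (hgaU q hq)).1 hxS l⟩, rfl⟩
  have hgS : ∀ p ∈ Metric.ball (c a) (r a), g a p ∈ S := fun p hp =>
    (hfS _ _ (hgaU p hp)).2 (hsub p hp)
  have hG : ∀ p ∈ Metric.ball (c a) (r a), AnalyticAt ℂ (fun q b => ζ (i a) b (g a q)) p := by
    intro p hp
    exact AnalyticAt.pi fun b => (hga p hp).analyticAt ((hζ (i a)).hol b _ (hgaU p hp))
  have hrk : ∃ p ∈ Metric.ball (c a) (r a),
      Function.Injective (fderiv ℂ (fun q b => ζ (i a) b (g a q)) p) := by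
    by_contra hcon
    push Not at hcon
    apply ha
    refine (H73.dimLe_one_of_rank hB1 (V := U (i a)) (φ := fun y b => ζ (i a) b y)
      (hζ (i a)).injOn hga hgaU hG fun p hp => ?_).mono inter_subset_right
    have h1 := hcon p hp
    rw [injective_iff_map_eq_zero] at h1
    push Not at h1
    obtain ⟨v, hv, hv0⟩ := h1
    exact ⟨v, hv0, hv⟩
  obtain ⟨p, hp, hinj⟩ := hrk
  refine ⟨U (i a), N (i a), k (i a), ζ (i a), f (i a), g a, p, hUU _, hζ _, hf _, hfS _, ?_,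
    hinj⟩
  filter_upwards [isOpen_ball.mem_nhds hp] with q hq
  exact ⟨hga q hq, hgaU q hq, hgS q hq⟩

section manifold

variable {Y : Type} [TopologicalSpace Y] [ChartedSpace (Cm 4) Y] {X : CSp} {O : Set Y}
  {v : Y → X.pt}

/-- the manifold part has dimension four -/
theorem dimLe_four [Nonempty X.pt] (hv : IsOpenEmb X O v) : DimLe X 4 (v '' O) := by
  obtain ⟨T, hT, hTU⟩ := TopologicalSpace.isOpen_iUnion_countable
    (fun y : O => v '' (O ∩ (chartAt (Cm 4) y.1).source)) fun y =>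
      hv.isOpenMap _ inter_subset_left (hv.isOpen.inter (chartAt (Cm 4) y.1).open_source)
  refine (dimLe_biUnion (d := 4) hT (T := fun y : O => v '' (O ∩ (chartAt (Cm 4) y.1).source))
    fun y _ => ?_).mono ?_
  · set e : Chart 4 Y := chartAt (Cm 4) y.1 with he
    have hea : e ∈ atlas (Cm 4) Y := chart_mem_atlas _ _
    refine ⟨fun _ => e.target ∩ e.symm ⁻¹' O, fun _ z => v (e.symm z),
      fun _ => e.isOpen_inter_preimage_symm hv.isOpen, fun _ z hz => ?_, ?_⟩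
    · have h1 := hv.holAt (y := e.symm z) hz.2 ⟨hea, e.map_target hz.1⟩
      rwa [e.right_inv hz.1] at h1
    · rintro _ ⟨y', ⟨hy'O, hy'e⟩, rfl⟩
      refine mem_iUnion.2 ⟨0, e y', ⟨e.map_source hy'e, ?_⟩, ?_⟩
      · rw [mem_preimage, e.left_inv hy'e]; exact hy'O
      · simp only [e.left_inv hy'e]
  · rw [hTU]
    rintro _ ⟨y, hy, rfl⟩
    exact mem_iUnion.2 ⟨⟨y, hy⟩, y, ⟨hy, mem_chart_source _ _⟩, rfl⟩

omit [TopologicalSpace Y] [ChartedSpace (Cm 4) Y] in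
/-- a countable dense family of points of the manifold part -/
theorem exists_denseFamily {U : Set X.pt} (hU : IsOpen U) (hd : Dense (v '' O)) :
    ∃ (I : Type) (_ : Countable I) (D : I → Y), (∀ i, D i ∈ O ∧ v (D i) ∈ U) ∧
      ∀ W : Set X.pt, IsOpen W → W ⊆ U → W.Nonempty → ∃ i, v (D i) ∈ W := by
  let I : Type := {B : Set X.pt // B ∈ TopologicalSpace.countableBasis X.pt ∧ (B ∩ U).Nonempty}
  have hI : Countable I := by
    have h1 := TopologicalSpace.countable_countableBasis X.pt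
    exact (h1.mono fun B (hB : B ∈ TopologicalSpace.countableBasis X.pt ∧ (B ∩ U).Nonempty) =>
      hB.1).to_subtype
  have key : ∀ B : I, ∃ y ∈ O, v y ∈ B.1 ∩ U := by
    intro B
    have h1 : IsOpen (B.1 ∩ U) := (TopologicalSpace.isOpen_of_mem_countableBasis B.2.1).inter hU
    obtain ⟨_, h2, ⟨y, hy, rfl⟩⟩ := hd.inter_open_nonempty _ h1 B.2.2
    exact ⟨y, hy, h2⟩
  choose D hDO hDU using key
  refine ⟨I, hI, D, fun i => ⟨hDO i, (hDU i).2⟩, fun W hW hWU hWn => ?_⟩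
  obtain ⟨x, hx⟩ := hWn
  obtain ⟨B, hB, hxB, hBW⟩ := (TopologicalSpace.isBasis_countableBasis X.pt).mem_nhds_iff.1
    (hW.mem_nhds hx)
  exact ⟨⟨B, hB, x, hxB, hWU hx⟩, hBW (hDU ⟨B, hB, x, hxB, hWU hx⟩).1⟩

end manifold

/-- Generic members of a family of functions cut down dimensions. -/
theorem exists_cut {X : CSp} {U : Set X.pt} (hU : IsOpen U) {M : ℕ} (hM : M ≠ 0)
    {F : Fin M → X.pt → ℂ} (hF : ∀ m, ∀ y ∈ U, X.Hol (F m) y) {d : ℕ} {T : Set X.pt}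
    (hTU : T ⊆ U) (hT : DimLe X (d + 1) T) {p : X.pt} (hp : ∀ x ∈ T, x ≠ p → ∃ m, F m x ≠ 0) :
    ∃ H : ℕ → Submodule ℂ (Fin M → ℂ), (∀ k, H k ≠ ⊤) ∧
      ∀ w, (∀ k, w ∉ H k) → DimLe X d {x | x ∈ T ∧ ∑ m, w m * F m x = 0} := by
  obtain ⟨H, h1, h2⟩ := H73.stC1_final X (H29.triv X.pt) (H29.isLBx_triv X) U hU M hM
    (fun m _ => F m) (fun m => ⟨fun _ y hy _ => hF m y hy, fun _ _ y _ _ _ => by
      simp [H29.triv]⟩) d T hTU hT p fun x hx hxp => by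
        obtain ⟨m, hm⟩ := hp x hx hxp
        exact ⟨m, (), mem_univ _, hm⟩
  refine ⟨H, h1, fun w hw => (h2 w hw).mono ?_⟩
  rintro x ⟨hx, hx0⟩
  exact ⟨hx, (), mem_univ _, hx0⟩

theorem choose_step {X : CSp} {U : Set X.pt} (hU : IsOpen U) {M : ℕ} (hM : M ≠ 0)
    {F : Fin M → X.pt → ℂ} (hF : ∀ m, ∀ y ∈ U, X.Hol (F m) y) {d₁ d₂ : ℕ} {T₁ T₂ : Set X.pt}
    (hTU₁ : T₁ ⊆ U) (hT₁ : DimLe X (d₁ + 1) T₁) (hTU₂ : T₂ ⊆ U) (hT₂ : DimLe X (d₂ + 1) T₂)
    {p : X.pt} (hp₁ : ∀ x ∈ T₁, x ≠ p → ∃ m, F m x ≠ 0)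
    (hp₂ : ∀ x ∈ T₂, x ≠ p → ∃ m, F m x ≠ 0) {ι : Type} [Countable ι]
    (K : ι → Submodule ℂ (Fin M → ℂ)) (hK : ∀ i, K i ≠ ⊤) :
    ∃ w, DimLe X d₁ {x | x ∈ T₁ ∧ ∑ m, w m * F m x = 0} ∧
      DimLe X d₂ {x | x ∈ T₂ ∧ ∑ m, w m * F m x = 0} ∧ ∀ i, w ∉ K i := by
  obtain ⟨H₁, h11, h12⟩ := exists_cut hU hM hF hTU₁ hT₁ hp₁
  obtain ⟨H₂, h21, h22⟩ := exists_cut hU hM hF hTU₂ hT₂ hp₂
  obtain ⟨w, hw⟩ := H619.avoid (ι := (ℕ ⊕ ℕ) ⊕ ι) (Sum.elim (Sum.elim H₁ H₂) K) (by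
    rintro ((k | k) | i)
    · exact h11 k
    · exact h21 k
    · exact hK i)
  exact ⟨w, h12 w fun k => hw (Sum.inl (Sum.inl k)), h22 w fun k => hw (Sum.inl (Sum.inr k)),
    fun i => hw (Sum.inr i)⟩

/-- an injective derivative: the differentials of the components span -/
theorem span_components {n N : ℕ} {D : Cm n →L[ℂ] Cm N} (hD : Function.Injective D) :
    Submodule.span ℂ (range fun a => (ContinuousLinearMap.proj (R := ℂ) (φ := fun _ : Fin N => ℂ)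
      a).comp D) = ⊤ := by
  rw [eq_top_iff]
  rintro ℓ -
  obtain ⟨L, hL⟩ := (D : Cm n →ₗ[ℂ] Cm N).exists_leftInverse_of_injective
    (LinearMap.ker_eq_bot.2 hD)
  have h1 : ℓ = ∑ a, ℓ (L (Pi.single a 1)) • (ContinuousLinearMap.proj (R := ℂ)
      (φ := fun _ : Fin N => ℂ) a).comp D := by
    ext z
    simp only [sum_apply, smul_apply, ContinuousLinearMap.comp_apply,
      ContinuousLinearMap.proj_apply, smul_eq_mul]
    have h2 : L (D z) = z := by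
      have := congrArg (fun f : Cm n →ₗ[ℂ] Cm n => f z) hL
      simpa using this
    conv_lhs => rw [← h2, show D z = ∑ a, (D z a) • (Pi.single a (1 : ℂ) : Cm N) by
      funext b; simp [Finset.sum_apply, Pi.single_apply]]
    rw [map_sum, map_sum]
    refine Finset.sum_congr rfl fun a _ => ?_
    rw [map_smul, map_smul, smul_eq_mul, mul_comm]
  rw [h1]
  exact Submodule.sum_mem _ fun a _ => Submodule.smul_mem _ _ (Submodule.subset_span ⟨a, rfl⟩)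

/-- spans of few vectors are proper subspaces -/
theorem span_ne_top_of_lt {E : Type*} [AddCommGroup E] [Module ℂ E] [FiniteDimensional ℂ E] {k : ℕ}
    (b : Fin k → E) (hk : k < Module.finrank ℂ E) : Submodule.span ℂ (range b) ≠ ⊤ := by
  intro htop
  have h1 : Module.finrank ℂ (Submodule.span ℂ (range b)) ≤ k := by
    have := finrank_range_le_card (R := ℂ) b
    simpa [Set.finrank] using this
  rw [htop, finrank_top] at h1
  omega

theorem finrank_dual (n : ℕ) : Module.finrank ℂ (Cm n →L[ℂ] ℂ) = n := by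
  have h1 : Module.finrank ℂ (Cm n →L[ℂ] ℂ) = Module.finrank ℂ (Cm n →ₗ[ℂ] ℂ) :=
    (LinearMap.toContinuousLinearMap (E := Cm n) (F' := ℂ) (𝕜 := ℂ)).finrank_eq.symm
  rw [h1, Module.finrank_linearMap]
  simp

instance (n : ℕ) : FiniteDimensional ℂ (Cm n →L[ℂ] ℂ) :=
  (LinearMap.toContinuousLinearMap (E := Cm n) (F' := ℂ) (𝕜 := ℂ)).finiteDimensional

/-- two independent linear forms on `ℂ²` have no common zeros -/
theorem injective_pair {A B : Cm 2 →L[ℂ] ℂ} (h : LinearIndependent ℂ ![A, B]) {z : Cm 2}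
    (hA : A z = 0) (hB : B z = 0) : z = 0 := by
  have h1 : Submodule.span ℂ (range ![A, B]) = ⊤ :=
    h.span_eq_top_of_card_eq_finrank (by rw [finrank_dual]; simp)
  have h2 : ∀ ℓ : Cm 2 →L[ℂ] ℂ, ℓ z = 0 := by
    intro ℓ
    have h3 : ℓ ∈ Submodule.span ℂ (range ![A, B]) := by rw [h1]; trivial
    induction h3 using Submodule.span_induction with
    | mem x hx =>
      obtain ⟨i, rfl⟩ := hx
      fin_cases i
      · exact hA
      · exact hB
    | zero => rfl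
    | add x y _ _ hx hy => rw [add_apply, hx, hy, add_zero]
    | smul a x _ hx => rw [smul_apply, hx, smul_zero]
  ext i
  exact h2 (ContinuousLinearMap.proj (R := ℂ) (φ := fun _ : Fin 2 => ℂ) i)

end Vale.Agent.P277.TX
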