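import Vale.Agent.P277.Stmts2
import Vale.Agent.P277.A.Dim

/-!
# P277, TB: functions and sections on the two sides of a flip
-/

open scoped Manifold ContDiff Topology
open Vale.Agent.P272.K Vale.Agent.P285.H281.FD Set Filter

noncomputable section

namespace Vale.Agent.P277.H884

variable {X Z X' : CSp} {f : X.pt → Z.pt} {f' : X'.pt → Z.pt} {A : Set Z.pt}

theorem dense_compl_preimage (hX : IsNormal 4 X) (hf : IsSmall X Z f A) : Dense (f ⁻¹' A)ᶜ :=
  dense_compl_of_dimLe (by norm_num : 2 < 4) hX.dense hf.dim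

theorem dimLe_base (hf : IsSmall X Z f A) : DimLe Z 2 A := by
  refine (hf.dim.image fun x _ => hf.holMap x).mono fun z hz => ?_
  obtain ⟨x, rfl⟩ := hf.surj z
  exact ⟨x, hz, rfl⟩

/-- (D1) `f_* O_X = O_Z`. -/
theorem descend (hX : IsNormal 4 X) (hZ : IsNormal 4 Z) (hf : IsSmall X Z f A) {V : Set Z.pt}
    (hV : IsOpen V) {h : X.pt → ℂ} (hh : ∀ x, f x ∈ V → X.Hol h x) :
    ∃ g : Z.pt → ℂ, (∀ z ∈ V, Z.Hol g z) ∧ ∀ x, f x ∈ V → g (f x) = h x := by
  obtain ⟨g, hg, hg'⟩ := hZ.ext V A hV (hf.an.mono (subset_univ _))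
    ((dimLe_base hf).mono inter_subset_right) (h ∘ hf.sec) fun z hz =>
      (hf.holMap_sec hz.2).2 h (hh _ (by rw [hf.sec_eq]; exact hz.1))
  refine ⟨g, hg, fun x hx => ?_⟩
  refine (eventuallyEq_of_dense (f := g ∘ f) (g := h) (dense_compl_preimage hX hf)
    ((hf.holMap x).2 g (hg _ hx)) (hh x hx) ?_).self_of_nhds
  filter_upwards [hf.cont.continuousAt.eventually (hV.mem_nhds hx)] with y hy hyA
  simp only [Function.comp, hg' _ ⟨hy, hyA⟩, hf.sec_apply hyA]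

/-- gluing of functions defined in frames -/
theorem glue {L : Bd X.pt} (hL : IsLBx X L) {V : Set X.pt} (hV : IsOpen V) (P : L.ι → X.pt → ℂ)
    (hP : ∀ i x, x ∈ V → x ∈ L.U i → X.Hol (P i) x)
    (hc : ∀ i j x, x ∈ V → x ∈ L.U i → x ∈ L.U j → P i x = P j x) :
    ∃ F : X.pt → ℂ, (∀ x ∈ V, X.Hol F x) ∧ ∀ i x, x ∈ V → x ∈ L.U i → F x = P i x := by
  choose a ha using hL.cover
  have h1 : ∀ i x, x ∈ V → x ∈ L.U i → P (a x) x = P i x := fun i x hx hi =>
    hc _ _ x hx (ha x) hi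
  refine ⟨fun x => P (a x) x, fun x hx => ?_, h1⟩
  refine hol_congr (hP (a x) x hx (ha x)) ?_
  filter_upwards [hV.mem_nhds hx, (hL.isOpen (a x)).mem_nhds (ha x)] with y hy hy'
  exact h1 _ y hy hy'

/-- (D2) transport of sections to the other side. -/
theorem transport {L : Bd X.pt} {L' : Bd X'.pt} (hX : IsNormal 4 X) (hf : IsSmall X Z f A)
    (hf' : IsSmall X' Z f' A) (hL : IsLBx X L) (hL' : IsLBx X' L') {t : L.ι → L'.ι → Z.pt → ℂ}
    (ht : IsIso f f' A L L' t) {V : Set Z.pt} (hV : IsOpen V) {k : ℕ} {σ : L'.ι → X'.pt → ℂ}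
    (hσ : IsSecx X' (f' ⁻¹' V) (L'.pow k) σ) :
    ∃ τ : L.ι → X.pt → ℂ, IsSecx X (f ⁻¹' V) (L.pow k) τ ∧
      ∀ x x' i j, f x ∈ V → f x ∉ A → f' x' = f x → x ∈ L.U i → x' ∈ L'.U j →
        σ j x' = τ i x * t i j (f x) ^ k := by
  choose b hb using hL'.cover
  -- the formula off `A`
  set τ₀ : L.ι → X.pt → ℂ := fun i x =>
    σ (b (hf'.sec (f x))) (hf'.sec (f x)) / t i (b (hf'.sec (f x))) (f x) ^ k with hτ₀
  have hgii : ∀ i x, x ∈ L.U i → L.g i i x = 1 := fun i x hx => by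
    have h1 := hL.cocycle i i i x hx hx hx
    have h2 := hL.ne_zero i i x hx hx
    field_simp at h1
    exact h1
  have key : ∀ x i j, f x ∈ V → f x ∉ A → x ∈ L.U i → hf'.sec (f x) ∈ L'.U j →
      τ₀ i x = σ j (hf'.sec (f x)) / t i j (f x) ^ k := by
    intro x i j hxV hxA hi hj
    set x' := hf'.sec (f x) with hx'
    have hfx' : f' x' = f x := hf'.sec_eq _
    have h1 := ht.change x x' i i j (b x') hxA hfx' hi hi hj (hb x')
    have h2 := hσ.change (b x') j x' (by rw [mem_preimage, hfx']; exact hxV) (hb x') hj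
    have h3 := (ht.holo x x' i j hxA hfx' hi hj).2
    have h4 := (ht.holo x x' i (b x') hxA hfx' hi (hb x')).2
    have h5 := hL'.ne_zero (b x') j x' (hb x') hj
    rw [hgii i x hi, one_mul] at h1
    change σ (b x') x' = L'.g (b x') j x' ^ k * σ j x' at h2
    change σ (b x') x' / t i (b x') (f x) ^ k = _
    rw [h1, h2, mul_pow]
    field_simp
  have hhol : ∀ i x, f x ∈ V → f x ∉ A → x ∈ L.U i → X.Hol (τ₀ i) x := by
    intro i x hxV hxA hi
    set x' := hf'.sec (f x) with hx'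
    have hfx' : f' x' = f x := hf'.sec_eq _
    have hsec : HolMap Z X' hf'.sec (f x) := hf'.holMap_sec hxA
    have h1 : Z.Hol (σ (b x') ∘ hf'.sec) (f x) :=
      hsec.2 _ (hσ.holo (b x') x' (by rw [mem_preimage, hfx']; exact hxV) (hb x'))
    have h2 : X.Hol ((σ (b x') ∘ hf'.sec) ∘ f) x := (hf.holMap x).2 _ h1
    have h3 : X.Hol (t i (b x') ∘ f) x :=
      (hf.holMap x).2 _ (ht.holo x x' i (b x') hxA hfx' hi (hb x')).1
    have h4 := (ht.holo x x' i (b x') hxA hfx' hi (hb x')).2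
    refine hol_congr (hol_div h2 (hol_pow h3 k) (pow_ne_zero k h4)) ?_
    have e1 : ∀ᶠ y in 𝓝 x, f y ∈ V := hf.cont.continuousAt.eventually (hV.mem_nhds hxV)
    have e2 : ∀ᶠ y in 𝓝 x, f y ∉ A :=
      hf.cont.continuousAt.eventually (hf.isClosed.isOpen_compl.mem_nhds hxA)
    have e3 : ∀ᶠ y in 𝓝 x, hf'.sec (f y) ∈ L'.U (b x') :=
      hf.cont.continuousAt.eventually (hsec.1.eventually ((hL'.isOpen _).mem_nhds (hb x')))
    filter_upwards [e1, e2, e3, (hL.isOpen i).mem_nhds hi] with y h5 h6 h7 h8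
    exact key y i (b x') h5 h6 h8 h7
  have hext : ∀ i, ∃ g : X.pt → ℂ, (∀ x ∈ f ⁻¹' V ∩ L.U i, X.Hol g x) ∧
      ∀ x ∈ (f ⁻¹' V ∩ L.U i) \ f ⁻¹' A, g x = τ₀ i x := fun i =>
    hX.ext _ _ ((hV.preimage hf.cont).inter (hL.isOpen i))
      ((IsAn.preimage (fun x => hf.holMap x) hf.an).mono (subset_univ _))
      (hf.dim.mono inter_subset_right) _ fun x hx => hhol i x hx.1.1 hx.2 hx.1.2
  choose τ hτ hτ' using hext
  have hrel : ∀ x x' i j, f x ∈ V → f x ∉ A → f' x' = f x → x ∈ L.U i → x' ∈ L'.U j →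
      σ j x' = τ i x * t i j (f x) ^ k := by
    intro x x' i j hxV hxA hxx' hi hj
    have h1 : x' = hf'.sec (f x) := by rw [← hxx', hf'.sec_apply (by rw [hxx']; exact hxA)]
    have h4 := (ht.holo x x' i j hxA hxx' hi hj).2
    rw [hτ' i x ⟨⟨hxV, hi⟩, hxA⟩, key x i j hxV hxA hi (h1 ▸ hj), ← h1,
      div_mul_cancel₀ _ (pow_ne_zero k h4)]
  refine ⟨τ, ⟨fun i x hx hi => hτ i x ⟨hx, hi⟩, fun i j x hx hi hj => ?_⟩, hrel⟩
  have h1 : X.Hol (fun y => L.g i j y ^ k * τ j y) x :=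
    hol_mul (hol_pow (hL.holo i j x hi hj) k) (hτ j x ⟨hx, hj⟩)
  refine (eventuallyEq_of_dense (dense_compl_preimage hX hf) (hτ i x ⟨hx, hi⟩) h1
    ?_).self_of_nhds
  have e1 : ∀ᶠ y in 𝓝 x, f y ∈ V := hf.cont.continuousAt.eventually (hV.mem_nhds hx)
  filter_upwards [e1, (hL.isOpen i).mem_nhds hi, (hL.isOpen j).mem_nhds hj] with y h2 h3 h4 hyA
  set y' := hf'.sec (f y) with hy'
  have hfy' : f' y' = f y := hf'.sec_eq _
  have h5 := hrel y y' i (b y') h2 hyA hfy' h3 (hb y')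
  have h6 := hrel y y' j (b y') h2 hyA hfy' h4 (hb y')
  have h7 := ht.change y y' i j (b y') (b y') hyA hfy' h3 h4 (hb y') (hb y')
  have h8 := (ht.holo y y' i (b y') hyA hfy' h3 (hb y')).2
  have h9 := (ht.holo y y' j (b y') hyA hfy' h4 (hb y')).2
  have h10 : L'.g (b y') (b y') y' = 1 := by
    have h1 := hL'.cocycle (b y') (b y') (b y') y' (hb y') (hb y') (hb y')
    have h2 := hL'.ne_zero (b y') (b y') y' (hb y') (hb y')
    field_simp at h1
    exact h1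
  rw [h10, mul_one] at h7
  rw [h5, h7, mul_pow] at h6
  have h11 : t i (b y') (f y) ^ k ≠ 0 := pow_ne_zero k h8
  refine mul_right_cancel₀ h11 ?_
  rw [h6]
  ring

end Vale.Agent.P277.H884
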