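import Vale.Agent.P277.H884.F5p
import Vale.Agent.P277.H29.F4p

/-!
# P277, R'': the package (F'')
-/

set_option maxSynthPendingDepth 3

open scoped Manifold ContDiff Topology
open Vale.Agent.P272.K Vale.Agent.P285.H281.FD Vale.Agent.P267.H175 Set Filter
open Vale.Agent.P267.H928.Int ContinuousAlternatingMap

noncomputable section

namespace Vale.Agent.P277.H884.F

open Vale.Agent.P277 Vale.Agent.P277.H619

theorem PropMap.holMap {Y : Type} [TopologicalSpace Y] [ChartedSpace (Cm 4) Y] {X : CSp}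
    {W : Set Y} {v : Y → X.pt} {τ : Set X.pt} (h : PropMap X W v τ) : HolMap X W v :=
  ⟨h.isOpen, h.cont, fun y hy g hg e he => h.hol y hy e he g hg⟩

/-- (F'') -/
theorem stF2 : StF2 := by
  intro Y _ _ _ _ _ X W v τ hv P Q G s s' σ σ' x₀ hf
  obtain ⟨n, F, C₀, hF, hC₀, hC₀c, hF2, hmain⟩ := stTup2 Y X W v τ hv P Q G s s' σ σ' x₀ hf
  have hvH := PropMap.holMap hv
  have hvG : IsOpen (W ∩ v ⁻¹' G) := hv.cont.isOpen_inter_preimage hv.isOpen hf.isOpen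
  have hv' : HolMap X (W ∩ v ⁻¹' G) v := hvH.mono hvG inter_subset_left
  have gP := goodB' hvH hf.lbP
  have gQ := goodB' hv' hf.lbQ
  refine ⟨eta v P W F, ccf_eta gP hF hC₀ hC₀c hF2, fun C hC hCc hdis => ?_⟩
  obtain ⟨n', F', C', hF', hC', hC'c, hdj, hF'2, hrad, i, j, c, c', hi, hj, hr, hjac⟩ :=
    hmain C hC hCc hdis
  have cθ := ccf_eta gQ hF' hC' hC'c hF'2
  refine ⟨eta v Q (W ∩ v ⁻¹' G) F', ⟨cθ.sm, cθ.closed, C', fun y hy => (hC' hy).1, hC'c,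
    fun y hy => eta_zero_of gQ hF' hC'c.isClosed hF'2 hy⟩, fun y hy => ?_, ?_⟩
  · exact eta_zero_of gQ hF' hC'c.isClosed hF'2 fun h => Set.disjoint_left.1 hdj h hy
  have hx₀ : x₀ ∈ G := hf.mem.1.1
  have hz : ∀ {L : Bd X.pt} {u : L.ι → X.pt → ℂ}, IsSecx X G L u → x₀ ∈ Zs L u → ∀ i,
      x₀ ∈ L.U i → u i x₀ = 0 := by
    intro L u hu ⟨k, hk, hk0⟩ i hi
    rw [hu.change i k x₀ hx₀ hi hk, hk0, mul_zero]
  -- positivity of the cut-offs near `x₀`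
  have key : ∀ (a b : X.pt → ℂ) (c : ℝ → ℝ), X.Hol a x₀ → X.Hol b x₀ → a x₀ = 0 → b x₀ = 0 →
      Continuous c → 0 < c 0 → ∀ᶠ x in 𝓝 x₀, 0 < c (‖a x‖ ^ 2 + ‖b x‖ ^ 2) := by
    intro a b c ha hb ha0 hb0 hc hc0
    have h1 : ContinuousAt (fun x => c (‖a x‖ ^ 2 + ‖b x‖ ^ 2)) x₀ :=
      hc.continuousAt.comp (((hol_continuousAt ha).norm.pow 2).add
        ((hol_continuousAt hb).norm.pow 2))
    refine h1.eventually_const_lt ?_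
    simp only [ha0, hb0, norm_zero]
    norm_num
    exact hc0
  have hRad : ∀ᶠ x in 𝓝 x₀, (∀ y ∈ W, v y = x →
      Rad (fun m => F m i) (fun y => s i (v y)) (fun y => s' i (v y)) y c ∧
      Rad (fun m => F' m j) (fun y => σ j (v y)) (fun y => σ' j (v y)) y c') ∧
      (∀ y ∈ W, v y = x → 0 < c (‖s i x‖ ^ 2 + ‖s' i x‖ ^ 2)) ∧
      (∀ y ∈ W, v y = x → 0 < c' (‖σ j x‖ ^ 2 + ‖σ' j x‖ ^ 2)) := by
    -- some point near `x₀` shows that `c`, `c'` are cut-off functions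
    obtain ⟨N, hN, hNo, hx₀N⟩ := eventually_nhds_iff.1 hr
    obtain ⟨y, hyW, ⟨⟨hyN, -⟩, -⟩, -⟩ := hjac N hNo hx₀N
    obtain ⟨r1, r2⟩ := hN _ hyN y hyW rfl
    filter_upwards [hr, key _ _ c (hf.sec.holo i _ hx₀ hi) (hf.sec'.holo i _ hx₀ hi)
      (hz hf.sec hf.zero.1 i hi) (hz hf.sec' hf.zero.2 i hi) r1.smooth.continuous r1.pos,
      key _ _ c' (hf.secσ.holo j _ hx₀ hj) (hf.secσ'.holo j _ hx₀ hj)
      (hz hf.secσ hf.mem.1.2 j hj) (hz hf.secσ' hf.mem.2 j hj) r2.smooth.continuous r2.pos]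
      with x h1 h2 h3
    exact ⟨h1, fun _ _ _ => h2, fun _ _ _ => h3⟩
  obtain ⟨N, hN, hNo, hx₀N⟩ := eventually_nhds_iff.1 hRad
  obtain ⟨y₁, hy₁W, ⟨⟨hy₁N, hy₁G⟩, hy₁P, hy₁Q⟩, hJ⟩ := hjac N hNo hx₀N
  obtain ⟨h1, h2, h3⟩ := hN _ hy₁N
  obtain ⟨r1, r2⟩ := h1 y₁ hy₁W rfl
  have hpos := pr_pos hvH hf.lbP hf.lbQ hf.isOpen hf.sec hf.sec' hf.secσ hf.secσ' hF hF' hC₀ hC₀c
    hF2 hC' hC'c hF'2 hrad hy₁W hy₁G hy₁P hy₁Q r1 r2 (h2 y₁ hy₁W rfl) (h3 y₁ hy₁W rfl) hJ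
  rw [(H619.stPair Y).comm]
  exact hpos.ne'

end Vale.Agent.P277.H884.F
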