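import Vale.Agent.P277.H884.Desc

/-!
# P277, TB: relatively ample bundles; sections of the dual vanish on the fibres with two points
-/

open scoped Manifold ContDiff Topology
open Vale.Agent.P272.K Vale.Agent.P285.H281.FD Set Filter

noncomputable section

namespace Vale.Agent.P277.H884

variable {X Z X' : CSp} {f : X.pt → Z.pt} {A : Set Z.pt}

/-- The data of relative ampleness of `L⁻¹` over `V`. -/
structure Amp (X Z : CSp) (f : X.pt → Z.pt) (L : Bd X.pt) (V : Set Z.pt) (k N : ℕ)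
    (s : Fin (N + 1) → L.ι → X.pt → ℂ) : Prop where
  sec : ∀ l, IsSecx X (f ⁻¹' V) ((Bd.inv L).pow k) (s l)
  nz : ∀ x i, f x ∈ V → x ∈ L.U i → ∃ l, s l i x ≠ 0
  sep : ∀ x x' i j, f x ∈ V → f x' = f x → x' ≠ x → x ∈ L.U i → x' ∈ L.U j →
      ∃ l m, s l i x * s m j x' ≠ s m i x * s l j x'
  emb : ∀ x i l, f x ∈ V → x ∈ L.U i → s l i x ≠ 0 → ∀ h, X.Hol h x →
      ∃ (M : ℕ) (g : Fin M → Z.pt → ℂ) (G : Cm M × Cm (N + 1) → ℂ),
        (∀ a, Z.Hol (g a) (f x)) ∧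
        AnalyticAt ℂ G (fun a => g a (f x), fun m => s m i x / s l i x) ∧
        h =ᶠ[𝓝 x] fun y => G (fun a => g a (f y), fun m => s m i y / s l i y)

theorem Amp.mono {L : Bd X.pt} {V V' : Set Z.pt} {k N : ℕ} {s : Fin (N + 1) → L.ι → X.pt → ℂ}
    (h : Amp X Z f L V k N s) (hV : V' ⊆ V) : Amp X Z f L V' k N s where
  sec l := ⟨fun i x hx => (h.sec l).holo i x (hV hx), fun i j x hx => (h.sec l).change i j x (hV hx)⟩
  nz x i hx := h.nz x i (hV hx)
  sep x x' i j hx := h.sep x x' i j (hV hx)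
  emb x i l hx := h.emb x i l (hV hx)

theorem isSecx_mono {L : Bd X.pt} {V V' : Set X.pt} {s : L.ι → X.pt → ℂ} (h : IsSecx X V L s)
    (hV : V' ⊆ V) : IsSecx X V' L s :=
  ⟨fun i x hx => h.holo i x (hV hx), fun i j x hx => h.change i j x (hV hx)⟩

/-- Products of sections of `L^{-k}` and of a section of `L^{k (n + 1)}` come from `Z`. -/
theorem Amp.exists_fun {L : Bd X.pt} {V : Set Z.pt} {k N : ℕ} {s : Fin (N + 1) → L.ι → X.pt → ℂ}
    (h : Amp X Z f L V k N s) (hX : IsNormal 4 X) (hZ : IsNormal 4 Z) (hf : IsSmall X Z f A)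
    (hL : IsLBx X L) (hV : IsOpen V) {n : ℕ} {τ : L.ι → X.pt → ℂ}
    (hτ : IsSecx X (f ⁻¹' V) (L.pow (k * (n + 1))) τ) (l m : Fin (N + 1)) :
    ∃ g : Z.pt → ℂ, (∀ z ∈ V, Z.Hol g z) ∧
      ∀ x i, f x ∈ V → x ∈ L.U i → g (f x) = s l i x * s m i x ^ n * τ i x := by
  obtain ⟨F, hF, hF'⟩ := glue hL (hV.preimage hf.cont)
    (fun i x => s l i x * s m i x ^ n * τ i x) (fun i x hx hi => hol_mul (hol_mul
      ((h.sec l).holo i x hx hi) (hol_pow ((h.sec m).holo i x hx hi) n)) (hτ.holo i x hx hi))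
    (by
      intro i j x hx hi hj
      have h1 : s l i x = (L.g i j x)⁻¹ ^ k * s l j x := (h.sec l).change i j x hx hi hj
      have h2 : s m i x = (L.g i j x)⁻¹ ^ k * s m j x := (h.sec m).change i j x hx hi hj
      have h3 : τ i x = L.g i j x ^ (k * (n + 1)) * τ j x := hτ.change i j x hx hi hj
      have h4 : L.g i j x ^ k ≠ 0 := pow_ne_zero _ (hL.ne_zero i j x hi hj)
      rw [h1, h2, h3, pow_mul, mul_pow, inv_pow, pow_succ (L.g i j x ^ k) n, inv_pow]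
      have h5 : (L.g i j x ^ k) ^ n ≠ 0 := pow_ne_zero _ h4
      field_simp)
  obtain ⟨g, hg, hg'⟩ := descend hX hZ hf hV (h := F) fun x hx => hF x hx
  exact ⟨g, hg, fun x i hx hi => by rw [hg' x hx, hF' i x hx hi]⟩

/-- (D3b) Sections of positive powers of `L` vanish on the fibres with at least two points. -/
theorem Amp.vanish {L : Bd X.pt} {V : Set Z.pt} {k N : ℕ} {s : Fin (N + 1) → L.ι → X.pt → ℂ}
    (h : Amp X Z f L V k N s) (hX : IsNormal 4 X) (hZ : IsNormal 4 Z) (hf : IsSmall X Z f A)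
    (hL : IsLBx X L) (hV : IsOpen V) {n : ℕ} {τ : L.ι → X.pt → ℂ}
    (hτ : IsSecx X (f ⁻¹' V) (L.pow (k * (n + 1))) τ) {x : X.pt} (hx : f x ∈ V)
    (hxA : f x ∈ Amin f) {i : L.ι} (hi : x ∈ L.U i) : τ i x = 0 := by
  by_contra hne
  obtain ⟨x', hx', hne'⟩ : ∃ x', f x' = f x ∧ x' ≠ x := by
    obtain ⟨a, b, ha, hb, hab⟩ := hxA
    by_cases hax : a = x
    · exact ⟨b, hb, fun hbx => hab (hax.trans hbx.symm)⟩
    · exact ⟨a, ha, hax⟩
  obtain ⟨j, hj⟩ := hL.cover x'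
  obtain ⟨a, ha⟩ := h.nz x i hx hi
  have key : ∀ l, s l i x * s a i x ^ n * τ i x = s l j x' * s a j x' ^ n * τ j x' := by
    intro l
    obtain ⟨g, -, hg⟩ := h.exists_fun hX hZ hf hL hV hτ l a
    rw [← hg x i hx hi, ← hg x' j (by rw [hx']; exact hx) hj, hx']
  have h1 : s a i x ^ n * τ i x ≠ 0 := mul_ne_zero (pow_ne_zero _ ha) hne
  have h2 : s a j x' ^ n * τ j x' ≠ 0 := by
    intro h0
    have h3 := key a
    rw [mul_assoc, mul_assoc, h0, mul_zero] at h3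
    exact (mul_ne_zero ha h1) h3
  obtain ⟨l, m, hlm⟩ := h.sep x x' i j hx hx' hne' hi hj
  refine hlm (mul_right_cancel₀ (mul_ne_zero h1 h2) ?_)
  have h3 := key l
  have h4 := key m
  rw [mul_assoc, mul_assoc] at h3 h4
  calc s l i x * s m j x' * (s a i x ^ n * τ i x * (s a j x' ^ n * τ j x'))
      = (s l i x * (s a i x ^ n * τ i x)) * (s m j x' * (s a j x' ^ n * τ j x')) := by ring
    _ = (s l j x' * (s a j x' ^ n * τ j x')) * (s m i x * (s a i x ^ n * τ i x)) := by rw [h3, h4]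
    _ = _ := by ring

end Vale.Agent.P277.H884
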