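import Mathlib.Analysis.SpecialFunctions.Pow.Continuity
import Mathlib.Analysis.SpecialFunctions.Complex.Log
import Mathlib.Topology.MetricSpace.Bounded
import Mathlib.FieldTheory.IsAlgClosed.Basic
import Mathlib.Analysis.Complex.Polynomial.Basic
import Mathlib.Topology.Connected.TotallyDisconnected
import Mathlib.Analysis.Convex.Topology
import Mathlib.Analysis.Normed.Affine.AddTorsor
import Mathlib.Topology.DiscreteSubset

/-!
# P277, DIS: roots of sections of line bundles on a disc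
-/

open scoped Topology
open Set Filter Metric

noncomputable section

namespace Vale.Agent.P277.H884

/-- The `q`-th power of a line bundle on `Δ ⊆ ℂ` (transition functions `g`) with the section `n`
without zeros. -/
structure Tor (ι : Type) (q : ℕ) (Δ : Set ℂ) (V : ι → Set ℂ) (g : ι → ι → ℂ → ℂ) (n : ι → ℂ → ℂ) :
    Prop where
  pos : 1 ≤ q
  cover : ∀ x ∈ Δ, ∃ j, x ∈ V j
  nhds : ∀ x ∈ Δ, ∀ j, x ∈ V j → V j ∈ 𝓝 x
  gcont : ∀ x ∈ Δ, ∀ j k, x ∈ V j → x ∈ V k → ContinuousAt (g j k) x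
  gne : ∀ x ∈ Δ, ∀ j k, x ∈ V j → x ∈ V k → g j k x ≠ 0
  coc : ∀ x ∈ Δ, ∀ j k l, x ∈ V j → x ∈ V k → x ∈ V l → g j k x * g k l x = g j l x
  ncont : ∀ x ∈ Δ, ∀ j, x ∈ V j → ContinuousAt (n j) x
  nne : ∀ x ∈ Δ, ∀ j, x ∈ V j → n j x ≠ 0
  change : ∀ x ∈ Δ, ∀ j k, x ∈ V j → x ∈ V k → n j x = g j k x ^ q * n k x

variable {ι : Type} {q : ℕ} {Δ : Set ℂ} {V : ι → Set ℂ} {g : ι → ι → ℂ → ℂ} {n : ι → ℂ → ℂ}

/-- `s` is over `A` a continuous `q`-th root of `n` (the value `s x` is read in the frame `J x`). -/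
def Sec (q : ℕ) (g : ι → ι → ℂ → ℂ) (n : ι → ℂ → ℂ) (J : ℂ → ι) (A : Set ℂ) (s : ℂ → ℂ) : Prop :=
  ∀ x ∈ A, s x ^ q = n (J x) x ∧ ContinuousWithinAt (fun y => g (J x) (J y) y * s y) A x

variable {J : ℂ → ι} {ε : ℝ}

theorem Sec.mono {A A' : Set ℂ} {s : ℂ → ℂ} (h : Sec q g n J A s) (hA : A' ⊆ A) :
    Sec q g n J A' s :=
  fun x hx => ⟨(h x (hA hx)).1, (h x (hA hx)).2.mono hA⟩

theorem Tor.gself (h : Tor ι q Δ V g n) {x : ℂ} (hx : x ∈ Δ) {j : ι} (hj : x ∈ V j) :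
    g j j x = 1 := by
  have h1 := h.coc x hx j j j hj hj hj
  exact mul_left_cancel₀ (h.gne x hx j j hj hj) (by rw [h1, mul_one])

/-- continuous functions with `h ^ q = 1` on connected sets are constant -/
theorem eq_of_pow_eq_one {T : Type*} [TopologicalSpace T] {A : Set T} (hA : IsPreconnected A)
    {h : T → ℂ} (hq : 1 ≤ q) (hc : ContinuousOn h A) (hp : ∀ x ∈ A, h x ^ q = 1) {x y : T}
    (hx : x ∈ A) (hy : y ∈ A) : h x = h y := by
  have hfin : {z : ℂ | z ^ q = 1}.Finite := by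
    have h1 : {z : ℂ | z ^ q = 1} ⊆ (Polynomial.nthRoots q (1 : ℂ)).toFinset := by
      intro z hz
      rw [Finset.mem_coe, Multiset.mem_toFinset, Polynomial.mem_nthRoots (by omega)]
      exact hz
    exact (Finset.finite_toSet _).subset h1
  have : Finite {z : ℂ | z ^ q = 1} := hfin
  have hd : IsDiscrete {z : ℂ | z ^ q = 1} := isDiscrete_iff_discreteTopology.2 inferInstance
  exact hA.constant_of_mapsTo hd hc (fun x hx => hp x hx) hx hy

/-- uniqueness of roots -/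
theorem Sec.uniq (h : Tor ι q Δ V g n) (hJ : ∀ x ∈ Δ, x ∈ V (J x)) {A : Set ℂ} (hAΔ : A ⊆ Δ)
    (hA : IsPreconnected A) {s s' : ℂ → ℂ} (hs : Sec q g n J A s) (hs' : Sec q g n J A s') {x : ℂ}
    (hx : x ∈ A) (hxs : s x = s' x) : ∀ y ∈ A, s y = s' y := by
  have hq := h.pos
  have hne : ∀ y ∈ A, s' y ≠ 0 := by
    intro y hy h0
    have h1 := (hs' y hy).1
    rw [h0, zero_pow (by omega)] at h1
    exact h.nne y (hAΔ hy) _ (hJ y (hAΔ hy)) h1.symm
  have hc : ContinuousOn (fun y => s y / s' y) A := by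
    intro y hy
    have hyΔ := hAΔ hy
    have hyJ := hJ y hyΔ
    have h1 := (hs y hy).2.div (hs' y hy).2
      (mul_ne_zero (h.gne y hyΔ _ _ hyJ hyJ) (hne y hy))
    refine h1.congr_of_eventuallyEq ?_ ?_
    · filter_upwards [self_mem_nhdsWithin, mem_nhdsWithin_of_mem_nhds (h.nhds y hyΔ _ hyJ)] with z
        hz hzV
      have h2 := h.gne z (hAΔ hz) _ _ hzV (hJ z (hAΔ hz))
      rw [Pi.div_apply, mul_div_mul_left _ _ h2]
    · have h2 := h.gne y hyΔ _ _ hyJ hyJ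
      rw [Pi.div_apply, mul_div_mul_left _ _ h2]
  intro y hy
  have h1 := eq_of_pow_eq_one hA hq hc (fun z hz => by
    rw [div_pow, (hs z hz).1, (hs' z hz).1, div_self]
    exact h.nne z (hAΔ hz) _ (hJ z (hAΔ hz))) hx hy
  rw [hxs, div_self (hne x hx)] at h1
  exact (div_eq_one_iff_eq (hne y hy)).1 h1.symm

/-- all local values extend to roots over `A` -/
def Good (q : ℕ) (g : ι → ι → ℂ → ℂ) (n : ι → ℂ → ℂ) (J : ℂ → ι) (A : Set ℂ) : Prop :=
  ∀ y ∈ A, ∀ t : ℂ, t ^ q = n (J y) y → ∃ s, Sec q g n J A s ∧ s y = t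

theorem Good.mono {A A' : Set ℂ} (h : Good q g n J A) (hA : A' ⊆ A) : Good q g n J A' := by
  intro y hy t ht
  obtain ⟨s, hs, hst⟩ := h y (hA hy) t ht
  exact ⟨s, hs.mono hA, hst⟩

theorem Tor.good_local (h : Tor ι q Δ V g n) (hJ : ∀ x ∈ Δ, x ∈ V (J x)) {x : ℂ} (hx : x ∈ Δ) :
    ∃ δ > 0, Good q g n J (ball x δ ∩ Δ) := by
  have hq := h.pos
  set j := J x with hj
  have hxj := hJ x hx
  have hnx := h.nne x hx j hxj
  have hev : ∀ᶠ y in 𝓝 x, y ∈ V j ∧ ‖n j y / n j x - 1‖ < 1 := by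
    have h0 : ∀ᶠ y in 𝓝 x, y ∈ V j := h.nhds x hx j hxj
    refine h0.and ?_
    have h1 : ContinuousAt (fun y => ‖n j y / n j x - 1‖) x :=
      (((h.ncont x hx j hxj).div_const _).sub continuousAt_const).norm
    refine h1.eventually_lt continuousAt_const ?_
    rw [div_self hnx, sub_self, norm_zero]
    exact one_pos
  obtain ⟨δ, hδ, hball⟩ := Metric.eventually_nhds_iff_ball.1 hev
  refine ⟨δ, hδ, fun y₀ hy₀ t ht => ?_⟩
  have hslit : ∀ z : ℂ, ‖z - 1‖ < 1 → z ∈ Complex.slitPlane := by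
    intro z hz
    refine Or.inl ?_
    have h1 := (Complex.abs_re_le_norm (z - 1)).trans_lt hz
    rw [Complex.sub_re, Complex.one_re, abs_lt] at h1
    linarith [h1.1]
  set R : ℂ → ℂ := fun y => (n j y / n j x) ^ ((q : ℂ)⁻¹) with hR
  have hRq : ∀ y ∈ ball x δ, R y ^ q = n j y / n j x := fun y _ =>
    Complex.cpow_nat_inv_pow _ (by omega)
  have hny : ∀ y ∈ ball x δ, n j y / n j x ≠ 0 := by
    intro y hy h0
    have := (hball y hy).2
    rw [h0, zero_sub, norm_neg, norm_one] at this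
    exact lt_irrefl _ this
  have hRne : ∀ y ∈ ball x δ, R y ≠ 0 := by
    intro y hy h0
    have h1 := hRq y hy
    rw [h0, zero_pow (by omega)] at h1
    exact hny y hy h1.symm
  have hRc : ∀ y ∈ ball x δ, y ∈ Δ → ContinuousAt R y := by
    intro y hy hyΔ
    have h1 : ContinuousAt (fun y => n j y / n j x) y :=
      (h.ncont y hyΔ j (hball y hy).1).div_const _
    exact h1.cpow continuousAt_const (hslit _ (hball y hy).2)
  set C : ℂ := g j (J y₀) y₀ * t / R y₀ with hC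
  have hy₀Δ := hy₀.2
  have hy₀J := hJ y₀ hy₀Δ
  have hy₀j := (hball y₀ hy₀.1).1
  have hCq : C ^ q = n j x := by
    rw [hC, div_pow, mul_pow, ht, hRq y₀ hy₀.1, ← h.change y₀ hy₀Δ _ _ hy₀j hy₀J]
    have := h.nne y₀ hy₀Δ j hy₀j
    field_simp
  refine ⟨fun y => g (J y) j y * (R y * C), fun y hy => ⟨?_, ?_⟩, ?_⟩
  · have hyJ := hJ y hy.2
    have hyj := (hball y hy.1).1
    show (g (J y) j y * (R y * C)) ^ q = n (J y) y
    rw [mul_pow, mul_pow, hRq y hy.1, hCq, div_mul_cancel₀ _ hnx]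
    exact (h.change y hy.2 _ _ hyJ hyj).symm
  · have hyJ := hJ y hy.2
    have hyj := (hball y hy.1).1
    have h1 : ContinuousAt (fun z => g (J y) j z * (R z * C)) y :=
      (h.gcont y hy.2 _ _ hyJ hyj).mul ((hRc y hy.1 hy.2).mul continuousAt_const)
    refine h1.continuousWithinAt.congr_of_eventuallyEq ?_ ?_
    · filter_upwards [self_mem_nhdsWithin, mem_nhdsWithin_of_mem_nhds (h.nhds y hy.2 _ hyJ)] with z
        hz hzV
      show g (J y) (J z) z * (g (J z) j z * (R z * C)) = _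
      rw [← mul_assoc, h.coc z hz.2 _ _ _ hzV (hJ z hz.2) (hball z hz.1).1]
    · show g (J y) (J y) y * (g (J y) j y * (R y * C)) = _
      rw [h.gself hy.2 hyJ, one_mul]
  · show g (J y₀) j y₀ * (R y₀ * C) = t
    have h1 := h.coc y₀ hy₀Δ (J y₀) j (J y₀) hy₀J hy₀j hy₀J
    rw [h.gself hy₀Δ hy₀J] at h1
    have h2 := hRne y₀ hy₀.1
    calc g (J y₀) j y₀ * (R y₀ * (g j (J y₀) y₀ * t / R y₀))
        = (g (J y₀) j y₀ * g j (J y₀) y₀) * t := by field_simp
      _ = t := by rw [h1, one_mul]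

/-- The extension step. -/
theorem Tor.step (h : Tor ι q (closedBall 0 ε) V g n)
    (hJ : ∀ x ∈ closedBall (0 : ℂ) ε, x ∈ V (J x)) {δ : ℝ} (hδ : 0 < δ)
    (hgood : ∀ x ∈ closedBall (0 : ℂ) ε, Good q g n J (ball x δ ∩ closedBall 0 ε)) {R : ℝ}
    (hR : 0 < R) {s : ℂ → ℂ} (hs : Sec q g n J (ball 0 R ∩ closedBall 0 ε) s) :
    ∃ s', Sec q g n J (ball 0 (R + δ / 2) ∩ closedBall 0 ε) s' := by
  classical
  set Δ : Set ℂ := closedBall 0 ε with hΔ
  have hΔc : Convex ℝ Δ := convex_closedBall 0 ε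
  set A := ball (0 : ℂ) R ∩ Δ with hA
  have hAc : Convex ℝ A := (convex_ball 0 R).inter hΔc
  have key : ∀ x, ∃ sx : ℂ → ℂ, x ∈ A → Sec q g n J (ball x δ ∩ Δ) sx ∧ sx x = s x := by
    intro x
    by_cases hx : x ∈ A
    · obtain ⟨sx, h1, h2⟩ := hgood x hx.2 x ⟨mem_ball_self hδ, hx.2⟩ (s x) (hs x hx).1
      exact ⟨sx, fun _ => ⟨h1, h2⟩⟩
    · exact ⟨s, fun h => (hx h).elim⟩
  choose σ hσ using key
  -- agreement with `s`
  have hagree : ∀ x ∈ A, ∀ y ∈ ball x δ ∩ A, σ x y = s y := by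
    intro x hx
    have h1 : Convex ℝ (ball x δ ∩ A) := (convex_ball x δ).inter hAc
    exact Sec.uniq h hJ (fun y hy => hy.2.2) h1.isPreconnected
      ((hσ x hx).1.mono fun y hy => ⟨hy.1, hy.2.2⟩) (hs.mono fun y hy => hy.2)
      (⟨mem_ball_self hδ, hx⟩ : x ∈ ball x δ ∩ A) (hσ x hx).2
  have hagree2 : ∀ x ∈ A, ∀ x' ∈ A, ∀ y ∈ Δ, dist y x < δ → dist y x' < δ / 2 →
      σ x y = σ x' y := by
    intro x hx x' hx' y hyΔ hyx hyx'
    have h1 : Convex ℝ (ball x δ ∩ ball x' δ ∩ Δ) :=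
      ((convex_ball x δ).inter (convex_ball x' δ)).inter hΔc
    set m : ℂ := midpoint ℝ x x' with hm
    have hmA : m ∈ A := hAc.midpoint_mem hx hx'
    have hxx' : dist x x' < 3 * δ / 2 := by
      have := dist_triangle_left x x' y
      linarith
    have hmx : dist m x < δ := by
      rw [hm, dist_midpoint_left]
      simp only [Real.norm_ofNat]
      linarith
    have hmx' : dist m x' < δ := by
      rw [hm, dist_midpoint_right]
      simp only [Real.norm_ofNat]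
      linarith
    refine Sec.uniq h hJ (fun y hy => hy.2) h1.isPreconnected
      ((hσ x hx).1.mono fun y hy => ⟨hy.1.1, hy.2⟩) ((hσ x' hx').1.mono fun y hy => ⟨hy.1.2, hy.2⟩)
      (⟨⟨hmx, hmx'⟩, hmA.2⟩ : m ∈ ball x δ ∩ ball x' δ ∩ Δ) ?_ y
      ⟨⟨hyx, mem_ball.2 (by linarith)⟩, hyΔ⟩
    rw [hagree x hx m ⟨hmx, hmA⟩, hagree x' hx' m ⟨hmx', hmA⟩]
  -- the retraction
  set c : ℝ := R / (R + δ / 2) with hc
  have hc0 : 0 < c := by positivity
  have hc1 : c < 1 := by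
    rw [hc, div_lt_one (by positivity)]
    linarith
  have hret : ∀ y ∈ ball (0 : ℂ) (R + δ / 2) ∩ Δ, c • y ∈ A ∧ dist y (c • y) < δ / 2 := by
    rintro y ⟨hy1, hy2⟩
    rw [mem_ball_zero_iff] at hy1
    rw [hΔ, mem_closedBall_zero_iff] at hy2
    have h1 : ‖c • y‖ = c * ‖y‖ := by rw [norm_smul, Real.norm_of_nonneg hc0.le]
    refine ⟨⟨?_, ?_⟩, ?_⟩
    · rw [mem_ball_zero_iff, h1, hc]
      rw [div_mul_eq_mul_div, div_lt_iff₀ (by positivity)]
      exact mul_lt_mul_of_pos_left hy1 hR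
    · rw [hΔ, mem_closedBall_zero_iff, h1]
      nlinarith [norm_nonneg y]
    · have h2 : y - c • y = (1 - c) • y := by rw [sub_smul, one_smul]
      rw [dist_eq_norm, h2, norm_smul, Real.norm_of_nonneg (by linarith)]
      have h3 : 1 - c = (δ / 2) / (R + δ / 2) := by
        rw [hc]; field_simp; ring
      rw [h3, div_mul_eq_mul_div, div_lt_iff₀ (by positivity)]
      exact mul_lt_mul_of_pos_left hy1 (by positivity)
  refine ⟨fun y => σ (c • y) y, fun y hy => ?_⟩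
  obtain ⟨h1, h2⟩ := hret y hy
  have hyb : y ∈ ball (c • y) δ := mem_ball.2 (by linarith)
  obtain ⟨h3, h4⟩ := (hσ _ h1).1 y ⟨hyb, hy.2⟩
  refine ⟨h3, ?_⟩
  have h5 : ContinuousWithinAt (fun z => g (J y) (J z) z * σ (c • y) z)
      (ball 0 (R + δ / 2) ∩ Δ) y := by
    have h6 : ball (c • y) δ ∩ Δ ∈ 𝓝[ball 0 (R + δ / 2) ∩ Δ] y := by
      filter_upwards [self_mem_nhdsWithin, mem_nhdsWithin_of_mem_nhds (isOpen_ball.mem_nhds hyb)]
        with z hz hz'
      exact ⟨hz', hz.2⟩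
    exact h4.mono_of_mem_nhdsWithin h6
  refine h5.congr_of_eventuallyEq ?_ rfl
  filter_upwards [self_mem_nhdsWithin, mem_nhdsWithin_of_mem_nhds (isOpen_ball.mem_nhds hyb)]
    with z hz hz'
  obtain ⟨h7, h8⟩ := hret z hz
  show g (J y) (J z) z * σ (c • z) z = g (J y) (J z) z * σ (c • y) z
  rw [hagree2 _ h1 _ h7 z hz.2 hz' h8]

/-- Sections without zeros of `q`-th powers have `q`-th roots on discs. -/
theorem Tor.exists_root (h : Tor ι q (closedBall 0 ε) V g n) (hε : 0 < ε)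
    (hJ : ∀ x ∈ closedBall (0 : ℂ) ε, x ∈ V (J x)) :
    ∃ s, Sec q g n J (closedBall 0 ε) s := by
  classical
  have hq := h.pos
  have key : ∀ x : ℂ, ∃ δ > 0, x ∈ closedBall (0 : ℂ) ε → Good q g n J (ball x δ ∩ closedBall 0 ε) := by
    intro x
    by_cases hx : x ∈ closedBall (0 : ℂ) ε
    · obtain ⟨δ, hδ, h1⟩ := h.good_local hJ hx
      exact ⟨δ, hδ, fun _ => h1⟩
    · exact ⟨1, one_pos, fun h => (hx h).elim⟩
  choose d hd hgood using key
  obtain ⟨δ, hδ, hleb⟩ := lebesgue_number_lemma_of_metric (isCompact_closedBall (0 : ℂ) ε)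
    (c := fun x : closedBall (0 : ℂ) ε => ball x.1 (d x.1)) (fun x => isOpen_ball)
    fun x hx => mem_iUnion.2 ⟨⟨x, hx⟩, mem_ball_self (hd x)⟩
  have hgood' : ∀ x ∈ closedBall (0 : ℂ) ε, Good q g n J (ball x δ ∩ closedBall 0 ε) := by
    intro x hx
    obtain ⟨i, hi⟩ := hleb x hx
    exact (hgood i.1 i.2).mono (inter_subset_inter_left _ hi)
  have h0 : (0 : ℂ) ∈ closedBall (0 : ℂ) ε := mem_closedBall_self hε.le
  have hall : ∀ k : ℕ, ∃ s, Sec q g n J (ball 0 (δ * (k + 1) / 2) ∩ closedBall 0 ε) s := by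
    intro k
    induction k with
    | zero =>
      obtain ⟨t, ht⟩ := IsAlgClosed.exists_pow_nat_eq (n (J 0) 0) (show 0 < q by omega)
      obtain ⟨s, hs, -⟩ := hgood' 0 h0 0 ⟨mem_ball_self hδ, h0⟩ t ht
      refine ⟨s, hs.mono (inter_subset_inter_left _ (ball_subset_ball ?_))⟩
      push_cast
      linarith
    | succ k ih =>
      obtain ⟨s, hs⟩ := ih
      obtain ⟨s', hs'⟩ := h.step hJ hδ hgood' (by positivity) hs
      refine ⟨s', ?_⟩
      have h1 : δ * ((k + 1 : ℕ) + 1) / 2 = δ * (k + 1) / 2 + δ / 2 := by push_cast; ring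
      rw [h1]
      exact hs'
  obtain ⟨k, hk⟩ := exists_nat_gt (2 * ε / δ)
  obtain ⟨s, hs⟩ := hall k
  refine ⟨s, hs.mono fun x hx => ⟨?_, hx⟩⟩
  rw [mem_ball_zero_iff]
  rw [mem_closedBall_zero_iff] at hx
  rw [div_lt_iff₀ hδ] at hk
  have h1 : 0 < δ * 1 := by linarith
  nlinarith

/-- The winding number argument. -/
theorem dvd_of_circle {q κ : ℕ} (hq : 1 ≤ q) {b m : ℝ → ℂ} (hb : Continuous b)
    (hb' : b (2 * Real.pi) = b 0) (hm : Continuous m) (hm' : m (2 * Real.pi) = m 0)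
    (hm1 : ∀ t, ‖m t - 1‖ < 1) {C : ℂ} (hC : C ≠ 0)
    (h : ∀ t : ℝ, b t ^ q * Complex.exp (t * Complex.I) ^ κ = C * m t) : q ∣ κ := by
  have hslit : ∀ z : ℂ, ‖z - 1‖ < 1 → z ∈ Complex.slitPlane := by
    intro z hz
    refine Or.inl ?_
    have h1 := (Complex.abs_re_le_norm (z - 1)).trans_lt hz
    rw [Complex.sub_re, Complex.one_re, abs_lt] at h1
    linarith [h1.1]
  have hmne : ∀ t, m t ≠ 0 := by
    intro t h0
    have := hm1 t
    rw [h0, zero_sub, norm_neg, norm_one] at this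
    exact lt_irrefl _ this
  have hqC : (q : ℂ) ≠ 0 := by exact_mod_cast (by omega : q ≠ 0)
  obtain ⟨c₀, hc₀⟩ := IsAlgClosed.exists_pow_nat_eq C (show 0 < q by omega)
  have hc₀ne : c₀ ≠ 0 := by
    rintro rfl
    rw [zero_pow (by omega)] at hc₀
    exact hC hc₀.symm
  set R : ℝ → ℂ := fun t => m t ^ ((q : ℂ)⁻¹) with hR
  have hRq : ∀ t, R t ^ q = m t := fun t => Complex.cpow_nat_inv_pow _ (by omega)
  have hRne : ∀ t, R t ≠ 0 := by
    intro t h0
    have h1 := hRq t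
    rw [h0, zero_pow (by omega)] at h1
    exact hmne t h1.symm
  have hRc : Continuous R := hm.cpow continuous_const fun t => hslit _ (hm1 t)
  set f : ℝ → ℂ := fun t => b t * Complex.exp (t * κ / q * Complex.I) / (c₀ * R t) with hf
  have hfc : Continuous f := by
    refine (hb.mul ?_).div (continuous_const.mul hRc) fun t => mul_ne_zero hc₀ne (hRne t)
    fun_prop
  have hfq : ∀ t ∈ (univ : Set ℝ), f t ^ q = 1 := by
    intro t _
    have h1 : Complex.exp (t * κ / q * Complex.I) ^ q = Complex.exp (t * Complex.I) ^ κ := by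
      rw [← Complex.exp_nat_mul, ← Complex.exp_nat_mul]
      congr 1
      field_simp
    rw [hf]
    simp only
    rw [div_pow, mul_pow, mul_pow, h1, hRq, hc₀, h t, div_self]
    exact mul_ne_zero hC (hmne t)
  have h1 := eq_of_pow_eq_one isPreconnected_univ hq hfc.continuousOn hfq (mem_univ (0 : ℝ))
    (mem_univ (2 * Real.pi))
  have hb0 : b 0 ≠ 0 := by
    intro h0
    have h2 := h 0
    rw [h0, zero_pow (by omega), zero_mul] at h2
    exact (mul_ne_zero hC (hmne 0)) h2.symm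
  have hR' : R (2 * Real.pi) = R 0 := by rw [hR]; simp only [hm']
  have h2 : Complex.exp (((2 * Real.pi : ℝ) : ℂ) * κ / q * Complex.I) = 1 := by
    simp only [hf, hb', hR', Complex.ofReal_zero, zero_mul, zero_div, Complex.exp_zero,
      mul_one] at h1
    have h3 : c₀ * R 0 ≠ 0 := mul_ne_zero hc₀ne (hRne 0)
    rw [div_left_inj' h3] at h1
    have h4 : b 0 * 1 = b 0 * Complex.exp (((2 * Real.pi : ℝ) : ℂ) * κ / q * Complex.I) := by
      rw [mul_one]; exact h1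
    exact (mul_left_cancel₀ hb0 h4).symm
  obtain ⟨k, hk⟩ := Complex.exp_eq_one_iff.1 h2
  have hπ : (2 * (Real.pi : ℂ) * Complex.I) ≠ 0 := by
    simp [Real.pi_ne_zero]
  have h3 : (κ : ℂ) = k * q := by
    have h4 : ((2 * Real.pi : ℝ) : ℂ) * κ / q * Complex.I = (κ / q) * (2 * Real.pi * Complex.I) := by
      push_cast; ring
    rw [h4] at hk
    have h5 := mul_right_cancel₀ hπ hk
    rw [div_eq_iff hqC] at h5
    exact h5
  have h4 : (κ : ℤ) = k * q := by exact_mod_cast h3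
  have h5 : (q : ℤ) ∣ κ := ⟨k, by rw [h4]; ring⟩
  exact_mod_cast h5

end Vale.Agent.P277.H884
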