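import Vale.Agent.P277.H60.Wedge

/-!
# P277, F5: the Fubini-Study form of a tuple of functions
-/

set_option maxSynthPendingDepth 3

open scoped ContDiff Topology
open ContinuousAlternatingMap Vale.Agent.P267.H928.Int Vale.Agent.P267.H175 Filter

noncomputable section

namespace Vale.Agent.P277.H884.F

open Vale.Agent.P277.H60

variable {E : Type*} [NormedAddCommGroup E] [NormedSpace ℝ E]
variable {E' : Type*} [NormedAddCommGroup E'] [NormedSpace ℝ E']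

/-- real parts -/
def rp {N : ℕ} (F : Fin N → E → ℂ) (m : Fin N) (z : E) : ℝ := (F m z).re

/-- imaginary parts -/
def ip {N : ℕ} (F : Fin N → E → ℂ) (m : Fin N) (z : E) : ℝ := (F m z).im

/-- the squared norm -/
def nS {N : ℕ} (F : Fin N → E → ℂ) (z : E) : ℝ := ∑ m, (rp F m z ^ 2 + ip F m z ^ 2)

/-- `Im ∑ conj(F_m) dF_m` -/
def ga {N : ℕ} (F : Fin N → E → ℂ) (z : E) : E →L[ℝ] ℝ :=
  ∑ m, (rp F m z • fderiv ℝ (ip F m) z - ip F m z • fderiv ℝ (rp F m) z)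

/-- half the differential of the squared norm -/
def ro {N : ℕ} (F : Fin N → E → ℂ) (z : E) : E →L[ℝ] ℝ :=
  ∑ m, (rp F m z • fderiv ℝ (rp F m) z + ip F m z • fderiv ℝ (ip F m) z)

/-- the connection form -/
def al {N : ℕ} (F : Fin N → E → ℂ) (z : E) : E →L[ℝ] ℝ := (nS F z)⁻¹ • ga F z

section smooth

variable {N : ℕ} {F : Fin N → E → ℂ} {z : E} {r : WithTop ℕ∞}

theorem cd_rp (hF : ∀ m, ContDiffAt ℝ r (F m) z) (m : Fin N) : ContDiffAt ℝ r (rp F m) z :=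
  Complex.reCLM.contDiff.contDiffAt.comp z (hF m)

theorem cd_ip (hF : ∀ m, ContDiffAt ℝ r (F m) z) (m : Fin N) : ContDiffAt ℝ r (ip F m) z :=
  Complex.imCLM.contDiff.contDiffAt.comp z (hF m)

theorem cd_nS (hF : ∀ m, ContDiffAt ℝ r (F m) z) : ContDiffAt ℝ r (nS F) z :=
  ContDiffAt.sum fun m _ => ((cd_rp hF m).pow 2).add ((cd_ip hF m).pow 2)

theorem cd_ga (hF : ∀ m, ContDiffAt ℝ ∞ (F m) z) : ContDiffAt ℝ ∞ (ga F) z :=
  ContDiffAt.sum fun m _ => ((cd_rp hF m).smul ((cd_ip hF m).fderiv_right (m := ∞) (by simp))).sub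
    ((cd_ip hF m).smul ((cd_rp hF m).fderiv_right (m := ∞) (by simp)))

theorem cd_al (hF : ∀ m, ContDiffAt ℝ ∞ (F m) z) (h0 : nS F z ≠ 0) : ContDiffAt ℝ ∞ (al F) z :=
  ((cd_nS hF).inv h0).smul (cd_ga hF)

theorem hasFDerivAt_nS (hF : ∀ m, ContDiffAt ℝ ∞ (F m) z) :
    HasFDerivAt (nS F) ((2 : ℝ) • ro F z) z := by
  have h1 : ∀ m, HasFDerivAt (rp F m) (fderiv ℝ (rp F m) z) z := fun m =>
    ((cd_rp hF m).differentiableAt (by simp)).hasFDerivAt
  have h2 : ∀ m, HasFDerivAt (ip F m) (fderiv ℝ (ip F m) z) z := fun m =>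
    ((cd_ip hF m).differentiableAt (by simp)).hasFDerivAt
  have h3 := HasFDerivAt.fun_sum (u := Finset.univ) fun m _ => ((h1 m).pow 2).add ((h2 m).pow 2)
  refine h3.congr_fderiv ?_
  rw [ro, Finset.smul_sum]
  refine Finset.sum_congr rfl fun m _ => ?_
  ext u
  simp
  ring

/-- the curvature form -/
theorem W2_al (hF : ∀ m, ContDiffAt ℝ ∞ (F m) z) (h0 : nS F z ≠ 0) {n : ℕ}
    (β : E [⋀^Fin n]→L[ℝ] ℝ) :
    W2 (fderiv ℝ (al F) z) β = (2 * (nS F z)⁻¹) • (∑ m, wedge1 (fderiv ℝ (rp F m) z)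
      (wedge1 (fderiv ℝ (ip F m) z) β)) -
      (2 * (nS F z)⁻¹ ^ 2) • wedge1 (ro F z) (wedge1 (ga F z) β) := by
  have hs : ∀ m, IsSymmSndFDerivAt ℝ (rp F m) z ∧ IsSymmSndFDerivAt ℝ (ip F m) z := fun m =>
    ⟨(cd_rp hF m).isSymmSndFDerivAt minS, (cd_ip hF m).isSymmSndFDerivAt minS⟩
  have h1 : ∀ m, HasFDerivAt (rp F m) (fderiv ℝ (rp F m) z) z := fun m =>
    ((cd_rp hF m).differentiableAt (by simp)).hasFDerivAt
  have h2 : ∀ m, HasFDerivAt (ip F m) (fderiv ℝ (ip F m) z) z := fun m =>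
    ((cd_ip hF m).differentiableAt (by simp)).hasFDerivAt
  have h3 : ∀ m, HasFDerivAt (fderiv ℝ (rp F m)) (fderiv ℝ (fderiv ℝ (rp F m)) z) z := fun m =>
    (((cd_rp hF m).fderiv_right (m := ∞) (by simp)).differentiableAt (by simp)).hasFDerivAt
  have h4 : ∀ m, HasFDerivAt (fderiv ℝ (ip F m)) (fderiv ℝ (fderiv ℝ (ip F m)) z) z := fun m =>
    (((cd_ip hF m).fderiv_right (m := ∞) (by simp)).differentiableAt (by simp)).hasFDerivAt
  have h5 : HasFDerivAt (ga F) (∑ m, ((rp F m z • fderiv ℝ (fderiv ℝ (ip F m)) z +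
      (fderiv ℝ (rp F m) z).smulRight (fderiv ℝ (ip F m) z)) -
      (ip F m z • fderiv ℝ (fderiv ℝ (rp F m)) z +
      (fderiv ℝ (ip F m) z).smulRight (fderiv ℝ (rp F m) z)))) z :=
    HasFDerivAt.fun_sum fun m _ => ((h1 m).smul (h4 m)).sub ((h2 m).smul (h3 m))
  have h60 : HasFDerivAt (fun z => (nS F z)⁻¹) ((-(nS F z ^ 2)⁻¹) • ((2 : ℝ) • ro F z)) z :=
    (hasDerivAt_inv h0).comp_hasFDerivAt z (hasFDerivAt_nS hF)
  have h6 := h60.smul h5
  have h7 : fderiv ℝ (al F) z = _ := h6.fderiv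
  have h8 : W2 (∑ m, ((rp F m z • fderiv ℝ (fderiv ℝ (ip F m)) z +
      (fderiv ℝ (rp F m) z).smulRight (fderiv ℝ (ip F m) z)) -
      (ip F m z • fderiv ℝ (fderiv ℝ (rp F m)) z +
      (fderiv ℝ (ip F m) z).smulRight (fderiv ℝ (rp F m) z)))) β =
      (2 : ℝ) • ∑ m, wedge1 (fderiv ℝ (rp F m) z) (wedge1 (fderiv ℝ (ip F m) z) β) := by
    have h9 : ∀ (s : Finset (Fin N)) (B : Fin N → Bil E),
        W2 (∑ m ∈ s, B m) β = ∑ m ∈ s, W2 (B m) β := by
      classical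
      intro s B
      induction s using Finset.induction_on with
      | empty => simp
      | insert i s hi ih => rw [Finset.sum_insert hi, Finset.sum_insert hi, W2_add, ih]
    rw [h9, Finset.smul_sum]
    refine Finset.sum_congr rfl fun m _ => ?_
    have e1 : ((rp F m z • fderiv ℝ (fderiv ℝ (ip F m)) z +
      (fderiv ℝ (rp F m) z).smulRight (fderiv ℝ (ip F m) z)) -
      (ip F m z • fderiv ℝ (fderiv ℝ (rp F m)) z +
      (fderiv ℝ (ip F m) z).smulRight (fderiv ℝ (rp F m) z))) =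
      (rp F m z • fderiv ℝ (fderiv ℝ (ip F m)) z +
      (fderiv ℝ (rp F m) z).smulRight (fderiv ℝ (ip F m) z)) +
      (-1 : ℝ) • (ip F m z • fderiv ℝ (fderiv ℝ (rp F m)) z +
      (fderiv ℝ (ip F m) z).smulRight (fderiv ℝ (rp F m) z)) := by
      rw [neg_one_smul, sub_eq_add_neg]
    have e2 : W2 (fderiv ℝ (fderiv ℝ (ip F m)) z) β = 0 := W2_symm (hs m).2.eq _
    have e3 : W2 (fderiv ℝ (fderiv ℝ (rp F m)) z) β = 0 := W2_symm (hs m).1.eq _
    rw [e1]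
    simp only [W2_add, W2_smul, W2_rank1, e2, e3]
    rw [wedge1_comm (fderiv ℝ (ip F m) z) (fderiv ℝ (rp F m) z)]
    module
  rw [h7, W2_add, W2_smul, h8, W2_rank1, wedge1_smul_left, wedge1_smul_left]
  module

end smooth

end Vale.Agent.P277.H884.F
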