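import Vale.Agent.P277.H884.F5a
import Vale.Agent.P277.H335.RAD2

/-!
# P277, F5: the Fubini-Study form of a tuple of functions: naturality, vanishing
-/

set_option maxSynthPendingDepth 3

open scoped ContDiff Topology
open ContinuousAlternatingMap Vale.Agent.P267.H928.Int Vale.Agent.P267.H175 Filter

noncomputable section

namespace Vale.Agent.P277.H884.F

open Vale.Agent.P277.H60

variable {E : Type*} [NormedAddCommGroup E] [NormedSpace ℝ E]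
variable {E' : Type*} [NormedAddCommGroup E'] [NormedSpace ℝ E']
variable {N : ℕ}

omit [NormedAddCommGroup E] [NormedSpace ℝ E] in
theorem nS_eq (F : Fin N → E → ℂ) (z : E) : nS F z = ∑ m, ‖F m z‖ ^ 2 := by
  simp only [nS, H335.norm_sq_eq]
  rfl

theorem al_eq (F : Fin N → E → ℂ) : al F = H335.al F := by
  funext z
  rw [al, nS_eq]
  rfl

theorem nS_ne {F : Fin N → E → ℂ} {z : E} (h : ∃ m, F m z ≠ 0) : nS F z ≠ 0 := by
  rw [nS_eq]
  exact H335.sum_ne h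

theorem al_congr {F F' : Fin N → E → ℂ} {x : E} (h : ∀ m, F m =ᶠ[𝓝 x] F' m) :
    al F =ᶠ[𝓝 x] al F' := by
  rw [al_eq, al_eq]
  exact H335.al_congr h

theorem W2_al_mul {k : ℕ} {F : Fin N → E → ℂ} {g : E → ℂ} {x : E}
    (hF : ∀ m, ContDiffAt ℝ ∞ (F m) x) (hg : ContDiffAt ℝ ∞ g x) (h : ∃ m, F m x ≠ 0)
    (hg0 : g x ≠ 0) (β : E [⋀^Fin k]→L[ℝ] ℝ) :
    W2 (fderiv ℝ (al (fun m w => g w * F m w)) x) β = W2 (fderiv ℝ (al F) x) β := by
  rw [al_eq, al_eq]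
  exact H335.W2_al_mul hF hg h hg0 β

theorem eventually_diff {F : Fin N → E → ℂ} {z : E} (hF : ∀ m, ContDiffAt ℝ ∞ (F m) z) :
    ∀ᶠ y in 𝓝 z, ∀ m, DifferentiableAt ℝ (F m) y :=
  Filter.eventually_all.2 fun m => (((hF m).of_le (m := 1) (by simp)).eventually (by simp)).mono
    fun _ h => h.differentiableAt (by simp)

/-- naturality of the connection form -/
theorem al_comp {F : Fin N → E → ℂ} {φ : E' → E} {z : E'} (hφ : DifferentiableAt ℝ φ z)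
    (hF : ∀ m, DifferentiableAt ℝ (F m) (φ z)) :
    al (fun m x => F m (φ x)) z = (al F (φ z)).comp (fderiv ℝ φ z) := by
  have h1 : ∀ m, fderiv ℝ (rp (fun m x => F m (φ x)) m) z =
      (fderiv ℝ (rp F m) (φ z)).comp (fderiv ℝ φ z) := fun m => by
    have : DifferentiableAt ℝ (rp F m) (φ z) := Complex.reCLM.differentiableAt.comp _ (hF m)
    exact fderiv_comp (𝕜 := ℝ) (g := rp F m) (f := φ) z this hφ
  have h2 : ∀ m, fderiv ℝ (ip (fun m x => F m (φ x)) m) z =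
      (fderiv ℝ (ip F m) (φ z)).comp (fderiv ℝ φ z) := fun m => by
    have : DifferentiableAt ℝ (ip F m) (φ z) := Complex.imCLM.differentiableAt.comp _ (hF m)
    exact fderiv_comp (𝕜 := ℝ) (g := ip F m) (f := φ) z this hφ
  ext u
  simp only [al, ga, h1, h2]
  simp [rp, ip, nS]

/-- naturality of the curvature form -/
theorem W2_al_comp {k : ℕ} {F : Fin N → E → ℂ} {φ : E' → E} {z : E'} (hφ : ContDiffAt ℝ ∞ φ z)
    (hF : ∀ m, ContDiffAt ℝ ∞ (F m) (φ z)) (h : ∃ m, F m (φ z) ≠ 0)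
    (β : E' [⋀^Fin k]→L[ℝ] ℝ) :
    W2 (fderiv ℝ (al (fun m x => F m (φ x))) z) β =
      W2 (pb (fderiv ℝ (al F) (φ z)) (fderiv ℝ φ z)) β := by
  have h1 : al (fun m x => F m (φ x)) =ᶠ[𝓝 z] fun y => (al F (φ y)).comp (fderiv ℝ φ y) := by
    have e1 : ∀ᶠ y in 𝓝 z, DifferentiableAt ℝ φ y :=
      ((hφ.of_le (m := 1) (by simp)).eventually (by simp)).mono
        fun _ h => h.differentiableAt (by simp)
    have e2 : ∀ᶠ y in 𝓝 z, ∀ m, DifferentiableAt ℝ (F m) (φ y) :=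
      hφ.continuousAt.eventually (eventually_diff hF)
    filter_upwards [e1, e2] with y h3 h4
    exact al_comp h3 h4
  have h2 : HasFDerivAt (fun y => al F (φ y)) ((fderiv ℝ (al F) (φ z)).comp (fderiv ℝ φ z)) z := by
    have := ((cd_al hF (nS_ne h)).differentiableAt (by simp)).hasFDerivAt
    exact this.comp z (hφ.differentiableAt (by simp)).hasFDerivAt
  have h3 : HasFDerivAt (fderiv ℝ φ) (fderiv ℝ (fderiv ℝ φ) z) z :=
    ((hφ.fderiv_right (m := ∞) (by simp)).differentiableAt (by simp)).hasFDerivAt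
  have h4 := h2.clm_comp h3
  rw [h1.fderiv_eq, h4.fderiv]
  refine W2_congr (fun u w => ?_) β
  have h5 : fderiv ℝ (fderiv ℝ φ) z u w = fderiv ℝ (fderiv ℝ φ) z w u :=
    (hφ.isSymmSndFDerivAt minS).eq u w
  simp only [_root_.add_apply, ContinuousLinearMap.comp_apply, pb_apply,
    ContinuousLinearMap.compL_apply, ContinuousLinearMap.flip_apply, h5]
  ring

/-- The square of the curvature form of the tuple `F`. -/
def ff (F : Fin N → E → ℂ) (z : E) : E [⋀^Fin 4]→L[ℝ] ℝ :=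
  W2 (fderiv ℝ (al F) z) (W2 (fderiv ℝ (al F) z) (constOfIsEmpty ℝ E (Fin 0) (1 : ℝ)))

theorem ff_congr {F F' : Fin N → E → ℂ} {x : E} (h : ∀ m, F m =ᶠ[𝓝 x] F' m) :
    ff F x = ff F' x := by
  rw [ff, ff, (al_congr h).fderiv_eq]

theorem ff_congr_nhds {F F' : Fin N → E → ℂ} {x : E} (h : ∀ m, F m =ᶠ[𝓝 x] F' m) :
    ff F =ᶠ[𝓝 x] ff F' := by
  filter_upwards [Filter.eventually_all.2 fun m => (h m).eventuallyEq_nhds] with y hy
  exact ff_congr hy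

theorem ff_mul {F : Fin N → E → ℂ} {g : E → ℂ} {x : E}
    (hF : ∀ m, ContDiffAt ℝ ∞ (F m) x) (hg : ContDiffAt ℝ ∞ g x) (h : ∃ m, F m x ≠ 0)
    (hg0 : g x ≠ 0) : ff (fun m w => g w * F m w) x = ff F x := by
  rw [ff, ff, W2_al_mul hF hg h hg0, W2_al_mul hF hg h hg0]

theorem ff_comp {F : Fin N → E → ℂ} {φ : E' → E} {z : E'} (hφ : ContDiffAt ℝ ∞ φ z)
    (hF : ∀ m, ContDiffAt ℝ ∞ (F m) (φ z)) (h : ∃ m, F m (φ z) ≠ 0) :
    ff (fun m x => F m (φ x)) z = (ff F (φ z)).compContinuousLinearMap (fderiv ℝ φ z) := by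
  have h1 : ((constOfIsEmpty ℝ E (Fin 0) (1 : ℝ))).compContinuousLinearMap (fderiv ℝ φ z) =
    constOfIsEmpty ℝ E' (Fin 0) (1 : ℝ) := rfl
  rw [ff, ff, W2_al_comp hφ hF h, W2_al_comp hφ hF h, W2_comp, W2_comp, h1]

theorem cd_ff {F : Fin N → E → ℂ} {x : E}
    (hF : ∀ m, ContDiffAt ℝ ∞ (F m) x) (h : ∃ m, F m x ≠ 0) : ContDiffAt ℝ ∞ (ff F) x := by
  have h1 : ContDiffAt ℝ ∞ (fderiv ℝ (al F)) x :=
    (cd_al hF (nS_ne h)).fderiv_right (m := ∞) (by simp)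
  exact contDiffAt_W2 h1 (contDiffAt_W2 h1 contDiffAt_const)

theorem extDeriv_const0 (c : E [⋀^Fin 0]→L[ℝ] ℝ) (x : E) :
    extDeriv (fun _ : E => c) x = 0 := by
  rw [extDeriv, fderiv_fun_const]
  ext v
  simp [ContinuousAlternatingMap.alternatizeUncurryFin_apply]

theorem extDeriv_ff {F : Fin N → E → ℂ} {x : E}
    (hF : ∀ m, ContDiffAt ℝ ∞ (F m) x) (h : ∃ m, F m x ≠ 0) : extDeriv (ff F) x = 0 := by
  have h0 := cd_al hF (nS_ne h)
  have h1 : ContDiffAt ℝ ∞ (fderiv ℝ (al F)) x := h0.fderiv_right (m := ∞) (by simp)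
  have h2 : extDeriv (ff F) x = W2 (fderiv ℝ (al F) x) (extDeriv (fun y =>
      W2 (fderiv ℝ (al F) y) (constOfIsEmpty ℝ E (Fin 0) (1 : ℝ))) x) :=
    extDeriv_W2_fun h0 (contDiffAt_W2 h1 contDiffAt_const)
  rw [h2, extDeriv_W2_fun h0 contDiffAt_const, extDeriv_const0, W2_zero_right, W2_zero_right]

theorem wedge1_add_left {n : ℕ} (l l' : E →L[ℝ] ℝ) (a : E [⋀^Fin n]→L[ℝ] ℝ) :
    wedge1 (l + l') a = wedge1 l a + wedge1 l' a := by
  ext v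
  simp [wedge1_apply, add_mul, mul_add, Finset.sum_add_distrib]

theorem wedge1_neg_left {n : ℕ} (l : E →L[ℝ] ℝ) (a : E [⋀^Fin n]→L[ℝ] ℝ) :
    wedge1 (-l) a = - wedge1 l a := by
  rw [← neg_one_smul ℝ l, wedge1_smul_left, neg_one_smul]

/-- the square of the curvature form of a pair of functions vanishes -/
theorem ff_pair {F : Fin (N + 2) → E → ℂ} {x : E} (hF : ∀ m, ContDiffAt ℝ ∞ (F m) x)
    (h : ∃ m, F m x ≠ 0) (h2 : ∀ m : Fin (N + 2), 2 ≤ m.val → F m =ᶠ[𝓝 x] 0) :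
    ff F x = 0 := by
  set a := rp F 0 x with ha
  set b := ip F 0 x with hb
  set p := rp F 1 x with hp
  set q := ip F 1 x with hq
  set S := nS F x with hS
  set l0 := fderiv ℝ (rp F 0) x
  set l1 := fderiv ℝ (ip F 0) x
  set l2 := fderiv ℝ (rp F 1) x
  set l3 := fderiv ℝ (ip F 1) x
  have hS0 : S ≠ 0 := nS_ne h
  have hz1 : ∀ m : Fin N, rp F m.succ.succ =ᶠ[𝓝 x] fun _ => 0 := fun m => by
    filter_upwards [h2 m.succ.succ (by simp)] with y hy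
    simp [rp, hy]
  have hz2 : ∀ m : Fin N, ip F m.succ.succ =ᶠ[𝓝 x] fun _ => 0 := fun m => by
    filter_upwards [h2 m.succ.succ (by simp)] with y hy
    simp [ip, hy]
  have hd1 : ∀ m : Fin N, fderiv ℝ (rp F m.succ.succ) x = 0 := fun m => by
    rw [(hz1 m).fderiv_eq]
    exact fderiv_const_apply 0
  have hd2 : ∀ m : Fin N, fderiv ℝ (ip F m.succ.succ) x = 0 := fun m => by
    rw [(hz2 m).fderiv_eq]
    exact fderiv_const_apply 0
  have hv1 : ∀ m : Fin N, rp F m.succ.succ x = 0 := fun m => (hz1 m).eq_of_nhds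
  have hv2 : ∀ m : Fin N, ip F m.succ.succ x = 0 := fun m => (hz2 m).eq_of_nhds
  have e10 : (Fin.succ 0 : Fin (N + 2)) = 1 := rfl
  have hSe : S = a ^ 2 + b ^ 2 + (p ^ 2 + q ^ 2) := by
    rw [hS, nS, Fin.sum_univ_succ, Fin.sum_univ_succ]
    simp only [hv1, hv2, e10]
    simp [ha, hb, hp, hq]
  have hro : ro F x = a • l0 + b • l1 + (p • l2 + q • l3) := by
    rw [ro, Fin.sum_univ_succ, Fin.sum_univ_succ]
    simp only [hv1, hv2, e10]
    simp [ha, hb, hp, hq, l0, l1, l2, l3]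
  have hga : ga F x = (a • l1 - b • l0) + (p • l3 - q • l2) := by
    rw [ga, Fin.sum_univ_succ, Fin.sum_univ_succ]
    simp only [hv1, hv2, e10]
    simp [ha, hb, hp, hq, l0, l1, l2, l3]
  have c10 : ∀ {k : ℕ} (a : E [⋀^Fin k]→L[ℝ] ℝ), wedge1 l1 (wedge1 l0 a) =
      - wedge1 l0 (wedge1 l1 a) := fun a => wedge1_comm _ _ a
  have c20 : ∀ {k : ℕ} (a : E [⋀^Fin k]→L[ℝ] ℝ), wedge1 l2 (wedge1 l0 a) =
      - wedge1 l0 (wedge1 l2 a) := fun a => wedge1_comm _ _ a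
  have c30 : ∀ {k : ℕ} (a : E [⋀^Fin k]→L[ℝ] ℝ), wedge1 l3 (wedge1 l0 a) =
      - wedge1 l0 (wedge1 l3 a) := fun a => wedge1_comm _ _ a
  have c21 : ∀ {k : ℕ} (a : E [⋀^Fin k]→L[ℝ] ℝ), wedge1 l2 (wedge1 l1 a) =
      - wedge1 l1 (wedge1 l2 a) := fun a => wedge1_comm _ _ a
  have c31 : ∀ {k : ℕ} (a : E [⋀^Fin k]→L[ℝ] ℝ), wedge1 l3 (wedge1 l1 a) =
      - wedge1 l1 (wedge1 l3 a) := fun a => wedge1_comm _ _ a
  have c32 : ∀ {k : ℕ} (a : E [⋀^Fin k]→L[ℝ] ℝ), wedge1 l3 (wedge1 l2 a) =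
      - wedge1 l2 (wedge1 l3 a) := fun a => wedge1_comm _ _ a
  have hW : ∀ {k : ℕ} (β : E [⋀^Fin k]→L[ℝ] ℝ), W2 (fderiv ℝ (al F) x) β =
      W2 (pfB (2 * S⁻¹ - 2 * S⁻¹ ^ 2 * (a ^ 2 + b ^ 2)) (2 * S⁻¹ ^ 2 * (a * q - b * p))
        (-(2 * S⁻¹ ^ 2 * (a * p + b * q))) (2 * S⁻¹ ^ 2 * (b * q + a * p))
        (-(2 * S⁻¹ ^ 2 * (b * p - a * q))) (2 * S⁻¹ - 2 * S⁻¹ ^ 2 * (p ^ 2 + q ^ 2))
        l0 l1 l2 l3) β := by
    intro k β
    rw [W2_al hF hS0, W2_pfB, hro, hga, Fin.sum_univ_succ, Fin.sum_univ_succ]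
    simp only [hd1, e10]
    simp only [wedge1_zero_left, Finset.sum_const_zero, sub_eq_add_neg, wedge1_add_left,
      wedge1_add_right, wedge1_smul_left, wedge1_smul_right, wedge1_neg_left, wedge1_neg_right,
      c10, c20, c30, c21, c31, c32, wedge1_self]
    module
  rw [ff, hW, hW, W2_pfB_sq]
  have h9 : (2 * S⁻¹ - 2 * S⁻¹ ^ 2 * (a ^ 2 + b ^ 2)) * (2 * S⁻¹ - 2 * S⁻¹ ^ 2 * (p ^ 2 + q ^ 2)) -
      (2 * S⁻¹ ^ 2 * (a * q - b * p)) * (-(2 * S⁻¹ ^ 2 * (b * p - a * q))) +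
      (-(2 * S⁻¹ ^ 2 * (a * p + b * q))) * (2 * S⁻¹ ^ 2 * (b * q + a * p)) = 0 := by
    field_simp
    rw [hSe]
    ring
  rw [h9, mul_zero, zero_smul]

end Vale.Agent.P277.H884.F
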