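import Vale.Agent.P277.H884.F5b
import Vale.Agent.P277.Stmts5
import Vale.Agent.P277.H60.Iface4

/-!
# P277, F5: the closed 4-form on `Y` defined by a tuple of sections of a line bundle
-/

set_option maxSynthPendingDepth 3

open scoped Manifold ContDiff Topology
open Vale.Agent.P272.K Vale.Agent.P285.H281.FD Vale.Agent.P267.H175 Set Filter
open Vale.Agent.P267.H928.Int ContinuousAlternatingMap

noncomputable section

namespace Vale.Agent.P277.H884.F

open Vale.Agent.P277 Vale.Agent.P277.H60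

variable {Y : Type} [TopologicalSpace Y] [ChartedSpace (Cm 4) Y]
variable {T : Type} {v : Y → T} {L : Bd T} {W : Set Y} {N : ℕ} {F : Fin N → L.ι → Y → ℂ}

/-- `v^* L` is a smooth line bundle over the open set `W` -/
structure GoodB (v : Y → T) (L : Bd T) (W : Set Y) : Prop where
  isOpen : IsOpen W
  isOpen' : ∀ i, IsOpen {y | y ∈ W ∧ v y ∈ L.U i}
  cover : ∀ y ∈ W, ∃ i, v y ∈ L.U i
  smooth : ∀ i j, ∀ y ∈ W, v y ∈ L.U i → v y ∈ L.U j → CSm (fun y => L.g i j (v y)) y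
  ne : ∀ i j, ∀ y ∈ W, v y ∈ L.U i → v y ∈ L.U j → L.g i j (v y) ≠ 0

theorem goodB {X : CSp} {O : Set Y} {v : Y → X.pt} (hv : IsOpenEmb X O v) {L : Bd X.pt}
    (hL : IsLBx X L) {W : Set Y} (hW : IsOpen W) (hWO : W ⊆ O) : GoodB v L W where
  isOpen := hW
  isOpen' i := by
    have h1 : {y | y ∈ W ∧ v y ∈ L.U i} = W ∩ v ⁻¹' (L.U i) := rfl
    rw [h1]
    exact (hv.cont.mono hWO).isOpen_inter_preimage hW (hL.isOpen i)
  cover y _ := hL.cover (v y)
  smooth i j y hy hi hj e he := by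
    have h1 := (hv.hol y (hWO hy) e he (L.g i j)).1 (hL.holo i j _ hi hj)
    exact (h1.contDiffAt (n := ∞)).restrict_scalars ℝ
  ne i j y _ hi hj := hL.ne_zero i j _ hi hj

open Classical in
/-- The 4-form defined by the tuple `F` of sections of `v^* L` over `W`. -/
def eta (v : Y → T) (L : Bd T) (W : Set Y) (F : Fin N → L.ι → Y → ℂ) : Fm 4 Y := fun y =>
  if h : y ∈ W ∧ ∃ i, v y ∈ L.U i then
    ff (fun m z => F m h.2.choose ((chartAt (Cm 4) y).symm z)) (chartAt (Cm 4) y y)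
  else 0

theorem eta_off {y : Y} (hy : y ∉ W) : eta v L W F y = 0 := by
  rw [eta, dif_neg]
  exact fun h => hy h.1

/-- change of frame -/
theorem ff_frame (hG : GoodB v L W) (hF : Tup v L W F) {e : Chart 4 Y} (he : e ∈ atlas (Cm 4) Y)
    {z : Cm 4} (hz : z ∈ e.target) (hzW : e.symm z ∈ W) {i j : L.ι} (hi : v (e.symm z) ∈ L.U i)
    (hj : v (e.symm z) ∈ L.U j) :
    ff (fun m z => F m i (e.symm z)) z = ff (fun m z => F m j (e.symm z)) z := by
  have hA : At e (e.symm z) := ⟨he, e.map_target hz⟩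
  have hez : e (e.symm z) = z := e.right_inv hz
  have h1 : ∀ m, (fun z => F m i (e.symm z)) =ᶠ[𝓝 z]
      fun z => L.g i j (v (e.symm z)) * F m j (e.symm z) := by
    intro m
    have hc : ContinuousAt e.symm z := e.symm.continuousAt hz
    filter_upwards [hc.eventually ((hG.isOpen' i).mem_nhds ⟨hzW, hi⟩),
      hc.eventually ((hG.isOpen' j).mem_nhds ⟨hzW, hj⟩)] with y h2 h3
    exact (hF.sec m).change i j _ h2.1 h2.2 h3.2
  have hsm : ∀ m, ContDiffAt ℝ ∞ (fun z => F m j (e.symm z)) z := fun m => by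
    have := (hF.sec m).smooth j _ hzW hj e hA
    rwa [hez] at this
  have hg : ContDiffAt ℝ ∞ (fun z => L.g i j (v (e.symm z))) z := by
    have := hG.smooth i j _ hzW hi hj e hA
    rwa [hez] at this
  rw [ff_congr h1]
  exact ff_mul hsm hg (hF.ne _ hzW j hj) (hG.ne i j _ hzW hi hj)

theorem eta_eq (hG : GoodB v L W) (hF : Tup v L W F) {y : Y} (hy : y ∈ W) {i : L.ι}
    (hi : v y ∈ L.U i) :
    eta v L W F y = ff (fun m z => F m i ((chartAt (Cm 4) y).symm z)) (chartAt (Cm 4) y y) := by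
  have h : y ∈ W ∧ ∃ i, v y ∈ L.U i := ⟨hy, i, hi⟩
  have hs : (chartAt (Cm 4) y).symm (chartAt (Cm 4) y y) = y :=
    (chartAt (Cm 4) y).left_inv (mem_chart_source _ y)
  rw [eta, dif_pos h]
  refine ff_frame hG hF (chart_mem_atlas _ y) (mem_chart_target _ y) ?_ ?_ ?_
  · rw [hs]; exact hy
  · rw [hs]; exact h.2.choose_spec
  · rw [hs]; exact hi

variable [IsManifold 𝓘(ℂ, Cm 4) ω Y]

/-- the local expression in every chart and frame -/
theorem loc_eta (hG : GoodB v L W) (hF : Tup v L W F) {e : Chart 4 Y} (he : e ∈ atlas (Cm 4) Y)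
    {z : Cm 4} (hz : z ∈ e.target) (hzW : e.symm z ∈ W) {i : L.ι} (hi : v (e.symm z) ∈ L.U i) :
    loc e (eta v L W F) z = ff (fun m z => F m i (e.symm z)) z := by
  set y := e.symm z with hy
  set c := chartAt (Cm 4) y with hc
  have hca : c ∈ atlas (Cm 4) Y := chart_mem_atlas _ y
  have hcy : y ∈ c.source := mem_chart_source _ y
  have hcs : c.symm (c y) = y := c.left_inv hcy
  rw [loc, ← hy, eta_eq hG hF hzW hi]
  have hφ : ContDiffAt ℝ ∞ (fun x => c (e.symm x)) z := trR he hca hz hcy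
  have hsm : ∀ m, ContDiffAt ℝ ∞ (fun z => F m i (c.symm z)) (c (e.symm z)) := fun m =>
    (hF.sec m).smooth i _ hzW hi c ⟨hca, hcy⟩
  have h0 : ∃ m, F m i (c.symm (c (e.symm z))) ≠ 0 := by
    rw [← hy, hcs]
    exact hF.ne y hzW i hi
  have h1 := ff_comp (F := fun m z => F m i (c.symm z)) (φ := fun x => c (e.symm x)) hφ hsm h0
  refine h1.symm.trans (ff_congr fun m => ?_)
  have h2 : ∀ᶠ x in 𝓝 z, e.symm x ∈ c.source :=
    (e.symm.continuousAt hz).eventually (c.open_source.mem_nhds hcy)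
  filter_upwards [h2] with x hx
  show F m i (c.symm (c (e.symm x))) = _
  rw [c.left_inv hx]

theorem loc_eta_nhds (hG : GoodB v L W) (hF : Tup v L W F) {e : Chart 4 Y}
    (he : e ∈ atlas (Cm 4) Y) {y : Y} (hye : y ∈ e.source) (hyW : y ∈ W) {i : L.ι}
    (hi : v y ∈ L.U i) :
    loc e (eta v L W F) =ᶠ[𝓝 (e y)] ff (fun m z => F m i (e.symm z)) := by
  have hs : e.symm (e y) = y := e.left_inv hye
  have h1 : ∀ᶠ x in 𝓝 (e y), e.symm x ∈ W ∧ v (e.symm x) ∈ L.U i :=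
    (e.symm.continuousAt (e.map_source hye)).eventually
      ((hG.isOpen' i).mem_nhds (by rw [hs]; exact ⟨hyW, hi⟩))
  filter_upwards [h1, e.open_target.mem_nhds (e.map_source hye)] with x hx hx2
  exact loc_eta hG hF he hx2 hx.1 hx.2

theorem smAt_eta (hG : GoodB v L W) (hF : Tup v L W F) {y : Y} (hyW : y ∈ W) :
    SmAt (eta v L W F) y := by
  obtain ⟨i, hi⟩ := hG.cover y hyW
  have hA : At (chartAt (Cm 4) y) y := ⟨chart_mem_atlas _ y, mem_chart_source _ y⟩
  have hs : (chartAt (Cm 4) y).symm (chartAt (Cm 4) y y) = y :=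
    (chartAt (Cm 4) y).left_inv (mem_chart_source _ y)
  refine ContDiffAt.congr_of_eventuallyEq ?_ (loc_eta_nhds hG hF hA.1 hA.2 hyW hi)
  refine cd_ff (fun m => (hF.sec m).smooth i _ hyW hi _ hA) ?_
  rw [hs]
  exact hF.ne y hyW i hi

theorem dF_eta (hG : GoodB v L W) (hF : Tup v L W F) {y : Y} (hyW : y ∈ W) :
    dF (eta v L W F) y = 0 := by
  obtain ⟨i, hi⟩ := hG.cover y hyW
  have hA : At (chartAt (Cm 4) y) y := ⟨chart_mem_atlas _ y, mem_chart_source _ y⟩
  have hs : (chartAt (Cm 4) y).symm (chartAt (Cm 4) y y) = y :=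
    (chartAt (Cm 4) y).left_inv (mem_chart_source _ y)
  rw [dF, (loc_eta_nhds hG hF hA.1 hA.2 hyW hi).extDeriv_eq]
  refine extDeriv_ff (fun m => (hF.sec m).smooth i _ hyW hi _ hA) ?_
  rw [hs]
  exact hF.ne y hyW i hi

omit [IsManifold 𝓘(ℂ, Cm 4) ω Y] in
theorem eta_zero_of {n : ℕ} {F : Fin (n + 2) → L.ι → Y → ℂ} (hG : GoodB v L W)
    (hF : Tup v L W F) {C₀ : Set Y} (hC : IsClosed C₀)
    (h0 : ∀ y ∈ W, y ∉ C₀ → ∀ i, v y ∈ L.U i → ∀ m : Fin (n + 2), 2 ≤ m.val → F m i y = 0)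
    {y : Y} (hy : y ∉ C₀) : eta v L W F y = 0 := by
  by_cases hyW : y ∈ W
  swap
  · exact eta_off hyW
  obtain ⟨i, hi⟩ := hG.cover y hyW
  rw [eta_eq hG hF hyW hi]
  set e := chartAt (Cm 4) y
  have hA : At e y := ⟨chart_mem_atlas _ y, mem_chart_source _ y⟩
  have hs : e.symm (e y) = y := e.left_inv hA.2
  refine ff_pair (fun m => (hF.sec m).smooth i _ hyW hi _ hA) ?_ fun m hm => ?_
  · rw [hs]
    exact hF.ne y hyW i hi
  · have hc := e.symm.continuousAt (e.map_source hA.2)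
    filter_upwards [hc.eventually ((hG.isOpen' i).mem_nhds (by rw [hs]; exact ⟨hyW, hi⟩)),
      hc.eventually (hC.isOpen_compl.mem_nhds (by rw [hs]; exact hy))] with x h1 h2
    exact h0 _ h1.1 h2 i h1.2 m hm

theorem ccf_eta [T2Space Y] {n : ℕ} {F : Fin (n + 2) → L.ι → Y → ℂ} (hG : GoodB v L W)
    (hF : Tup v L W F) {C₀ : Set Y} (hCW : C₀ ⊆ W) (hC : IsCompact C₀)
    (h0 : ∀ y ∈ W, y ∉ C₀ → ∀ i, v y ∈ L.U i → ∀ m : Fin (n + 2), 2 ≤ m.val → F m i y = 0) :
    CCF W (eta v L W F) where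
  sm y := by
    by_cases hy : y ∈ C₀
    · exact smAt_eta hG hF (hCW hy)
    · refine (smAt_zero y).congr ?_
      filter_upwards [hC.isClosed.isOpen_compl.mem_nhds hy] with x hx
      exact eta_zero_of hG hF hC.isClosed h0 hx
  closed y := by
    by_cases hy : y ∈ C₀
    · exact dF_eta hG hF (hCW hy)
    · have h1 : eta v L W F =ᶠ[𝓝 y] (0 : Fm 4 Y) := by
        filter_upwards [hC.isClosed.isOpen_compl.mem_nhds hy] with x hx
        exact eta_zero_of hG hF hC.isClosed h0 hx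
      rw [dF_congr h1]
      have h2 := dF_smul (0 : ℝ) (0 : Fm 4 Y) y
      rw [zero_smul, zero_smul] at h2
      exact h2
  cpt := ⟨C₀, hCW, hC, fun y hy => eta_zero_of hG hF hC.isClosed h0 hy⟩

end Vale.Agent.P277.H884.F
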