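import Vale.Agent.P277.H884.F5c
import Vale.Agent.P277.H619.Wdg

/-!
# P277, F5: the value of the 4-form at a point where the tuple is radial
-/

set_option maxSynthPendingDepth 3

open scoped Manifold ContDiff Topology
open Vale.Agent.P272.K Vale.Agent.P285.H281.FD Vale.Agent.P267.H175 Set Filter
open Vale.Agent.P267.H928.Int ContinuousAlternatingMap

noncomputable section

namespace Vale.Agent.P277.H884.F

open Vale.Agent.P277 Vale.Agent.P277.H60

/-- the density of the radial form -/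
def kap (c : ℝ → ℝ) (t : ℝ) : ℝ := 8 * (c t ^ 2 - 2 * t * c t * deriv c t) / (t + c t ^ 2) ^ 3

section loc

variable {E : Type*} [NormedAddCommGroup E] [NormedSpace ℝ E]

theorem al_rad {n : ℕ} (f f' : E → ℂ) (c : ℝ → ℝ) (z : E) :
    al (Fin.cons f (Fin.cons f' (Fin.cons (fun z => (c (‖f z‖ ^ 2 + ‖f' z‖ ^ 2) : ℂ))
      (fun _ => fun _ => 0))) : Fin (n + 3) → E → ℂ) z =
      (((f z).re ^ 2 + (f z).im ^ 2 + (f' z).re ^ 2 + (f' z).im ^ 2) +
        c ((f z).re ^ 2 + (f z).im ^ 2 + (f' z).re ^ 2 + (f' z).im ^ 2) ^ 2)⁻¹ •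
      H335.th (fun w => (f w).re) (fun w => (f w).im) (fun w => (f' w).re) (fun w => (f' w).im)
        z := by
  have h1 : ‖f z‖ ^ 2 + ‖f' z‖ ^ 2 = (f z).re ^ 2 + (f z).im ^ 2 + (f' z).re ^ 2 + (f' z).im ^ 2 := by
    rw [H335.norm_sq_eq, H335.norm_sq_eq]
    ring
  rw [al_eq, H335.al]
  simp only [Fin.sum_univ_succ, Fin.cons_zero, Fin.cons_succ, Complex.ofReal_re, Complex.ofReal_im,
    norm_zero, Complex.zero_re, Complex.zero_im]
  simp only [fderiv_const_apply, zero_smul, smul_zero, sub_zero,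
    Finset.sum_const_zero, add_zero, ne_eq, OfNat.ofNat_ne_zero, not_false_eq_true, zero_pow,
    Complex.norm_real, Real.norm_eq_abs, sq_abs]
  rw [← add_assoc, h1]
  rfl

/-- the value of `ff` at a radial point -/
theorem ff_rad {n : ℕ} {G : Fin (n + 3) → E → ℂ} {f f' : E → ℂ} {c : ℝ → ℝ} {x : E}
    (hc : ContDiff ℝ ∞ c) (hf : ContDiffAt ℝ ∞ f x) (hf' : ContDiffAt ℝ ∞ f' x)
    (hS : ‖f x‖ ^ 2 + ‖f' x‖ ^ 2 + c (‖f x‖ ^ 2 + ‖f' x‖ ^ 2) ^ 2 ≠ 0)
    (h : ∀ᶠ z in 𝓝 x, G 0 z = f z ∧ G 1 z = f' z ∧ G 2 z = (c (‖f z‖ ^ 2 + ‖f' z‖ ^ 2) : ℂ) ∧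
      ∀ m : Fin (n + 3), 3 ≤ m.val → G m z = 0) :
    ff G x = kap c (‖f x‖ ^ 2 + ‖f' x‖ ^ 2) • wedge1 (Complex.reCLM ∘L fderiv ℝ f x)
      (wedge1 (Complex.imCLM ∘L fderiv ℝ f x) (wedge1 (Complex.reCLM ∘L fderiv ℝ f' x)
        (wedge1 (Complex.imCLM ∘L fderiv ℝ f' x) (constOfIsEmpty ℝ E (Fin 0) (1 : ℝ))))) := by
  have h1 : ‖f x‖ ^ 2 + ‖f' x‖ ^ 2 = (f x).re ^ 2 + (f x).im ^ 2 + (f' x).re ^ 2 +
      (f' x).im ^ 2 := by
    rw [H335.norm_sq_eq, H335.norm_sq_eq]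
    ring
  rw [h1] at hS ⊢
  have hev : ∀ m : Fin (n + 3), G m =ᶠ[𝓝 x] (Fin.cons f (Fin.cons f' (Fin.cons
      (fun z => (c (‖f z‖ ^ 2 + ‖f' z‖ ^ 2) : ℂ)) (fun _ => fun _ => 0))) :
        Fin (n + 3) → E → ℂ) m := by
    intro m
    filter_upwards [h] with z hz
    refine Fin.cases ?_ (fun m => ?_) m
    · exact hz.1
    refine Fin.cases ?_ (fun m => ?_) m
    · exact hz.2.1
    refine Fin.cases ?_ (fun m => ?_) m
    · exact hz.2.2.1
    · rw [hz.2.2.2 _ (by simp)]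
      rfl
  have hal : al G =ᶠ[𝓝 x] fun z => (fun t => (t + c t ^ 2)⁻¹)
      ((f z).re ^ 2 + (f z).im ^ 2 + (f' z).re ^ 2 + (f' z).im ^ 2) •
      H335.th (fun w => (f w).re) (fun w => (f w).im) (fun w => (f' w).re) (fun w => (f' w).im)
        z := by
    filter_upwards [al_congr hev] with z hz
    rw [hz, al_rad]
  set t := (f x).re ^ 2 + (f x).im ^ 2 + (f' x).re ^ 2 + (f' x).im ^ 2 with ht
  have hcd : HasDerivAt c (deriv c t) t := (hc.differentiable (by simp) t).hasDerivAt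
  have hd : HasDerivAt (fun t => (t + c t ^ 2)⁻¹)
      (-(1 + 2 * c t * deriv c t) / (t + c t ^ 2) ^ 2) t := by
    have h3 := ((hasDerivAt_id t).add (hcd.pow 2)).inv hS
    have h4 : HasDerivAt (fun t => (t + c t ^ 2)⁻¹)
      (-(1 + ((2 : ℕ) : ℝ) * c t ^ (2 - 1) * deriv c t) / (t + c t ^ 2) ^ 2) t := h3
    simpa using h4
  have h4 : ∀ {k : ℕ} (β : E [⋀^Fin k]→L[ℝ] ℝ), W2 (fderiv ℝ (al G) x)
      (W2 (fderiv ℝ (al G) x) β) = (8 * ((t + c t ^ 2)⁻¹ * ((t + c t ^ 2)⁻¹ + t *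
        deriv (fun t => (t + c t ^ 2)⁻¹) t))) • wedge1 (fderiv ℝ (fun w => (f w).re) x)
        (wedge1 (fderiv ℝ (fun w => (f w).im) x) (wedge1 (fderiv ℝ (fun w => (f' w).re) x)
          (wedge1 (fderiv ℝ (fun w => (f' w).im) x) β))) := fun {k} β => by
    rw [hal.fderiv_eq]
    exact H335.rad_formula (H335.contDiffAt_re hf) (H335.contDiffAt_im hf)
      (H335.contDiffAt_re hf') (H335.contDiffAt_im hf') hd.differentiableAt β
  have e1 : fderiv ℝ (fun w => (f w).re) x = Complex.reCLM ∘L fderiv ℝ f x :=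
    (Complex.reCLM.hasFDerivAt.comp x (hf.differentiableAt (by simp)).hasFDerivAt).fderiv
  have e2 : fderiv ℝ (fun w => (f w).im) x = Complex.imCLM ∘L fderiv ℝ f x :=
    (Complex.imCLM.hasFDerivAt.comp x (hf.differentiableAt (by simp)).hasFDerivAt).fderiv
  have e3 : fderiv ℝ (fun w => (f' w).re) x = Complex.reCLM ∘L fderiv ℝ f' x :=
    (Complex.reCLM.hasFDerivAt.comp x (hf'.differentiableAt (by simp)).hasFDerivAt).fderiv
  have e4 : fderiv ℝ (fun w => (f' w).im) x = Complex.imCLM ∘L fderiv ℝ f' x :=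
    (Complex.imCLM.hasFDerivAt.comp x (hf'.differentiableAt (by simp)).hasFDerivAt).fderiv
  rw [ff, h4, e1, e2, e3, e4, hd.deriv]
  congr 1
  rw [kap]
  field_simp
  ring

end loc

section glob

variable {Y : Type} [TopologicalSpace Y] [ChartedSpace (Cm 4) Y] [IsManifold 𝓘(ℂ, Cm 4) ω Y]

/-- the closed 4-form defined by a tuple of sections -/
theorem exists_eta [T2Space Y] {T : Type} [TopologicalSpace T] (v : Y → T) (P : Bd T) (W : Set Y)
    (hW : IsOpen W) (hv : ContinuousOn v W) (hU : ∀ i, IsOpen (P.U i)) (hcov : ∀ x, ∃ i, x ∈ P.U i)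
    (hg : ∀ i j, ∀ y ∈ W, v y ∈ P.U i → v y ∈ P.U j →
      CSm (fun y => P.g i j (v y)) y ∧ P.g i j (v y) ≠ 0) {n : ℕ}
    (F : Fin (n + 3) → P.ι → Y → ℂ) (hF : Tup v P W F) (C₀ : Set Y) (hC : C₀ ⊆ W)
    (hCc : IsCompact C₀)
    (h2 : ∀ y ∈ W, y ∉ C₀ → ∀ i, v y ∈ P.U i → ∀ m : Fin (n + 3), 2 ≤ m.val → F m i y = 0) :
    ∃ η : Fm 4 Y, (∀ y, SmAt η y) ∧ (∀ y, dF η y = 0) ∧ (∀ y ∉ C₀, η y = 0) ∧
      ∀ y ∈ W, ∀ i, v y ∈ P.U i → ∀ (f f' : Y → ℂ) (c : ℝ → ℝ), Rad (fun m => F m i) f f' y c →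
        ∀ e ∈ atlas (Cm 4) Y, y ∈ e.source →
          loc e η (e y) = kap c (‖f y‖ ^ 2 + ‖f' y‖ ^ 2) •
            wedge1 (Complex.reCLM ∘L fderiv ℝ (fun z => f (e.symm z)) (e y))
              (wedge1 (Complex.imCLM ∘L fderiv ℝ (fun z => f (e.symm z)) (e y))
                (wedge1 (Complex.reCLM ∘L fderiv ℝ (fun z => f' (e.symm z)) (e y))
                  (wedge1 (Complex.imCLM ∘L fderiv ℝ (fun z => f' (e.symm z)) (e y))
                    H619.one0))) ∧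
          ∀ {q : ℕ} (β : Cm 4 [⋀^Fin q]→L[ℝ] ℝ), wdg (loc e η (e y)) β =
            kap c (‖f y‖ ^ 2 + ‖f' y‖ ^ 2) •
            wedge1 (Complex.reCLM ∘L fderiv ℝ (fun z => f (e.symm z)) (e y))
              (wedge1 (Complex.imCLM ∘L fderiv ℝ (fun z => f (e.symm z)) (e y))
                (wedge1 (Complex.reCLM ∘L fderiv ℝ (fun z => f' (e.symm z)) (e y))
                  (wedge1 (Complex.imCLM ∘L fderiv ℝ (fun z => f' (e.symm z)) (e y)) β))) := by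
  have hG : GoodB v P W :=
    { isOpen := hW
      isOpen' := fun i => hv.isOpen_inter_preimage hW (hU i)
      cover := fun y _ => hcov (v y)
      smooth := fun i j y hy hi hj => (hg i j y hy hi hj).1
      ne := fun i j y hy hi hj => (hg i j y hy hi hj).2 }
  have hccf := ccf_eta hG hF hC hCc h2
  refine ⟨eta v P W F, hccf.sm, hccf.closed, fun y hy => eta_zero_of hG hF hCc.isClosed h2 hy, ?_⟩
  intro y hy i hi f f' c hR e he hye
  have hs : e.symm (e y) = y := e.left_inv hye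
  have hc := e.symm.continuousAt (e.map_source hye)
  have hR2 : ∀ᶠ z in 𝓝 (e y), F 0 i (e.symm z) = f (e.symm z) ∧ F 1 i (e.symm z) = f' (e.symm z) ∧
      F 2 i (e.symm z) = (c (‖f (e.symm z)‖ ^ 2 + ‖f' (e.symm z)‖ ^ 2) : ℂ) ∧
      ∀ m : Fin (n + 3), 3 ≤ m.val → F m i (e.symm z) = 0 := by
    have hR1 := hR.eq
    rw [← hs] at hR1
    exact hc.eventually hR1
  have hsm : ∀ m, ContDiffAt ℝ ∞ (fun z => F m i (e.symm z)) (e y) := fun m =>
    (hF.sec m).smooth i y hy hi e ⟨he, hye⟩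
  have hf : ContDiffAt ℝ ∞ (fun z => f (e.symm z)) (e y) := by
    refine (hsm 0).congr_of_eventuallyEq ?_
    filter_upwards [hR2] with z hz
    exact hz.1.symm
  have hf' : ContDiffAt ℝ ∞ (fun z => f' (e.symm z)) (e y) := by
    refine (hsm 1).congr_of_eventuallyEq ?_
    filter_upwards [hR2] with z hz
    exact hz.2.1.symm
  have hS : ‖f y‖ ^ 2 + ‖f' y‖ ^ 2 + c (‖f y‖ ^ 2 + ‖f' y‖ ^ 2) ^ 2 ≠ 0 := by
    intro h0
    have hR0 := hR.eq.self_of_nhds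
    have b1 := sq_nonneg (‖f y‖)
    have b2 := sq_nonneg (‖f' y‖)
    have b3 := sq_nonneg (c (‖f y‖ ^ 2 + ‖f' y‖ ^ 2))
    have a1 : ‖f y‖ ^ 2 = 0 := by linarith
    have a2 : ‖f' y‖ ^ 2 = 0 := by linarith
    rw [a1, a2] at h0
    have a3 : c 0 = 0 := by simpa using h0
    exact hR.pos.ne' a3
  have key := ff_rad (G := fun m z => F m i (e.symm z)) hR.smooth hf hf'
    (by rw [hs]; exact hS) hR2
  rw [hs] at key
  have hloc : loc e (eta v P W F) (e y) = ff (fun m z => F m i (e.symm z)) (e y) :=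
    loc_eta hG hF he (e.map_source hye) (by rw [hs]; exact hy) (by rw [hs]; exact hi)
  have h5 : loc e (eta v P W F) (e y) = kap c (‖f y‖ ^ 2 + ‖f' y‖ ^ 2) •
            wedge1 (Complex.reCLM ∘L fderiv ℝ (fun z => f (e.symm z)) (e y))
              (wedge1 (Complex.imCLM ∘L fderiv ℝ (fun z => f (e.symm z)) (e y))
                (wedge1 (Complex.reCLM ∘L fderiv ℝ (fun z => f' (e.symm z)) (e y))
                  (wedge1 (Complex.imCLM ∘L fderiv ℝ (fun z => f' (e.symm z)) (e y))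
                    H619.one0))) := hloc.trans key
  refine ⟨h5, fun {q} β => ?_⟩
  rw [h5, H619.wdg_smul_left]
  congr 1
  erw [H619.wdg_wedge1, H619.wdg_wedge1, H619.wdg_wedge1, H619.wdg_wedge1, H619.wdg_one0]

end glob

end Vale.Agent.P277.H884.F
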