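import Vale.Agent.P277.H884.CovLift
import Vale.Agent.P277.A.Emb
import Mathlib.Topology.Baire.Lemmas
import Mathlib.Topology.Baire.CompleteMetrizable

/-!
# P277, TX-MIN: admissible coverings of minimal degree
-/

open scoped Manifold ContDiff Topology
open Vale.Agent.P272.K Vale.Agent.P285.H281.FD Set Filter Metric

noncomputable section

namespace Vale.Agent.P277.TX

variable {X : CSp} {U₀ S V : Set X.pt} {G : X.pt → Cm 4} {c : Cm 4} {r : ℝ} {d : ℕ}
  {lam : X.pt → ℂ} {θ : Cm 4 → ℂ}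

/-- A branched covering (inside the open set `U₀`) which maps `S` onto the plane
`{z 0 = z 1 = 0}`. -/
structure Adm (X : CSp) (U₀ S V : Set X.pt) (G : X.pt → Cm 4) (c : Cm 4) (r : ℝ) (d : ℕ) :
    Prop where
  sub : V ⊆ U₀
  cov : ∃ (lam : X.pt → ℂ) (θ : Cm 4 → ℂ), IsCov X V G c r d lam θ
  coord : ∃ (n : ℕ) (ζ : Fin n → X.pt → ℂ), IsCoord X V ζ
  c0 : c 0 = 0
  c1 : c 1 = 0
  onS : ∀ x ∈ V, x ∈ S → G x 0 = 0 ∧ G x 1 = 0
  surj : ∀ z ∈ ball c r, z 0 = 0 → z 1 = 0 → ∃ x ∈ V, x ∈ S ∧ G x = z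

/-- compactness of the part of the covering over a closed ball -/
theorem IsCov.isCompact_over (h : IsCov X V G c r d lam θ) {z : Cm 4} {s : ℝ}
    (hz : closedBall z s ⊆ ball c r) : IsCompact {x | x ∈ V ∧ G x ∈ closedBall z s} := by
  have hcz : IsCompact (closedBall z s) := ProperSpace.isCompact_closedBall z s
  obtain ⟨r', hr', hsub⟩ : ∃ r' < r, closedBall z s ⊆ closedBall c r' := by
    rcases (closedBall z s).eq_empty_or_nonempty with he | hne
    · exact ⟨r - 1, by linarith, by rw [he]; exact empty_subset _⟩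
    · obtain ⟨w, hw, hmax⟩ := hcz.exists_isMaxOn hne
        (continuous_id.dist (continuous_const (y := c))).continuousOn
      exact ⟨dist w c, mem_ball.1 (hz hw), fun y hy => mem_closedBall.2 (hmax hy)⟩
  have h1 := h.proper r' hr'
  have h2 : ContinuousOn G {x | x ∈ V ∧ G x ∈ closedBall c r'} := fun x hx =>
    (h.continuousAt hx.1).continuousWithinAt
  have h3 : {x | x ∈ V ∧ G x ∈ closedBall z s} =
      {x | x ∈ V ∧ G x ∈ closedBall c r'} ∩ G ⁻¹' closedBall z s := by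
    ext x
    exact ⟨fun hx => ⟨⟨hx.1, hsub hx.2⟩, hx.2⟩, fun hx => ⟨hx.1.1, hx.2⟩⟩
  rw [h3]
  obtain ⟨u, hu, hu'⟩ := (continuousOn_iff_isClosed.1 h2) (closedBall z s) isClosed_closedBall
  rw [inter_comm, hu', inter_comm]
  exact h1.inter_right hu

/-- In an admissible covering of minimal degree there is one point over each point of the plane. -/
theorem Adm.uniq (hloc : StCovLoc) (hres : StCovRes) (hS : IsClosed S) (h : Adm X U₀ S V G c r d)
    (hmin : ∀ (V' : Set X.pt) (G' : X.pt → Cm 4) (c' : Cm 4) (r' : ℝ) (d' : ℕ),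
      Adm X U₀ S V' G' c' r' d' → d ≤ d') :
    ∀ x ∈ V, G x 0 = 0 → G x 1 = 0 → ∀ y ∈ V, G y = G x → y = x := by
  classical
  intro x hx hx0 hx1 y hy hyx
  by_contra hne
  obtain ⟨lam, θ, hc⟩ := h.cov
  have hz := hc.maps x hx
  set z := G x with hzdef
  -- enumeration of the fibre
  have hfin := (hc.finite z hz).1
  obtain ⟨m, p, hpinj, hp⟩ : ∃ (m : ℕ) (p : Fin m → X.pt), Function.Injective p ∧
      ∀ y, (∃ k, p k = y) ↔ y ∈ V ∧ G y = z := by
    let F := hfin.toFinset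
    refine ⟨F.card, fun k => (F.equivFin.symm k).1, ?_, ?_⟩
    · intro a b hab
      exact F.equivFin.symm.injective (Subtype.ext hab)
    · intro y
      constructor
      · rintro ⟨k, rfl⟩
        have := (F.equivFin.symm k).2
        exact (hfin.mem_toFinset).1 this
      · intro hy
        exact ⟨F.equivFin ⟨y, (hfin.mem_toFinset).2 hy⟩, by simp⟩
  obtain ⟨kx, hkx⟩ := (hp x).2 ⟨hx, rfl⟩
  obtain ⟨ky, hky⟩ := (hp y).2 ⟨hy, hyx⟩
  have hk : kx ≠ ky := by
    rintro rfl
    exact hne (hky.symm.trans hkx)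
  obtain ⟨r', V', d', hr', hsub, hV', -, hcov, hsum⟩ := hloc X V G c r d lam θ hc z hz m p hpinj hp
    (fun _ => univ) (fun _ => univ_mem)
  have hlt : ∀ k, d' k < d := by
    intro k
    obtain ⟨l, hl⟩ : ∃ l, l ≠ k := by
      by_cases h0 : kx = k
      · exact ⟨ky, fun h1 => hk (h0.trans h1.symm)⟩
      · exact ⟨kx, h0⟩
    have h1 : d' k + d' l ≤ ∑ k, d' k := by
      rw [← Finset.sum_pair hl.symm]
      exact Finset.sum_le_sum_of_subset (Finset.subset_univ _)
    have h2 := (hV' l).1.dpos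
    omega
  -- the plane
  let ι : Cm 2 → Cm 4 := fun w => ![0, 0, w 0, w 1]
  let π : Cm 4 → Cm 2 := fun w => ![w 2, w 3]
  have hι : ∀ w : Cm 4, w 0 = 0 → w 1 = 0 → ι (π w) = w := by
    intro w h0 h1
    ext i; fin_cases i
    · exact h0.symm
    · exact h1.symm
    · rfl
    · rfl
  have hπι : ∀ w, π (ι w) = w := by
    intro w; ext i; fin_cases i <;> rfl
  have hπ : Continuous π := by
    refine continuous_pi fun i => ?_
    fin_cases i
    · exact continuous_apply 2
    · exact continuous_apply 3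
  have hdist : ∀ w w' : Cm 4, dist (π w) (π w') ≤ dist w w' := by
    intro w w'
    refine (dist_pi_le_iff dist_nonneg).2 fun i => ?_
    fin_cases i
    · exact dist_le_pi_dist w w' 2
    · exact dist_le_pi_dist w w' 3
  have hdist' : ∀ w w' : Cm 2, dist (ι w) (ι w') ≤ dist w w' := by
    intro w w'
    refine (dist_pi_le_iff dist_nonneg).2 fun i => ?_
    fin_cases i
    · simp [ι]
    · simp [ι]
    · exact dist_le_pi_dist w w' 0
    · exact dist_le_pi_dist w w' 1
  have hr2 : r' / 2 < r' := by linarith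
  -- the closed sets
  let K : Fin m → Set X.pt := fun k => {x | x ∈ V' k ∧ G x ∈ closedBall z (r' / 2)} ∩ S
  have hK : ∀ k, IsCompact (K k) := fun k => ((hV' k).1.proper _ hr2).inter_right hS
  have hKc : ∀ k, IsClosed ((π ∘ G) '' K k) := by
    intro k
    refine ((hK k).image_of_continuousOn ?_).isClosed
    intro x hx
    exact (hπ.continuousAt.comp ((hV' k).1.continuousAt hx.1.1)).continuousWithinAt
  let f : Option (Fin m) → Set (Cm 2) := fun o =>
    match o with
    | none => (ball (π z) (r' / 2))ᶜ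
    | some k => (π ∘ G) '' K k
  have hf : ∀ o, IsClosed (f o) := by
    rintro (_ | k)
    · exact isOpen_ball.isClosed_compl
    · exact hKc k
  have hfU : ⋃ o, f o = univ := by
    refine eq_univ_of_forall fun w => ?_
    by_cases hw : w ∈ ball (π z) (r' / 2)
    · have h1 : ι w ∈ ball z (r' / 2) := by
        rw [mem_ball, ← hι z hx0 hx1]
        exact (hdist' _ _).trans_lt hw
      obtain ⟨q, hqV, hqS, hq⟩ := h.surj (ι w) (hsub (ball_subset_ball hr2.le h1)) rfl rfl
      obtain ⟨k, hqk⟩ := hcov q hqV (by rw [hq]; exact ball_subset_ball hr2.le h1)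
      refine mem_iUnion.2 ⟨some k, q, ⟨⟨hqk, ?_⟩, hqS⟩, ?_⟩
      · rw [hq]; exact ball_subset_closedBall h1
      · simp only [Function.comp, hq, hπι]
    · exact mem_iUnion.2 ⟨none, hw⟩
  have hdense := dense_iUnion_interior_of_closed hf hfU
  obtain ⟨w, hw1, hw2⟩ := hdense.inter_open_nonempty _ isOpen_ball
    ⟨π z, mem_ball_self (show 0 < r' / 2 by linarith)⟩
  obtain ⟨o, ho⟩ := mem_iUnion.1 hw2
  rcases o with _ | k
  · exact interior_subset ho hw1
  obtain ⟨δ₁, hδ₁, hδsub⟩ := Metric.mem_nhds_iff.1 (mem_interior_iff_mem_nhds.1 ho)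
  have hιw : ι w ∈ ball z r' := by
    rw [mem_ball, ← hι z hx0 hx1]
    exact ((hdist' _ _).trans_lt hw1).trans (by linarith)
  obtain ⟨δ₂, hδ₂, hδsub₂⟩ := Metric.mem_nhds_iff.1 (isOpen_ball.mem_nhds hιw)
  set δ := min δ₁ δ₂ with hδ
  have hδpos : 0 < δ := lt_min hδ₁ hδ₂
  have hcov' := hres X (V' k) G z r' (d' k) lam θ (hV' k).1 (ι w) δ hδpos
    ((ball_subset_ball (min_le_right _ _)).trans hδsub₂)
  have hVk : ∀ x ∈ V' k, x ∈ V := fun x hx => ((hV' k).2.2.1 hx).2
  have hadm : Adm X U₀ S {x | x ∈ V' k ∧ G x ∈ ball (ι w) δ} G (ι w) δ (d' k) := by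
    obtain ⟨n, ζ, hζ⟩ := h.coord
    refine ⟨fun x hx => h.sub (hVk x hx.1), ⟨lam, θ, hcov'⟩,
      ⟨n, ζ, hζ.mono hcov'.isOpen fun x hx => hVk x hx.1⟩, rfl, rfl,
      fun x hx hxS => h.onS x (hVk x hx.1) hxS, fun z' hz' h0 h1 => ?_⟩
    have h2 : π z' ∈ ball w δ₁ := by
      rw [mem_ball]
      have h3 := hdist z' (ι w)
      rw [hπι] at h3
      exact h3.trans_lt ((mem_ball.1 hz').trans_le (min_le_left _ _))
    obtain ⟨q, ⟨⟨hq1, -⟩, hqS⟩, hq⟩ := hδsub h2
    have hq3 := h.onS q (hVk q hq1) hqS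
    have hGq : G q = z' := by
      rw [← hι (G q) hq3.1 hq3.2, ← hι z' h0 h1]
      exact congrArg ι hq
    exact ⟨q, ⟨hq1, by rw [hGq]; exact hz'⟩, hqS, hGq⟩
  have := hmin _ _ _ _ _ hadm
  exact absurd (hlt k) (not_lt.2 this)

end Vale.Agent.P277.TX
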