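import Vale.Agent.P277.H884.Min2

/-!
# P277, TX-MIN: the reducedness of the fibres over the plane
-/

open scoped Manifold ContDiff Topology
open Vale.Agent.P272.K Vale.Agent.P285.H281.FD Set Filter Metric

noncomputable section

namespace Vale.Agent.P277.TX

variable {X : CSp} {U₀ S V : Set X.pt} {G : X.pt → Cm 4} {c : Cm 4} {r : ℝ} {d : ℕ}
  {lam : X.pt → ℂ} {θ : Cm 4 → ℂ}

theorem det_ne_zero_of_injective {T : Cm 4 →L[ℂ] Cm 4} (hT : Function.Injective T) :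
    LinearMap.det (T : Cm 4 →ₗ[ℂ] Cm 4) ≠ 0 := by
  let L : Cm 4 ≃ₗ[ℂ] Cm 4 := LinearEquiv.ofInjectiveEndo (T : Cm 4 →ₗ[ℂ] Cm 4) hT
  have h1 := L.isUnit_det'
  exact h1.ne_zero

/-- Small perturbations of admissible coverings by multiples of a function vanishing on `S`. -/
theorem Adm.pert {Y : Type} [TopologicalSpace Y] [T2Space Y] [CompactSpace Y]
    [ChartedSpace (Cm 4) Y] [IsManifold 𝓘(ℂ, Cm 4) ω Y] (hP : StCovP) (hR : StRank)
    (hX : IsNormal 4 X) {O : Set Y} {v : Y → X.pt} (hv : IsOpenEmb X O v)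
    (hdim : DimLe X 2 (v '' O)ᶜ) (h : Adm X U₀ S V G c r d) {f : X.pt → ℂ}
    (hf : ∀ x ∈ V, X.Hol f x) (hfS : ∀ x ∈ V, x ∈ S → f x = 0) {p : X.pt} (hp : p ∈ V)
    (hpS : p ∈ S) :
    ∃ s > 0, ball (G p) (2 * s) ⊆ ball c r ∧ ∃ δ > 0, ∀ a : Cm 4, ‖a‖ < δ → ∃ d' ≤ d,
      Adm X U₀ S {q | q ∈ V ∧ G q ∈ ball (G p) (2 * s) ∧ G q + f q • a ∈ ball (G p) s}
        (fun q => G q + f q • a) (G p) s d' := by
  obtain ⟨lam, θ, hc⟩ := h.cov
  have hGp := hc.maps p hp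
  obtain ⟨s₀, hs₀, hs₀sub⟩ := Metric.nhds_basis_closedBall.mem_iff.1 (isOpen_ball.mem_nhds hGp)
  set s := s₀ / 2 with hs
  have hspos : 0 < s := half_pos hs₀
  have h2s : 2 * s = s₀ := by rw [hs]; ring
  refine ⟨s, hspos, ?_⟩
  rw [h2s]
  have hsub : ball (G p) s₀ ⊆ ball c r := ball_subset_closedBall.trans hs₀sub
  set K : Set X.pt := {x | x ∈ V ∧ G x ∈ closedBall (G p) s₀} with hK
  have hKc : IsCompact K := hc.isCompact_over hs₀sub
  have hfc : ContinuousOn f K := fun x hx => (hol_continuousAt (hf x hx.1)).continuousWithinAt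
  obtain ⟨B₀, hB₀⟩ := hKc.exists_bound_of_continuousOn hfc
  set B := max B₀ 0 with hBdef
  have hB : ∀ x ∈ K, ‖f x‖ ≤ B := fun x hx => (hB₀ x hx).trans (le_max_left _ _)
  have hB0 : 0 ≤ B := le_max_right _ _
  have hB' : ∀ x ∈ V, G x ∈ ball (G p) s₀ → ‖f x‖ ≤ B := fun x hx hx' =>
    hB x ⟨hx, ball_subset_closedBall hx'⟩
  obtain ⟨δ₀, hδ₀, hdeg⟩ := hc.degree_le hf hsub hB' hB0 hspos (by rw [← h2s]; linarith)
  refine ⟨hsub, min δ₀ (s / (B + 2)), lt_min hδ₀ (by positivity), fun a ha => ?_⟩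
  have ha1 := ha.trans_le (min_le_left _ _)
  have ha2 : ‖a‖ * (B + 2) < s := by
    have h1 := ha.trans_le (min_le_right _ _)
    rwa [lt_div_iff₀ (by positivity)] at h1
  have ha3 : ‖a‖ * B < s := by nlinarith [norm_nonneg a]
  set Gₐ : X.pt → Cm 4 := fun q => G q + f q • a with hGa
  set V' : Set X.pt := {q | q ∈ V ∧ G q ∈ ball (G p) s₀ ∧ G q + f q • a ∈ ball (G p) s} with hV'
  have hV'V : V' ⊆ V := fun q hq => hq.1
  have hhol : ∀ x ∈ V, ∀ i, X.Hol (fun y => Gₐ y i) x := fun x hx i =>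
    hol_add (hc.holo x hx i) (hol_mul (hf x hx) (hol_const (a i) x))
  have hcont : ∀ x ∈ V, ContinuousAt Gₐ x := fun x hx =>
    continuousAt_pi.2 fun i => hol_continuousAt (hhol x hx i)
  have hV'o : IsOpen V' := by
    rw [isOpen_iff_eventually]
    rintro q ⟨hq1, hq2, hq3⟩
    exact (hc.isOpen.eventually_mem hq1).and
      (((hc.continuousAt hq1).eventually (isOpen_ball.mem_nhds hq2)).and
        ((hcont q hq1).eventually (isOpen_ball.mem_nhds hq3)))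
  have hfp : f p = 0 := hfS p hp hpS
  have hpV' : p ∈ V' := ⟨hp, mem_ball_self hs₀, by rw [hfp, zero_smul, add_zero]; exact mem_ball_self hspos⟩
  have hproper : ∀ s' < s, IsCompact {x | x ∈ V' ∧ Gₐ x ∈ closedBall (G p) s'} := by
    intro s' hs'
    have h1 : {x | x ∈ V' ∧ Gₐ x ∈ closedBall (G p) s'} = K ∩ Gₐ ⁻¹' closedBall (G p) s' := by
      ext x
      constructor
      · rintro ⟨⟨h1, h2, h3⟩, h4⟩
        exact ⟨⟨h1, ball_subset_closedBall h2⟩, h4⟩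
      · rintro ⟨⟨h1, h2⟩, h4⟩
        have h5 : dist (G x) (Gₐ x) ≤ ‖a‖ * B := by
          rw [dist_eq_norm, hGa, sub_add_cancel_left, norm_neg, norm_smul, mul_comm]
          exact mul_le_mul_of_nonneg_left (hB _ ⟨h1, h2⟩) (norm_nonneg a)
        have h6 : Gₐ x ∈ ball (G p) s := (mem_closedBall.1 h4).trans_lt hs'
        refine ⟨⟨h1, ?_, h6⟩, h4⟩
        calc dist (G x) (G p) ≤ dist (G x) (Gₐ x) + dist (Gₐ x) (G p) := dist_triangle _ _ _
          _ < s + s := add_lt_add (h5.trans_lt ha3) h6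
          _ = s₀ := by rw [← h2s]; ring
    rw [h1]
    have h2 : ContinuousOn Gₐ K := fun x hx => (hcont x hx.1).continuousWithinAt
    obtain ⟨u, hu, hu'⟩ := (continuousOn_iff_isClosed.1 h2) (closedBall (G p) s') isClosed_closedBall
    rw [inter_comm, hu', inter_comm]
    exact hKc.inter_right hu
  have hdense : Dense (v '' O) := by
    have h1 := dense_compl_of_dimLe (d := 2) (n := 4) (by norm_num) hX.dense hdim
    rwa [compl_compl] at h1
  have hnd : ∀ W : Set X.pt, IsOpen W → W ⊆ V' → W.Nonempty → ∃ y ∈ O, v y ∈ W ∧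
      ∀ e : Chart 4 Y, At e y → Jac v (fun i x => Gₐ x i) e (e y) ≠ 0 := by
    intro W hW hWV hWn
    by_contra hcon
    push Not at hcon
    obtain ⟨_, hyW, ⟨y, hyO, rfl⟩⟩ := hdense.inter_open_nonempty W hW hWn
    set e : Chart 4 Y := chartAt (Cm 4) y with hedef
    have he : e ∈ atlas (Cm 4) Y := chart_mem_atlas _ _
    have hye : y ∈ e.source := mem_chart_source _ _
    set Ω : Set (Cm 4) := e.target ∩ e.symm ⁻¹' (O ∩ v ⁻¹' W) with hΩdef
    have hΩ : IsOpen Ω :=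
      e.isOpen_inter_preimage_symm (hv.cont.isOpen_inter_preimage hv.isOpen hW)
    have hΩn : Ω.Nonempty := ⟨e y, e.map_source hye, by
      rw [mem_preimage, e.left_inv hye]
      exact ⟨hyO, hyW⟩⟩
    have hmem : ∀ z ∈ Ω, e.symm z ∈ O ∧ v (e.symm z) ∈ W ∧ At e (e.symm z) ∧ e (e.symm z) = z :=
      fun z hz => ⟨hz.2.1, hz.2.2, ⟨he, e.map_target hz.1⟩, e.right_inv hz.1⟩
    let F : Cm 4 → Cm 4 := fun z => Gₐ (v (e.symm z))
    have hFi : ∀ z ∈ Ω, ∀ i, AnalyticAt ℂ (fun z => F z i) z := by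
      intro z hz i
      obtain ⟨h1, h2, h3, h4⟩ := hmem z hz
      have h5 := (hv.hol_iff h1 h3).1 (hhol _ (hWV h2).1 i)
      rwa [h4] at h5
    have hFan : ∀ z ∈ Ω, AnalyticAt ℂ F z := fun z hz => AnalyticAt.pi (hFi z hz)
    have hFninj : ∀ z ∈ Ω, ¬ Function.Injective (fderiv ℂ F z) := by
      intro z hz hinj
      obtain ⟨h1, h2, h3, h4⟩ := hmem z hz
      obtain ⟨e', he', hJ⟩ := hcon _ h1 h2
      have h5 : ∀ i, X.Hol ((fun i x => Gₐ x i : Fin 4 → X.pt → ℂ) i) (v (e.symm z)) := fun i =>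
        hhol _ (hWV h2).1 i
      have h6 := (Jac_ne_zero_iff hv h1 h3 he' h5).1
      rw [h4] at h6
      refine h6 ?_ hJ
      have h7 := hv.jacL_eq_fderiv h1 h3 h5
      rw [h4] at h7
      have h8 : fderiv ℂ F z = jacL v (fun i x => Gₐ x i) e z := h7.fderiv
      rw [Jac_eq_det, ← h8]
      exact det_ne_zero_of_injective hinj
    obtain ⟨z, hz, hzu⟩ := hR 4 4 Ω hΩ hΩn F hFan hFninj
    apply hzu
    obtain ⟨h1, h2, h3, h4⟩ := hmem z hz
    have hzb : F z ∈ ball (G p) s := (hWV h2).2.2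
    have hcount := hc.countable_line hf (a := a) (z := F z) hsub hB' hB0 (fun T hT => by
      calc dist (F z - T • a) (G p) ≤ dist (F z - T • a) (F z) + dist (F z) (G p) :=
            dist_triangle _ _ _
        _ < s + s := by
            refine add_lt_add ?_ hzb
            rw [dist_eq_norm, sub_sub_cancel_left, norm_neg, norm_smul]
            have h5 : ‖T‖ * ‖a‖ ≤ (B + 2) * ‖a‖ := mul_le_mul_of_nonneg_right hT.le (norm_nonneg a)
            linarith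
        _ = s₀ := by rw [← h2s]; ring)
    refine MapsTo.countable_of_injOn (f := fun w => v (e.symm w)) ?_ ?_ hcount
    · rintro w ⟨hw, hwz⟩
      obtain ⟨h5, h6, h7, h8⟩ := hmem w hw
      exact ⟨(hWV h6).1, (hWV h6).2.1, hwz⟩
    · rintro w ⟨hw, -⟩ w' ⟨hw', -⟩ hww
      have h5 := hv.inj (hmem w hw).1 (hmem w' hw').1 hww
      rw [← (hmem w hw).2.2.2, ← (hmem w' hw').2.2.2, h5]
  obtain ⟨n, ζ, hζ⟩ := h.coord
  have hζ' : IsCoord X V' ζ := hζ.mono hV'o hV'V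
  obtain ⟨d', lam', θ', h'⟩ := hP Y X hX O v hv hdim Gₐ (G p) s hspos V' hV'o ⟨p, hpV'⟩
    (fun x hx => hhol x hx.1) (fun x hx => hx.2.2) hproper hnd n ζ hζ'
  have hpS0 := h.onS p hp hpS
  refine ⟨d', hdeg a ha1 d' lam' θ' V' (fun q hq => ⟨hq.1, hq.2.1⟩) h',
    fun x hx => h.sub hx.1, ⟨lam', θ', h'⟩,
    ⟨n, ζ, hζ'⟩, hpS0.1, hpS0.2, ?_, ?_⟩
  · intro x hx hxS
    have h1 := h.onS x hx.1 hxS
    simp only [hGa, hfS x hx.1 hxS, zero_smul, add_zero]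
    exact h1
  · intro z hz h0 h1
    have hz' : z ∈ ball (G p) s₀ := ball_subset_ball (by rw [← h2s]; linarith) hz
    obtain ⟨x, hx, hxS, hxz⟩ := h.surj z (hsub hz') h0 h1
    have h2 : Gₐ x = z := by simp only [hGa, hfS x hx hxS, zero_smul, add_zero, hxz]
    exact ⟨x, ⟨hx, by rw [hxz]; exact hz', by rw [← h2] at hz; exact hz⟩, hxS, h2⟩

/-- restriction of admissible coverings to smaller balls -/
theorem Adm.res (hres : StCovRes) (h : Adm X U₀ S V G c r d) {c' : Cm 4} {r' : ℝ} (hr' : 0 < r')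
    (hc0 : c' 0 = 0) (hc1 : c' 1 = 0) (hsub : ball c' r' ⊆ ball c r) :
    Adm X U₀ S {x | x ∈ V ∧ G x ∈ ball c' r'} G c' r' d := by
  obtain ⟨lam, θ, hc⟩ := h.cov
  obtain ⟨n, ζ, hζ⟩ := h.coord
  have hc' := hres X V G c r d lam θ hc c' r' hr' hsub
  refine ⟨fun x hx => h.sub hx.1, ⟨lam, θ, hc'⟩, ⟨n, ζ, hζ.mono hc'.isOpen fun x hx => hx.1⟩, hc0,
    hc1, fun x hx hxS => h.onS x hx.1 hxS, fun z hz h0 h1 => ?_⟩
  obtain ⟨x, hx, hxS, hxz⟩ := h.surj z (hsub hz) h0 h1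
  exact ⟨x, ⟨hx, by rw [hxz]; exact hz⟩, hxS, hxz⟩

/-- Functions which vanish on `S` are `O(|G 0| + |G 1|)`. -/
theorem Adm.red {Y : Type} [TopologicalSpace Y] [T2Space Y] [CompactSpace Y]
    [ChartedSpace (Cm 4) Y] [IsManifold 𝓘(ℂ, Cm 4) ω Y] (hP : StCovP) (hR : StRank)
    (hloc : StCovLoc) (hres : StCovRes) (hX : IsNormal 4 X) {O : Set Y} {v : Y → X.pt}
    (hv : IsOpenEmb X O v) (hdim : DimLe X 2 (v '' O)ᶜ) (hS : IsClosed S)
    (h : Adm X U₀ S V G c r d)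
    (hmin : ∀ (V' : Set X.pt) (G' : X.pt → Cm 4) (c' : Cm 4) (r' : ℝ) (d' : ℕ),
      Adm X U₀ S V' G' c' r' d' → d ≤ d') {f : X.pt → ℂ} (hf : ∀ x ∈ V, X.Hol f x)
    (hfS : ∀ x ∈ V, x ∈ S → f x = 0) {x : X.pt} (hx : x ∈ V) (hxS : x ∈ S) :
    ∃ C : ℝ, ∀ᶠ y in 𝓝 x, ‖f y‖ ≤ C * (‖G y 0‖ + ‖G y 1‖) := by
  obtain ⟨lam, θ, hc⟩ := h.cov
  obtain ⟨s, hs, hsub, δ, hδ, hpert⟩ := h.pert hP hR hX hv hdim hf hfS hx hxS
  by_contra hcon
  push Not at hcon
  have hx0 := h.onS x hx hxS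
  have hev : ∀ᶠ y in 𝓝 x, y ∈ V ∧ G y ∈ ball (G x) s :=
    (hc.isOpen.eventually_mem hx).and
      ((hc.continuousAt hx).eventually (isOpen_ball.mem_nhds (mem_ball_self hs)))
  obtain ⟨y, hy1, hyV, hyb⟩ := ((hcon (2 / δ)).and_eventually hev).exists
  have hn0 : 0 ≤ ‖G y 0‖ + ‖G y 1‖ := by positivity
  have hfy : 0 < ‖f y‖ := lt_of_le_of_lt (by positivity) hy1
  have hfy0 : f y ≠ 0 := norm_pos_iff.1 hfy
  have hyS : y ∉ S := fun hyS => hfy0 (hfS y hyV hyS)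
  set a : Cm 4 := ![-(G y 0 / f y), -(G y 1 / f y), 0, 0] with ha
  have hlt : (‖G y 0‖ + ‖G y 1‖) / ‖f y‖ < δ := by
    rw [div_lt_iff₀ hfy]
    have h1 : 2 / δ * (‖G y 0‖ + ‖G y 1‖) < ‖f y‖ := hy1
    have h2 : δ * (2 / δ * (‖G y 0‖ + ‖G y 1‖)) < δ * ‖f y‖ := mul_lt_mul_of_pos_left h1 hδ
    have h3 : δ * (2 / δ * (‖G y 0‖ + ‖G y 1‖)) = 2 * (‖G y 0‖ + ‖G y 1‖) := by
      field_simp
    linarith
  have han : ‖a‖ < δ := by
    rw [pi_norm_lt_iff hδ]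
    intro i
    have h1 : ‖G y 0‖ / ‖f y‖ ≤ (‖G y 0‖ + ‖G y 1‖) / ‖f y‖ := by gcongr; linarith [norm_nonneg (G y 1)]
    have h2 : ‖G y 1‖ / ‖f y‖ ≤ (‖G y 0‖ + ‖G y 1‖) / ‖f y‖ := by gcongr; linarith [norm_nonneg (G y 0)]
    fin_cases i
    · show ‖-(G y 0 / f y)‖ < δ
      rw [norm_neg, norm_div]
      exact h1.trans_lt hlt
    · show ‖-(G y 1 / f y)‖ < δ
      rw [norm_neg, norm_div]
      exact h2.trans_lt hlt
    · simpa [ha] using hδ
    · simpa [ha] using hδ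
  obtain ⟨d', hd', h'⟩ := hpert a han
  have hdd : d = d' := le_antisymm (hmin _ _ _ _ _ h') hd'
  have hmin' : ∀ (V' : Set X.pt) (G' : X.pt → Cm 4) (c' : Cm 4) (r' : ℝ) (d'' : ℕ),
    Adm X U₀ S V' G' c' r' d'' → d' ≤ d'' := by rw [← hdd]; exact hmin
  have huniq' := h'.uniq hloc hres hS hmin'
  have hGy : G y + f y • a = ![0, 0, G y 2, G y 3] := by
    ext i
    fin_cases i
    · show G y 0 + f y * (-(G y 0 / f y)) = 0
      field_simp
      ring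
    · show G y 1 + f y * (-(G y 1 / f y)) = 0
      field_simp
      ring
    · simp [ha]
    · simp [ha]
  have hGyb : G y + f y • a ∈ ball (G x) s := by
    rw [hGy, mem_ball, dist_pi_lt_iff hs]
    rw [mem_ball, dist_pi_lt_iff hs] at hyb
    intro i
    fin_cases i
    · show dist 0 (G x 0) < s
      rw [hx0.1, dist_self]; exact hs
    · show dist 0 (G x 1) < s
      rw [hx0.2, dist_self]; exact hs
    · exact hyb 2
    · exact hyb 3
  have hyb2 : G y ∈ ball (G x) (2 * s) := ball_subset_ball (by linarith) hyb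
  have h00 : (G y + f y • a) 0 = 0 := by rw [hGy]; rfl
  have h01 : (G y + f y • a) 1 = 0 := by rw [hGy]; rfl
  obtain ⟨q, hq, hqS, hqy⟩ := h'.surj _ hGyb h00 h01
  have hqy' := huniq' y ⟨hyV, hyb2, hGyb⟩ h00 h01 q hq hqy
  exact hyS (hqy' ▸ hqS)

/-- An admissible covering of minimal degree is good. -/
theorem Adm.good {Y : Type} [TopologicalSpace Y] [T2Space Y] [CompactSpace Y]
    [ChartedSpace (Cm 4) Y] [IsManifold 𝓘(ℂ, Cm 4) ω Y] (hP : StCovP) (hR : StRank)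
    (hloc : StCovLoc) (hres : StCovRes) (hX : IsNormal 4 X) {O : Set Y} {v : Y → X.pt}
    (hv : IsOpenEmb X O v) (hdim : DimLe X 2 (v '' O)ᶜ) (hS : IsClosed S)
    (h : Adm X U₀ S V G c r d)
    (hmin : ∀ (V' : Set X.pt) (G' : X.pt → Cm 4) (c' : Cm 4) (r' : ℝ) (d' : ℕ),
      Adm X U₀ S V' G' c' r' d' → d ≤ d') :
    ∃ (lam : X.pt → ℂ) (θ : Cm 4 → ℂ), IsGood X S V G c r d lam θ := by
  obtain ⟨lam, θ, hc⟩ := h.cov
  have huniq := h.uniq hloc hres hS hmin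
  refine ⟨lam, θ, { hc with
    c0 := h.c0
    c1 := h.c1
    memS := fun x hx => ⟨h.onS x hx, fun h0 => ?_⟩
    uniq := fun x hx hxS y hy hyx => ?_
    red := fun x hx hxS f hf hfS => ?_ }⟩
  · obtain ⟨y, hy, hyS, hyx⟩ := h.surj (G x) (hc.maps x hx) h0.1 h0.2
    rw [← huniq x hx h0.1 h0.2 y hy hyx]
    exact hyS
  · have h0 := h.onS x hx hxS
    exact huniq x hx h0.1 h0.2 y hy hyx
  · have h0 := h.onS x hx hxS
    have hGx := hc.maps x hx
    have hW : {y | X.Hol f y ∧ (y ∈ S → f y = 0)} ∈ 𝓝 x := (hol_eventually hf).and hfS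
    have hev := hc.eventually_mem hGx (W := {y | X.Hol f y ∧ (y ∈ S → f y = 0)})
      fun y hy hyx => by rw [huniq x hx h0.1 h0.2 y hy hyx]; exact hW
    obtain ⟨ρ, hρ, hρsub⟩ := Metric.eventually_nhds_iff_ball.1
      (hev.and (isOpen_ball.eventually_mem hGx))
    have hres' := h.res hres (c' := G x) hρ h0.1 h0.2 fun z hz => (hρsub z hz).2
    exact hres'.red hP hR hloc hres hX hv hdim hS hmin
      (fun y hy => ((hρsub _ hy.2).1 y hy.1 rfl).1)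
      (fun y hy hyS => ((hρsub _ hy.2).1 y hy.1 rfl).2 hyS) ⟨hx, mem_ball_self hρ⟩ hxS

end Vale.Agent.P277.TX
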