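import Vale.Agent.P277.H884.PH1

/-!
# P277, T3, P2: generic projections to `ℂ³`
-/

open scoped Manifold ContDiff Topology
open Vale.Agent.P272.K Vale.Agent.P285.H281.FD Set Filter Metric

noncomputable section

namespace Vale.Agent.P277.H884.PH

variable {X : CSp} {S T V : Set X.pt} {N : ℕ} {u : Fin N → X.pt → ℂ} {x₀ : X.pt}

/-- the linear projection -/
def prj {X : CSp} {n : ℕ} (x₀ : X.pt) {N : ℕ} (u : Fin N → X.pt → ℂ) (w : Fin n → Fin N → ℂ)
    (y : X.pt) : Cm n :=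
  fun i => ∑ a, w i a * (u a y - u a x₀)

theorem prj_hol {n : ℕ} (hu : IsCoord X V u) (w : Fin n → Fin N → ℂ) (i : Fin n) {y : X.pt}
    (hy : y ∈ V) : X.Hol (fun y => prj x₀ u w y i) y :=
  hol_sum _ fun a _ => hol_mul (hol_const _ _) (hol_sub (hu.hol a y hy) (hol_const _ _))

/-- the components of the derivative of the coordinates -/
def frm {n N : ℕ} (D : Cm n →L[ℂ] Cm N) (a : Fin N) : Cm n →L[ℂ] ℂ :=
  (ContinuousLinearMap.proj (R := ℂ) (φ := fun _ : Fin N => ℂ) a).comp D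

theorem fderiv_prj {n : ℕ} {w : Fin n → Fin N → ℂ} {g : Cm n → X.pt} {p : Cm n}
    (hg : AnalyticAt ℂ (fun q a => u a (g q)) p) (z : Cm n) (i : Fin n) :
    fderiv ℂ (fun q => prj x₀ u w (g q)) p z i =
      (∑ a, w i a • frm (fderiv ℂ (fun q a => u a (g q)) p) a) z := by
  have hd := hg.differentiableAt.hasFDerivAt
  have h2 : HasFDerivAt (fun q => prj x₀ u w (g q))
      (ContinuousLinearMap.pi fun i => ∑ a, w i a • frm (fderiv ℂ (fun q a => u a (g q)) p) a) p := by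
    rw [hasFDerivAt_pi']
    intro i
    refine HasFDerivAt.fun_sum fun a _ => ?_
    exact (((hasFDerivAt_pi'.1 hd) a).sub_const _).const_mul _
  rw [h2.fderiv]
  rfl

/-- independent linear forms have no common zeros -/
theorem injective_forms {n : ℕ} {v : Fin n → (Cm n →L[ℂ] ℂ)} (h : LinearIndependent ℂ v) {z : Cm n}
    (hz : ∀ i, v i z = 0) : z = 0 := by
  have h1 : Submodule.span ℂ (range v) = ⊤ :=
    h.span_eq_top_of_card_eq_finrank' (by rw [TX.finrank_dual]; simp)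
  have h2 : ∀ ℓ : Cm n →L[ℂ] ℂ, ℓ z = 0 := by
    intro ℓ
    have h3 : ℓ ∈ Submodule.span ℂ (range v) := by rw [h1]; trivial
    induction h3 using Submodule.span_induction with
    | mem x hx =>
      obtain ⟨i, rfl⟩ := hx
      exact hz i
    | zero => rfl
    | add x y _ _ hx hy => rw [add_apply, hx, hy, add_zero]
    | smul a x _ hx => rw [smul_apply, hx, smul_zero]
  ext i
  exact h2 (ContinuousLinearMap.proj (R := ℂ) (φ := fun _ : Fin n => ℂ) i)

theorem exists_prj {n : ℕ} (hn : n = 3) (hT : IsClosed T) (hT2 : DimLe X 2 T)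
    (hST : ∀ x ∈ S \ T, IsMfX n X S x)
    (hS3 : DimLe X 3 S) (hu : IsCoord X V u) (hN : N ≠ 0) (hx₀ : x₀ ∈ V) :
    ∃ w : Fin n → Fin N → ℂ, {y | y ∈ S ∧ y ∈ V ∧ prj x₀ u w y = 0}.Countable ∧
      DimLe X 2 {y | y ∈ S ∧ y ∈ V ∧ ¬ GoodAt X S T V (prj x₀ u w) y} := by
  subst hn
  have hB1 : StB1 := H622.stB1
  -- the countable family of patches
  have key : ∀ x : {x : X.pt // x ∈ V ∧ x ∈ S \ T}, ∃ u' c ρ g, Patch X S T V u' c ρ g ∧ g c = x :=
    fun x => exists_patch hT hu.isOpen x.2.2.2 x.2.1 (hST x x.2.2)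
  choose u' c ρ g hP hgc using key
  have hnb : ∀ x : {x : X.pt // x ∈ V ∧ x ∈ S \ T}, ∃ O : Set X.pt, IsOpen O ∧ x.1 ∈ O ∧
      S ∩ O ⊆ g x '' ball (c x) (ρ x) := by
    intro x
    have hc := mem_ball_self (x := c x) (hP x).pos
    have h1 := (hP x).nhd (c x) hc _ (isOpen_ball.mem_nhds hc)
    rw [hgc x] at h1
    obtain ⟨O, hO, hOo, hxO⟩ := eventually_nhds_iff.1 h1
    exact ⟨O, hOo, hxO, fun y hy => hO y hy.2 hy.1⟩
  choose O hO hxO hOS using hnb
  obtain ⟨t, htc, htU⟩ := TopologicalSpace.isOpen_iUnion_countable O hO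
  have hcov : ∀ y ∈ S \ T, y ∈ V → ∃ x ∈ t, y ∈ g x '' ball (c x) (ρ x) := by
    intro y hy hyV
    have h1 : y ∈ ⋃ x, O x := mem_iUnion.2 ⟨⟨y, hyV, hy⟩, hxO _⟩
    rw [← htU] at h1
    obtain ⟨x, hx, hyx⟩ := mem_iUnion₂.1 h1
    exact ⟨x, hx, hOS x ⟨hy.1, hyx⟩⟩
  have : Countable t := htc.to_subtype
  let D : {x : X.pt // x ∈ V ∧ x ∈ S \ T} → Cm 3 →L[ℂ] Cm N := fun x =>
    fderiv ℂ (fun q a => u a (g x q)) (c x)
  have hD : ∀ x, Function.Injective (D x) := fun x => (hP x).imm hu (mem_ball_self (hP x).pos)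
  -- the first form
  have hF : ∀ m, ∀ y ∈ V, X.Hol (fun y => u m y - u m x₀) y := fun m y hy =>
    hol_sub (hu.hol m y hy) (hol_const _ _)
  have hne : ∀ y ∈ V, y ≠ x₀ → ∃ m, u m y - u m x₀ ≠ 0 := by
    intro y hy hyx
    by_contra hcon
    push Not at hcon
    exact hyx (hu.injOn hy hx₀ (funext fun m => sub_eq_zero.1 (hcon m)))
  have hSV : DimLe X (2 + 1) (S ∩ V) := hS3.mono inter_subset_left
  let L : {x : X.pt // x ∈ V ∧ x ∈ S \ T} → (Fin N → ℂ) → (Cm 3 →L[ℂ] ℂ) := fun x w =>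
    ∑ a, w a • frm (D x) a
  have step : ∀ (k d : ℕ), k < 3 → ∀ (v : Fin k → Fin N → ℂ) (Z : Set X.pt), Z ⊆ V →
      DimLe X (d + 1) Z → ∃ w : Fin N → ℂ,
        DimLe X d {x | x ∈ Z ∧ ∑ m, w m * (u m x - u m x₀) = 0} ∧
        ∀ x ∈ t, L x w ∉ Submodule.span ℂ (range fun i => L x (v i)) := by
    intro k d hk v Z hZV hZ
    obtain ⟨w, hw1, -, hw⟩ := TX.choose_step hu.isOpen hN hF (T₁ := Z) (T₂ := Z) hZV hZ hZV hZ
      (p := x₀) (fun x hx hx0 => hne x (hZV hx) hx0) (fun x hx hx0 => hne x (hZV hx) hx0)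
      (ι := ULift.{0} t)
      (fun x => (Submodule.span ℂ (range fun i => L x.down (v i))).comap
        (Fintype.linearCombination ℂ (frm (D x.down))))
      (fun x => H619.comap_ne_top (TX.span_components (hD _))
        (TX.span_ne_top_of_lt _ (by rw [TX.finrank_dual]; exact hk)))
    refine ⟨w, hw1, fun x hx => ?_⟩
    have := hw ⟨⟨x, hx⟩⟩
    simpa only [Submodule.mem_comap, Fintype.linearCombination_apply] using this
  obtain ⟨w₁, hw11, hw12⟩ := step 0 2 (by norm_num) Fin.elim0 (S ∩ V) inter_subset_right hSV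
  obtain ⟨w₂, hw21, hw22⟩ := step 1 1 (by norm_num) ![w₁] _ (fun x hx => hx.1.2) hw11
  obtain ⟨w₃, hw31, hw32⟩ := step 2 0 (by norm_num) ![w₂, w₁] _ (fun x hx => hx.1.1.2) hw21
  refine ⟨![w₃, w₂, w₁], ?_, ?_⟩
  · refine hw31.countable.mono ?_
    rintro y ⟨hyS, hyV, hy⟩
    exact ⟨⟨⟨⟨hyS, hyV⟩, congrFun hy 2⟩, congrFun hy 1⟩, congrFun hy 0⟩
  · -- injectivity at the centres
    have hinj : ∀ x ∈ t, Function.Injective
        (fderiv ℂ (fun q => prj x₀ u ![w₃, w₂, w₁] (g x q)) (c x)) := by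
      intro x hx
      have hc := mem_ball_self (x := c x) (hP x).pos
      have hg : AnalyticAt ℂ (fun q a => u a (g x q)) (c x) :=
        AnalyticAt.pi fun a => ((hP x).hol _ hc).analyticAt (hu.hol a _ ((hP x).mem _ hc).2.2)
      rw [injective_iff_map_eq_zero]
      intro z hz
      have h1 : LinearIndependent ℂ ![L x w₃, L x w₂, L x w₁] := by
        have e1 : (range fun i => L x ((Fin.elim0 : Fin 0 → Fin N → ℂ) i)) =
            range (![] : Fin 0 → (Cm 3 →L[ℂ] ℂ)) := by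
          congr 1
          funext i
          exact i.elim0
        have e2 : (fun i => L x (![w₁] i)) = ![L x w₁] := by
          funext i; fin_cases i; rfl
        have e3 : (fun i => L x (![w₂, w₁] i)) = ![L x w₂, L x w₁] := by
          funext i; fin_cases i <;> rfl
        have h2 := hw12 x hx
        have h3 := hw22 x hx
        have h4 := hw32 x hx
        rw [e1] at h2
        rw [e2] at h3
        rw [e3] at h4
        refine linearIndependent_finCons.2 ⟨linearIndependent_finCons.2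
          ⟨linearIndependent_finCons.2 ⟨linearIndependent_empty_type, h2⟩, h3⟩, h4⟩
      refine injective_forms h1 fun i => ?_
      have h2 := congrFun hz i
      rw [fderiv_prj hg] at h2
      fin_cases i <;> exact h2
    have hcovb : {y | y ∈ S ∧ y ∈ V ∧ ¬ GoodAt X S T V (prj x₀ u ![w₃, w₂, w₁]) y} ⊆
        T ∪ ⋃ x ∈ t, g x '' {p | p ∈ ball (c x) (ρ x) ∧
          (mt (fderiv ℂ (fun q => prj x₀ u ![w₃, w₂, w₁] (g x q)) p)).det = 0} := by
      rintro y ⟨hyS, hyV, hyg⟩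
      by_cases hyT : y ∈ T
      · exact Or.inl hyT
      · right
        obtain ⟨x, hx, p, hp, rfl⟩ := hcov y ⟨hyS, hyT⟩ hyV
        refine mem_iUnion₂.2 ⟨x, hx, p, ⟨hp, ?_⟩, rfl⟩
        by_contra hdt
        exact hyg (good_of_patch (hP x) hp ((injective_iff_det _).2 hdt))
    have hFa : ∀ x, ∀ p ∈ ball (c x) (ρ x),
        AnalyticAt ℂ (fun q => prj x₀ u ![w₃, w₂, w₁] (g x q)) p :=
      fun x p hp => (hP x).analyticAt (fun i y hy => prj_hol hu _ i hy) hp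
    have : Nonempty X.pt := ⟨x₀⟩
    refine DimLe.mono (DimLe.union hT2 (dimLe_biUnion htc fun x hx => ?_)) hcovb
    exact H73.dimLe_image_zeros hB1 (hP x).hol (F := fun p =>
      (mt (fderiv ℂ (fun q => prj x₀ u ![w₃, w₂, w₁] (g x q)) p)).det)
      (fun p hp => analyticAt_det (hFa x p hp))
      ⟨c x, mem_ball_self (hP x).pos, (injective_iff_det _).1 (hinj x hx)⟩

/-- linear changes of the projection keep good points -/
theorem GoodAt.comp_linear {n : ℕ} {F : X.pt → Cm n} (hF : ∀ i, ∀ y ∈ V, X.Hol (fun y => F y i) y)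
    {A : Cm n →L[ℂ] Cm n} (hA : Function.Injective A) {y : X.pt} (h : GoodAt X S T V F y) :
    GoodAt X S T V (fun y => A (F y)) y := by
  obtain ⟨u', c, ρ, g, hP, rfl, hi⟩ := h
  refine ⟨u', c, ρ, g, hP, rfl, ?_⟩
  have h1 := (hP.analyticAt hF (mem_ball_self hP.pos)).differentiableAt.hasFDerivAt
  have h2 := A.hasFDerivAt.comp c h1
  rw [HasFDerivAt.fderiv (f := fun q => A (F (g q))) h2]
  exact hA.comp hi

/-- the projection which is used -/
theorem exists_F (hT : IsClosed T) (hT2 : DimLe X 2 T) (hST : ∀ x ∈ S \ T, IsMfX 3 X S x)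
    (hS3 : DimLe X 3 S) (hu : IsCoord X V u) (hN : N ≠ 0) (hx₀ : x₀ ∈ V) :
    ∃ F : X.pt → Cm 3, (∀ i, ∀ y ∈ V, X.Hol (fun y => F y i) y) ∧ F x₀ = 0 ∧
      {y | y ∈ S ∧ y ∈ V ∧ F y = 0}.Countable ∧
      DimLe X 2 {y | y ∈ S ∧ y ∈ V ∧ ¬ GoodAt X S T V F y} ∧
      {y | (y ∈ S ∧ y ∈ V ∧ ¬ GoodAt X S T V F y) ∧ F y 0 = 0 ∧ F y 1 = 0}.Countable := by
  obtain ⟨w, hw1, hw2⟩ := exists_prj rfl hT hT2 hST hS3 hu hN hx₀
  set F₀ : X.pt → Cm 3 := prj x₀ u w with hF₀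
  have hF : ∀ i, ∀ y ∈ V, X.Hol (fun y => F₀ y i) y := fun i y hy => prj_hol hu w i hy
  set Z : Set X.pt := {y | (y ∈ S ∧ y ∈ V ∧ ¬ GoodAt X S T V F₀ y) ∧ F₀ y ≠ 0} with hZ
  have hZV : Z ⊆ V := fun y hy => hy.1.2.1
  have hZ2 : DimLe X (1 + 1) Z := hw2.mono fun y hy => hy.1
  have hZ0 : ∀ y ∈ Z, ∃ m, F₀ y m ≠ 0 := by
    intro y hy
    by_contra hcon
    push Not at hcon
    exact hy.2 (funext hcon)
  have hne : ∀ {k : ℕ}, k < 3 → ∀ v : Fin k → Cm 3, Submodule.span ℂ (range v) ≠ ⊤ := by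
    intro k hk v
    exact TX.span_ne_top_of_lt v (by rw [Module.finrank_fin_fun]; exact hk)
  obtain ⟨a₀, ha0, -, ha0'⟩ := TX.choose_step hu.isOpen (M := 3) (by norm_num)
    (F := fun m y => F₀ y m) hF hZV hZ2 hZV hZ2 (p := x₀) (fun x hx _ => hZ0 x hx)
    (fun x hx _ => hZ0 x hx) (ι := Unit) (fun _ => Submodule.span ℂ (range (![] : Fin 0 → Cm 3)))
    fun _ => hne (by norm_num) _
  obtain ⟨a₁, ha1, -, ha1'⟩ := TX.choose_step hu.isOpen (M := 3) (by norm_num)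
    (F := fun m y => F₀ y m) hF (T₁ := {x | x ∈ Z ∧ ∑ m, a₀ m * F₀ x m = 0})
    (T₂ := {x | x ∈ Z ∧ ∑ m, a₀ m * F₀ x m = 0}) (fun x hx => hZV hx.1) ha0
    (fun x hx => hZV hx.1) ha0 (p := x₀) (fun x hx _ => hZ0 x hx.1)
    (fun x hx _ => hZ0 x hx.1) (ι := Unit) (fun _ => Submodule.span ℂ (range ![a₀]))
    fun _ => hne (by norm_num) _
  obtain ⟨a₂, ha2'⟩ := H619.avoid (ι := Unit)
    (fun _ => Submodule.span ℂ (range ![a₁, a₀])) fun _ => hne (by norm_num) _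
  have hind : LinearIndependent ℂ ![a₂, a₁, a₀] :=
    linearIndependent_finCons.2 ⟨linearIndependent_finCons.2
      ⟨linearIndependent_finCons.2 ⟨linearIndependent_empty_type, ha0' ()⟩, ha1' ()⟩, ha2' ()⟩
  have hind' : LinearIndependent ℂ ![a₀, a₁, a₂] := by
    have h1 := hind.comp (![2, 1, 0] : Fin 3 → Fin 3) (by decide)
    convert h1 using 1
    funext i
    fin_cases i <;> rfl
  set A' : Matrix (Fin 3) (Fin 3) ℂ := Matrix.of ![a₀, a₁, a₂] with hA'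
  have hAinj : Function.Injective A'.mulVec := by
    rw [Matrix.mulVec_injective_iff_isUnit, ← Matrix.linearIndependent_rows_iff_isUnit]
    exact hind'
  set A : Cm 3 →L[ℂ] Cm 3 := LinearMap.toContinuousLinearMap A'.mulVecLin with hA
  have hAi : Function.Injective A := hAinj
  have hAv : ∀ (z : Cm 3) (i : Fin 3), A z i = ∑ m, (![a₀, a₁, a₂] : Fin 3 → Cm 3) i m * z m := by
    intro z i
    rfl
  have hbad : ∀ y, ¬ GoodAt X S T V (fun y => A (F₀ y)) y → ¬ GoodAt X S T V F₀ y :=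
    fun y hy hg => hy (hg.comp_linear hF hAi)
  refine ⟨fun y => A (F₀ y), fun i y hy => ?_, ?_, ?_, ?_, ?_⟩
  · simp only [hAv]
    exact hol_sum _ fun m _ => hol_mul (hol_const _ _) (hF m y hy)
  · have h0 : F₀ x₀ = 0 := by
      funext i
      simp [hF₀, prj]
    simp only [h0, map_zero]
  · refine hw1.mono ?_
    rintro y ⟨hyS, hyV, hy⟩
    exact ⟨hyS, hyV, hAi (hy.trans (map_zero A).symm)⟩
  · refine hw2.mono ?_
    rintro y ⟨hyS, hyV, hy⟩
    exact ⟨hyS, hyV, hbad y hy⟩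
  · refine (hw1.union ha1.countable).mono ?_
    rintro y ⟨⟨hyS, hyV, hy⟩, hy0, hy1⟩
    by_cases h0 : F₀ y = 0
    · exact Or.inl ⟨hyS, hyV, h0⟩
    · right
      replace hy0 : A (F₀ y) 0 = 0 := hy0
      replace hy1 : A (F₀ y) 1 = 0 := hy1
      rw [hAv] at hy0 hy1
      exact ⟨⟨⟨⟨hyS, hyV, hbad y hy⟩, h0⟩, hy0⟩, hy1⟩

end Vale.Agent.P277.H884.PH
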