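import Vale.Agent.P277.H884.PH4b

/-!
# P277, T3, P2: the local maximum principle
-/

open scoped Manifold ContDiff Topology
open Vale.Agent.P272.K Vale.Agent.P285.H281.FD Set Filter Metric MeasureTheory

noncomputable section

namespace Vale.Agent.P277.H884.PH

open H762 (Cv not_cv_nhds)

variable {X : CSp} {B Q τ V : Set X.pt} {F : X.pt → Cm 3} {x₀ : X.pt} {u : X.pt → ℝ}

theorem loc_core (hQ : IsClosed Q) (hτ1 : DimLe X 1 τ)
    (hmf : ∀ x ∈ B \ Q, IsMfX 3 X B x)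
    (hu : ∀ x ∈ B \ Q, ∃ G, X.Hol G x ∧ ∀ᶠ y in 𝓝 x, y ∈ B → u y = (G y).re)
    (hbd : ∀ x ∈ B \ τ, ∃ C, ∀ᶠ y in 𝓝 x, y ∈ B \ Q → |u y| ≤ C)
    (hV : IsOpen V) (hF : ∀ i, ∀ y ∈ V, X.Hol (fun y => F y i) y) {W : Set X.pt} (hW : IsOpen W)
    (hWV : W ⊆ V) {δ : ℝ} (hδ : 0 < δ)
    (hprop : ∀ r' < δ, IsCompact {y | y ∈ B ∧ y ∈ W ∧ F y ∈ closedBall (0 : Cm 3) r'})
    (hx₀ : x₀ ∈ W) (hF0 : F x₀ = 0)
    (hbad2 : DimLe X 2 {y | y ∈ B ∧ y ∈ W ∧ ¬ GoodAt X B Q V F y})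
    (hbad0 : {y | (y ∈ B ∧ y ∈ W ∧ ¬ GoodAt X B Q V F y) ∧ F y 0 = 0 ∧ F y 1 = 0}.Countable) :
    ∃ W' ∈ 𝓝 x₀, ∃ K' : Set X.pt, IsCompact K' ∧ K' ⊆ B \ Q ∧
      ∀ M, (∀ y ∈ K', u y ≤ M) → ∀ x ∈ W', x ∈ B \ Q → u x ≤ M := by
  have hFc : ∀ y ∈ V, ContinuousAt F y := fun y hy =>
    continuousAt_pi.2 fun i => hol_continuousAt (hF i y hy)
  have hFi : ∀ i, ∀ y ∈ V, ContinuousAt (fun y => F y i) y := fun i y hy => hol_continuousAt (hF i y hy)
  -- radii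
  obtain ⟨r, hrZ, hr0, hrδ⟩ : ∃ r ∈ ((fun y => ‖F y 2‖) '' {y | (y ∈ B ∧ y ∈ W ∧
      ¬ GoodAt X B Q V F y) ∧ F y 0 = 0 ∧ F y 1 = 0})ᶜ, 0 < r ∧ r < δ :=
    (hbad0.image _).dense_compl ℝ |>.exists_between hδ
  obtain ⟨r', hrr', hr'δ⟩ := exists_between hrδ
  set Kc : Set X.pt := {y | y ∈ B ∧ y ∈ W ∧ F y ∈ closedBall (0 : Cm 3) r'} with hKc
  have hKcc : IsCompact Kc := hprop r' hr'δ
  have hKcn : ∀ y ∈ Kc, ∀ i, ‖F y i‖ ≤ r' := by
    rintro y ⟨-, -, hy⟩ i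
    exact (norm_le_pi_norm (F y) i).trans (by simpa using hy)
  -- the good points
  set O : Set X.pt := {y | ∀ᶠ z in 𝓝 y, z ∈ B → GoodAt X B Q V F z} with hO
  have hOo : IsOpen O := isOpen_iff_eventually.2 fun y hy => eventually_eventually_nhds.2 hy
  have hOg : ∀ y ∈ B, (y ∈ O ↔ GoodAt X B Q V F y) := fun y hy =>
    ⟨fun h => h.self_of_nhds hy, fun h => h.eventually hF⟩
  -- continuity of the maximum of the first coordinates on `Kc`
  have hψc : ContinuousOn (fun y => max ‖F y 0‖ ‖F y 1‖) Kc := by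
    intro y hy
    have h1 : ContinuousAt (fun y => max ‖F y 0‖ ‖F y 1‖) y :=
      ((hFi 0 y (hWV hy.2.1)).norm).max ((hFi 1 y (hWV hy.2.1)).norm)
    exact h1.continuousWithinAt
  have hLc : IsCompact ({y | y ∈ Kc ∧ ‖F y 2‖ = r} \ O) := by
    refine IsCompact.diff ?_ hOo
    have h1 : ContinuousOn (fun y => ‖F y 2‖) Kc := fun y hy =>
      ((hFi 2 y (hWV hy.2.1)).norm).continuousWithinAt
    exact hKcc.of_isClosed_subset (h1.preimage_isClosed_of_isClosed hKcc.isClosed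
      (isClosed_singleton (x := r))) inter_subset_left
  obtain ⟨ε, hε, hεL⟩ := hLc.exists_forall_le' (f := fun y => max ‖F y 0‖ ‖F y 1‖) (a := 0)
    (hψc.mono fun y hy => hy.1.1) (by
      rintro y ⟨⟨hyK, hyr⟩, hyO⟩
      rw [lt_max_iff]
      by_contra hcon
      push Not at hcon
      rw [norm_le_zero_iff, norm_le_zero_iff] at hcon
      exact hrZ ⟨y, ⟨⟨hyK.1, hyK.2.1, fun h => hyO ((hOg y hyK.1).2 h)⟩, hcon⟩, hyr⟩)
  set ε' : ℝ := min (ε / 2) r' with hε'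
  have hr'0 : 0 < r' := hr0.trans hrr'
  have hε'0 : 0 < ε' := lt_min (by linarith) hr'0
  have hε'ε : ε' < ε := (min_le_left _ _).trans_lt (by linarith)
  -- the compact set
  set K' : Set X.pt := {y | y ∈ Kc ∧ ‖F y 0‖ ≤ ε' ∧ ‖F y 1‖ ≤ ε' ∧ ‖F y 2‖ = r} with hK'
  have hK'c : IsCompact K' := by
    have h1 : ContinuousOn (fun y => (‖F y 0‖, ‖F y 1‖, ‖F y 2‖)) Kc := fun y hy =>
      (((hFi 0 y (hWV hy.2.1)).norm).prodMk
        (((hFi 1 y (hWV hy.2.1)).norm).prodMk ((hFi 2 y (hWV hy.2.1)).norm))).continuousWithinAt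
    have h2 : K' = Kc ∩ (fun y => (‖F y 0‖, ‖F y 1‖, ‖F y 2‖)) ⁻¹' (Iic ε' ×ˢ (Iic ε' ×ˢ {r})) := by
      ext y
      simp only [hK', mem_ofPred_eq, mem_inter_iff, mem_preimage, mem_prod, mem_Iic,
        mem_singleton_iff]
    rw [h2]
    exact hKcc.of_isClosed_subset (h1.preimage_isClosed_of_isClosed hKcc.isClosed
      (isClosed_Iic.prod (isClosed_Iic.prod isClosed_singleton))) inter_subset_left
  have hK'g : ∀ y ∈ K', GoodAt X B Q V F y := by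
    rintro y ⟨hyK, hy0, hy1, hy2⟩
    by_contra hg
    have h1 := hεL y ⟨⟨hyK, hy2⟩, fun h => hg ((hOg y hyK.1).1 h)⟩
    have h2 : max ‖F y 0‖ ‖F y 1‖ ≤ ε' := max_le hy0 hy1
    linarith
  have hK'sub : K' ⊆ B \ Q := fun y hy => ⟨(hK'g y hy).mem.1, (hK'g y hy).mem.2.1⟩
  -- the neighbourhood
  set W' : Set X.pt := {y | y ∈ W ∧ ‖F y 0‖ < ε' ∧ ‖F y 1‖ < ε' ∧ ‖F y 2‖ < r} with hW'
  have hW'o : IsOpen W' := by
    rw [isOpen_iff_eventually]
    rintro y ⟨hyW, hy0, hy1, hy2⟩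
    have hyV := hWV hyW
    filter_upwards [hW.eventually_mem hyW, (hFi 0 y hyV).norm.eventually_lt_const hy0,
      (hFi 1 y hyV).norm.eventually_lt_const hy1, (hFi 2 y hyV).norm.eventually_lt_const hy2]
      with z h1 h2 h3 h4 using ⟨h1, h2, h3, h4⟩
  have hx₀W' : x₀ ∈ W' := by
    refine ⟨hx₀, ?_, ?_, ?_⟩ <;> simp [hF0, hε'0, hr0]
  refine ⟨W', hW'o.mem_nhds hx₀W', K', hK'c, hK'sub, fun M hM => ?_⟩
  -- the exceptional set
  set Bad : Set X.pt := {y | y ∈ B ∧ y ∈ W ∧ ¬ GoodAt X B Q V F y} with hBad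
  set Φ : X.pt → Cm 2 := fun y => ![F y 0, F y 1] with hΦ
  have hΦh : ∀ i, ∀ y ∈ V, X.Hol (fun y => Φ y i) y := by
    intro i y hy
    fin_cases i
    · exact hF 0 y hy
    · exact hF 1 y hy
  obtain ⟨E, hE, hEf⟩ := exists_fib hΦh (Z := Bad) (fun y hy => hWV hy.2.1) hbad2
  have hNτ : volume (Φ '' (τ ∩ W)) = 0 :=
    null_of_cv (by norm_num) (cv_image hΦh (fun y hy => hWV hy.2)
      (hτ1.mono inter_subset_left : DimLe X 1 (τ ∩ W)))
  have hNB : volume (F '' Bad) = 0 :=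
    null_of_cv (by norm_num) (cv_image hF (fun y hy => hWV hy.2.1) hbad2)
  set NN : Set (Cm 3) := F '' Bad ∪ pr2 ⁻¹' (E ∪ Φ '' (τ ∩ W)) with hNN
  have hNN0 : volume NN = 0 := measure_union_null hNB (null_prj (measure_union_null hE hNτ))
  have hpr : ∀ y, pr2 (F y) = Φ y := fun y => pr2_apply _
  -- the main step
  have claim1 : ∀ x ∈ W', x ∈ B → F x ∉ NN → u x ≤ M := by
    intro x hx hxB hxN
    have hxE : Φ x ∉ E := fun h => hxN (Or.inr (Or.inl (by rw [hpr]; exact h)))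
    have hxτ : Φ x ∉ Φ '' (τ ∩ W) := fun h => hxN (Or.inr (Or.inr (by rw [hpr]; exact h)))
    set Z : Set X.pt := {y | y ∈ Kc ∧ Φ y = Φ x ∧ ‖F y 2‖ ≤ r} with hZ
    have hΦc : ContinuousOn Φ Kc := fun y hy =>
      (continuousAt_pi.2 fun i => hol_continuousAt (hΦh i y (hWV hy.2.1))).continuousWithinAt
    have hZc : IsCompact Z := by
      have h1 : ContinuousOn (fun y => (Φ y, ‖F y 2‖)) Kc := hΦc.prodMk fun y hy =>
        ((hFi 2 y (hWV hy.2.1)).norm).continuousWithinAt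
      have h2 : Z = Kc ∩ (fun y => (Φ y, ‖F y 2‖)) ⁻¹' ({Φ x} ×ˢ Iic r) := by
        ext y
        simp only [hZ, mem_ofPred_eq, mem_inter_iff, mem_preimage, mem_prod, mem_Iic,
          mem_singleton_iff]
      rw [h2]
      exact hKcc.of_isClosed_subset (h1.preimage_isClosed_of_isClosed hKcc.isClosed
        (isClosed_singleton.prod isClosed_Iic)) inter_subset_left
    have htc : ContinuousOn (fun y => F y 2) Z := fun y hy =>
      (hFi 2 y (hWV hy.1.2.1)).continuousWithinAt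
    have hFeq : ∀ y, Φ y = Φ x → F y 2 = F x 2 → F y = F x := by
      intro y h1 h2
      funext i
      fin_cases i
      · exact congrFun h1 0
      · exact congrFun h1 1
      · exact h2
    set T : Set ℂ := (fun y => F y 2) '' (Z \ O) with hT
    have hTcl : IsClosed T :=
      ((hZc.diff hOo).image_of_continuousOn (htc.mono sdiff_subset)).isClosed
    have hTct : T.Countable := by
      refine ((hEf (Φ x) hxE).image (fun y => F y 2)).mono (image_mono ?_)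
      rintro y ⟨⟨hyK, hyΦ, -⟩, hyO⟩
      exact ⟨⟨hyK.1, hyK.2.1, fun h => hyO ((hOg y hyK.1).2 h)⟩, hyΦ⟩
    have hgoodT : ∀ y ∈ Z, F y 2 ∉ T → GoodAt X B Q V F y := by
      intro y hy hyT
      by_contra hg
      exact hyT ⟨y, ⟨hy, fun h => hg ((hOg y hy.1.1).1 h)⟩, rfl⟩
    obtain ⟨C, hC⟩ := bounded_of_local (R := B \ Q) hZc (u := u) fun y hy =>
      hbd y ⟨hy.1.1, fun hyτ => hxτ ⟨y, ⟨hyτ, hy.1.2.1⟩, hy.2.1⟩⟩
    have hxZ : x ∈ Z := by
      refine ⟨⟨hxB, hx.1, ?_⟩, rfl, hx.2.2.2.le⟩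
      rw [mem_closedBall_zero_iff, pi_norm_le_iff_of_nonneg hr'0.le]
      intro i
      fin_cases i
      · exact hx.2.1.le.trans (min_le_right _ _)
      · exact hx.2.2.1.le.trans (min_le_right _ _)
      · exact hx.2.2.2.le.trans hrr'.le
    have hxT : F x 2 ∉ T := by
      rintro ⟨y, ⟨hyZ, hyO⟩, hy⟩
      exact hxN (Or.inl ⟨y, ⟨hyZ.1.1, hyZ.1.2.1, fun h => hyO ((hOg y hyZ.1.1).2 h)⟩,
        hFeq y hyZ.2.1 hy⟩)
    refine disc_max hZc (t := fun y => F y 2) htc hr0 (fun y hy => hy.2.2) hTcl hTct (u := u)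
      (C := C) (M := M) ?_ ?_ ?_ ?_ hxZ hxT
    · intro y hy hyT
      have hg := hgoodT y hy hyT
      obtain ⟨G, hG, hGe⟩ := hu y ⟨hg.mem.1, hg.mem.2.1⟩
      have h1 : ContinuousWithinAt (fun y => (G y).re) Z y :=
        (Complex.continuous_re.continuousAt.comp (hol_continuousAt hG)).continuousWithinAt
      refine h1.congr_of_eventuallyEq ?_ (hGe.self_of_nhds hg.mem.1)
      filter_upwards [mem_nhdsWithin_of_mem_nhds hGe, self_mem_nhdsWithin] with z hz hzZ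
      exact hz hzZ.1.1
    · intro y hy hyT
      have hg := hgoodT y hy hyT
      exact (le_abs_self _).trans (hC y hy ⟨hg.mem.1, hg.mem.2.1⟩)
    · intro y hy hyT hyr
      refine hM y ⟨hy.1, ?_, ?_, hyr⟩
      · have h1 : F y 0 = F x 0 := congrFun hy.2.1 0
        rw [h1]; exact hx.2.1.le
      · have h1 : F y 1 = F x 1 := congrFun hy.2.1 1
        rw [h1]; exact hx.2.2.1.le
    · intro y hy hyT hyr
      have hg := hgoodT y hy hyT
      obtain ⟨s, hs, hsy, hsev⟩ := hg.section hF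
      obtain ⟨G, hG, hGe⟩ := hu y ⟨hg.mem.1, hg.mem.2.1⟩
      -- the line
      set γ : ℂ → Cm 3 := fun ζ => ![F x 0, F x 1, ζ] with hγ
      have hγy : γ (F y 2) = F y := by
        funext i
        fin_cases i
        · exact (congrFun hy.2.1 0).symm
        · exact (congrFun hy.2.1 1).symm
        · rfl
      have hγa : AnalyticAt ℂ γ (F y 2) := by
        refine AnalyticAt.pi fun i => ?_
        fin_cases i
        · exact analyticAt_const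
        · exact analyticAt_const
        · exact analyticAt_id
      have hγc : Tendsto γ (𝓝 (F y 2)) (𝓝 (F y)) := by
        have := hγa.continuousAt
        rwa [ContinuousAt, hγy] at this
      have hsc : Tendsto s (𝓝 (F y)) (𝓝 y) := by
        have := hs.1
        rwa [ContinuousAt, hsy] at this
      have hGs : AnalyticAt ℂ (fun z => G (s z)) (F y) := hs.analyticAt (by rw [hsy]; exact hG)
      refine ⟨fun ζ => s (γ ζ), fun ζ => G (s (γ ζ)), ?_, ?_, ?_⟩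
      · exact AnalyticAt.comp (g := fun z => G (s z)) (f := γ) (by rw [hγy]; exact hGs) hγa
      · show s (γ (F y 2)) = y
        rw [hγy, hsy]
      · have hyK : y ∈ W := hy.1.2.1
        have h1 : ∀ᶠ ζ in 𝓝 (F y 2), s (γ ζ) ∈ B ∧ s (γ ζ) ∉ Q ∧ s (γ ζ) ∈ V ∧ F (s (γ ζ)) = γ ζ :=
          hγc.eventually hsev
        have h2 : ∀ᶠ ζ in 𝓝 (F y 2), s (γ ζ) ∈ W ∧
            (s (γ ζ) ∈ B → u (s (γ ζ)) = (G (s (γ ζ))).re) :=
          (hsc.comp hγc).eventually ((hW.eventually_mem hyK).and hGe)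
        have h3 : ∀ᶠ ζ in 𝓝 (F y 2), ‖ζ‖ < r :=
          continuousAt_id.norm.eventually_lt_const hyr
        filter_upwards [h1, h2, h3] with ζ h1 h2 h3
        have hF2 : F (s (γ ζ)) 2 = ζ := by rw [h1.2.2.2]; rfl
        refine ⟨⟨⟨h1.1, h2.1, ?_⟩, ?_, ?_⟩, hF2, h2.2 h1.1⟩
        · rw [h1.2.2.2, mem_closedBall_zero_iff, pi_norm_le_iff_of_nonneg hr'0.le]
          intro i
          fin_cases i
          · exact hx.2.1.le.trans (min_le_right _ _)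
          · exact hx.2.2.1.le.trans (min_le_right _ _)
          · exact h3.le.trans hrr'.le
        · rw [hΦ]
          simp only [h1.2.2.2]
          rfl
        · rw [hF2]; exact h3.le
  -- all points
  intro x hx hxR
  obtain ⟨G, hG, hGe⟩ := hu x hxR
  have hux : u x = (G x).re := hGe.self_of_nhds hxR.1
  rw [hux]
  by_contra hcon
  push Not at hcon
  have h1 : ∀ᶠ y in 𝓝 x, M < (G y).re :=
    (Complex.continuous_re.continuousAt.comp (hol_continuousAt hG)).eventually_const_lt hcon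
  obtain ⟨y, hyO, hyR, hyW, hyN⟩ := exists_not_null hF hV hQ hmf (k := 2) (by norm_num)
    (U := W) hbad2 hW hWV hxR hx.1 hNN0 ((h1.and hGe).and (hW'o.eventually_mem hx))
  have h2 := claim1 y hyO.2 hyR.1 hyN
  rw [hyO.1.2 hyR.1] at h2
  exact absurd hyO.1.1 (not_lt.2 h2)

theorem loc (hBc : IsClosed B) (hB3 : DimLe X 3 B) (hQ : IsClosed Q) (hQ2 : DimLe X 2 Q)
    (hτ1 : DimLe X 1 τ)
    (hmf : ∀ x ∈ B \ Q, IsMfX 3 X B x)
    (hu : ∀ x ∈ B \ Q, ∃ G, X.Hol G x ∧ ∀ᶠ y in 𝓝 x, y ∈ B → u y = (G y).re)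
    (hbd : ∀ x ∈ B \ τ, ∃ C, ∀ᶠ y in 𝓝 x, y ∈ B \ Q → |u y| ≤ C) (x₀ : X.pt) :
    ∃ W' ∈ 𝓝 x₀, ∃ K' : Set X.pt, IsCompact K' ∧ K' ⊆ B \ Q ∧
      ∀ M, (∀ y ∈ K', u y ≤ M) → ∀ x ∈ W', x ∈ B \ Q → u x ≤ M := by
  obtain ⟨N, V, ζ, hx₀, hζ⟩ := exists_isCoord X x₀
  rcases Nat.eq_zero_or_pos N with hN | hN
  · subst hN
    have hfin : ({x₀} ∩ (B \ Q) : Set X.pt).Finite := (finite_singleton x₀).subset inter_subset_left
    refine ⟨V, hζ.isOpen.mem_nhds hx₀, {x₀} ∩ (B \ Q), hfin.isCompact,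
      inter_subset_right, fun M hM x hx hxR => ?_⟩
    have h1 : x = x₀ := hζ.injOn hx hx₀ (Subsingleton.elim _ _)
    exact hM x (mem_inter (mem_singleton_iff.2 h1) hxR)
  obtain ⟨F, hF, hF0, hZ, hbad2, hbad0⟩ := exists_F (x₀ := x₀) hQ hQ2 hmf hB3 hζ hN.ne' hx₀
  have hFc : ContinuousOn F V := fun y hy =>
    (continuousAt_pi.2 fun i => hol_continuousAt (hF i y hy)).continuousWithinAt
  obtain ⟨W, δ, hW, hWV, hxW, hδ, -, hprop⟩ := exists_proper hBc hζ hx₀ hFc hF0 hZ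
  refine loc_core hQ hτ1 hmf hu hbd hζ.isOpen hF hW hWV hδ hprop hxW hF0 ?_ ?_
  · refine hbad2.mono ?_
    rintro y ⟨hy1, hy2, hy3⟩
    exact ⟨hy1, hWV hy2, hy3⟩
  · refine hbad0.mono ?_
    rintro y ⟨⟨hy1, hy2, hy3⟩, hy4⟩
    exact ⟨⟨hy1, hWV hy2, hy3⟩, hy4⟩

end Vale.Agent.P277.H884.PH
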