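import Vale.Agent.P277.H884.PH2
import Vale.Agent.P231.H649.Sard

/-!
# P277, T3, P2: null sets and countable fibres
-/

open scoped Manifold ContDiff Topology
open Vale.Agent.P272.K Vale.Agent.P285.H281.FD Set Filter Metric MeasureTheory

noncomputable section

namespace Vale.Agent.P277.H884.PH

open H762 (Cv not_cv_nhds)

theorem finrank_real_cm (n : ℕ) : Module.finrank ℝ (Cm n) = 2 * n := by
  rw [finrank_real_of_complex, Module.finrank_fin_fun]

theorem null_of_cv {k n : ℕ} (hk : k < n) {S : Set (Cm n)} (h : Cv k S) : volume S = 0 := by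
  obtain ⟨Ω, g, h1, h2, h3⟩ := h
  refine measure_mono_null h3 (measure_iUnion_null fun l => ?_)
  refine P231.H649.sard_ker volume ?_ (fun s hs => ?_) fun s hs => Or.inl ?_
  · rw [finrank_real_cm, finrank_real_cm]; omega
  · exact (h2 l s hs).differentiableAt.restrictScalars ℝ
  · rw [finrank_real_cm, finrank_real_cm]; omega

/-- the projection to the first two coordinates -/
def pr2 : Cm 3 →L[ℂ] Cm 2 :=
  ContinuousLinearMap.pi ![ContinuousLinearMap.proj 0, ContinuousLinearMap.proj 1]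

theorem pr2_apply (z : Cm 3) : pr2 z = ![z 0, z 1] := by
  funext i
  fin_cases i <;> rfl

theorem null_prj {N : Set (Cm 2)} (hN : volume N = 0) : volume (pr2 ⁻¹' N) = 0 := by
  have h1 : Function.Surjective (pr2.restrictScalars ℝ : Cm 3 →ₗ[ℝ] Cm 2) := by
    intro z
    refine ⟨![z 0, z 1, 0], ?_⟩
    show pr2 _ = z
    rw [pr2_apply]
    funext i
    fin_cases i <;> rfl
  have h2 := (ae_comp_linearMap_mem_iff (𝕜 := ℝ) (pr2.restrictScalars ℝ : Cm 3 →ₗ[ℝ] Cm 2)
    (volume : Measure (Cm 3)) (volume : Measure (Cm 2)) h1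
    (s := (toMeasurable volume N)ᶜ) (measurableSet_toMeasurable _ _).compl).2 (by
      rw [ae_iff]
      simpa using hN)
  rw [ae_iff] at h2
  refine measure_mono_null (fun z hz => ?_) h2
  show ¬ _
  intro hcon
  exact hcon (subset_toMeasurable _ _ hz)

variable {X : CSp} {V : Set X.pt}

/-- generic fibres are countable -/
theorem exists_fib {Φ : X.pt → Cm 2} (hΦ : ∀ i, ∀ y ∈ V, X.Hol (fun y => Φ y i) y) {Z : Set X.pt}
    (hZV : Z ⊆ V) (hZ : DimLe X 2 Z) :
    ∃ E : Set (Cm 2), volume E = 0 ∧ ∀ b ∉ E, {y | y ∈ Z ∧ Φ y = b}.Countable := by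
  obtain ⟨Ω, G, h1, h2, h3⟩ := hZ
  let Ω' : ℕ → Set (Cm 2) := fun l => {p | p ∈ Ω l ∧ ∀ i, X.Hol (fun y => Φ y i) (G l p)}
  let f : ℕ → Cm 2 → Cm 2 := fun l p => Φ (G l p)
  have hf : ∀ l, ∀ p ∈ Ω' l, AnalyticAt ℂ (f l) p := fun l p hp =>
    AnalyticAt.pi fun i => (h2 l p hp.1).analyticAt (hp.2 i)
  refine ⟨⋃ l, f l '' {p | p ∈ Ω' l ∧ ¬ Function.Injective (fderiv ℂ (f l) p)},
    measure_iUnion_null fun l => ?_, fun b hb => ?_⟩
  · refine P231.H649.sard_ker volume le_rfl (fun s hs => ?_) fun s hs => Or.inr ?_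
    · exact (hf l s hs.1).differentiableAt.restrictScalars ℝ
    · have h4 := hs.2
      rw [injective_iff_map_eq_zero] at h4
      push Not at h4
      obtain ⟨v, hv, hv0⟩ := h4
      refine ⟨v, hv0, ?_⟩
      rw [((hf l s hs.1).differentiableAt.hasFDerivAt.restrictScalars ℝ).fderiv]
      exact hv
  · have h4 : {y | y ∈ Z ∧ Φ y = b} ⊆ ⋃ l, G l '' {p | (p ∈ Ω' l ∧
        Function.Injective (fderiv ℂ (f l) p)) ∧ f l p = b} := by
      rintro y ⟨hyZ, hyb⟩
      obtain ⟨l, p, hp, rfl⟩ := mem_iUnion.1 (h3 hyZ)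
      have h5 : p ∈ Ω' l := ⟨hp, fun i => hΦ i _ (hZV hyZ)⟩
      refine mem_iUnion.2 ⟨l, p, ⟨⟨h5, ?_⟩, hyb⟩, rfl⟩
      by_contra hcon
      exact hb (mem_iUnion.2 ⟨l, p, ⟨h5, hcon⟩, hyb⟩)
    refine (countable_iUnion fun l => Set.Countable.image ?_ _).mono h4
    have h5 : ∀ p ∈ {p | (p ∈ Ω' l ∧ Function.Injective (fderiv ℂ (f l) p)) ∧ f l p = b},
        ∃ O ∈ 𝓝 p, InjOn (f l) O := by
      intro p hp
      obtain ⟨e, he, hpe, -, -⟩ := H73.exists_localInv (hf l p hp.1.1) hp.1.2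
      refine ⟨e.source, e.open_source.mem_nhds hpe, ?_⟩
      rw [← he]
      exact e.injOn
    choose! O hO hOinj using h5
    obtain ⟨t, htT, htc, ht⟩ := TopologicalSpace.countable_cover_nhdsWithin
      (f := O) (s := {p | (p ∈ Ω' l ∧ Function.Injective (fderiv ℂ (f l) p)) ∧ f l p = b})
      fun p hp => mem_nhdsWithin_of_mem_nhds (hO p hp)
    refine htc.mono fun q hq => ?_
    obtain ⟨p, hp, hqp⟩ := mem_iUnion₂.1 (ht hq)
    have hpq : q = p := hOinj p (htT hp) hqp (mem_of_mem_nhds (hO p (htT hp)))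
      (hq.2.trans (htT hp).2.symm)
    rw [hpq]
    exact hp

end Vale.Agent.P277.H884.PH
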