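import Vale.Agent.P277.H884.PuiA
import Mathlib.RingTheory.MvPolynomial.Symmetric.FundamentalTheorem

/-!
# P277, T3, PLACE: the reduced polynomial of a family
-/

open Set Filter Metric Topology Polynomial
open Vale.Agent.P298.H983

noncomputable section

namespace Vale.Agent.P277.H884.PL

variable {E : Type*} [NormedAddCommGroup E] [NormedSpace ℂ E] {Ω : Set E} {b : ℕ} {P : E → ℂ[X]}
  {α : E → Fin b → ℂ}

/-- the elementary symmetric functions of the roots are holomorphic -/
theorem esymm_hol (h : PFam Ω b P) (hα : ∀ q ∈ Ω, P q = ∏ i, (X - C (α q i))) (k : ℕ) :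
    DifferentiableOn ℂ (fun q => MvPolynomial.eval (α q) (MvPolynomial.esymm (Fin b) ℂ k)) Ω := by
  rcases le_or_gt k b with hk | hk
  · have h1 : ∀ q ∈ Ω, MvPolynomial.eval (α q) (MvPolynomial.esymm (Fin b) ℂ k) =
        (-1) ^ k * (P q).coeff (b - k) := by
      intro q hq
      have h2 : (∏ i, (X - C (α q i)) : ℂ[X]) =
          ((Finset.univ.val.map (α q)).map fun t => X - C t).prod := by
        rw [Multiset.map_map]
        rfl
      have h3 := Multiset.prod_X_sub_C_coeff (Finset.univ.val.map (α q)) (k := b - k)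
        (by rw [Multiset.card_map]; simp)
      rw [hα q hq, h2, h3]
      have h4 : Multiset.card (Finset.univ.val.map (α q)) - (b - k) = k := by
        rw [Multiset.card_map]
        simp
        omega
      rw [h4, ← mul_assoc, ← mul_pow]
      simp only [mul_neg, mul_one, neg_neg, one_pow, one_mul]
      rw [← MvPolynomial.aeval_esymm_eq_multiset_esymm (Fin b) ℂ k (α q)]
      rfl
    refine (DifferentiableOn.const_mul (h.hol (b - k)) ((-1) ^ k)).congr fun q hq => h1 q hq
  · have h1 : ∀ q, MvPolynomial.eval (α q) (MvPolynomial.esymm (Fin b) ℂ k) = 0 := by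
      intro q
      rw [MvPolynomial.esymm, Finset.powersetCard_eq_empty.2 (by simpa using hk)]
      simp
    simp only [h1]
    exact differentiableOn_const _

theorem mvPolynomial_hol {m : ℕ} {f : E → Fin m → ℂ} (hf : ∀ i, DifferentiableOn ℂ (fun q => f q i) Ω)
    (R : MvPolynomial (Fin m) ℂ) : DifferentiableOn ℂ (fun q => MvPolynomial.eval (f q) R) Ω := by
  induction R using MvPolynomial.induction_on with
  | C a => simp only [MvPolynomial.eval_C]; exact differentiableOn_const _
  | add p q hp hq => simp only [map_add]; exact hp.add hq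
  | mul_X p i hp => simp only [map_mul, MvPolynomial.eval_X]; exact hp.mul (hf i)

theorem eval_aeval_esymm {m : ℕ} (x : Fin b → ℂ) (g : Fin m → MvPolynomial (Fin b) ℂ)
    (R : MvPolynomial (Fin m) ℂ) : MvPolynomial.eval x (MvPolynomial.aeval g R) =
      MvPolynomial.eval (fun i => MvPolynomial.eval x (g i)) R := by
  induction R using MvPolynomial.induction_on with
  | C a => simp
  | add p r hp hr => simp only [map_add, hp, hr]
  | mul_X p i hp => simp only [map_mul, hp, MvPolynomial.aeval_X, MvPolynomial.eval_X]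

/-- symmetric functions of the roots are holomorphic -/
theorem sym_hol (h : PFam Ω b P) (hα : ∀ q ∈ Ω, P q = ∏ i, (X - C (α q i))) {k : ℕ}
    (W : MvPolynomial (Fin k) ℂ) :
    DifferentiableOn ℂ (fun q => ∑ f : Fin k → Fin b, MvPolynomial.eval (α q ∘ f) W) Ω := by
  set Q : MvPolynomial (Fin b) ℂ := ∑ f : Fin k → Fin b, MvPolynomial.rename f W with hQ
  have hsym : Q.IsSymmetric := by
    intro τ
    rw [hQ, map_sum]
    simp only [MvPolynomial.rename_rename]
    refine Fintype.sum_equiv (Equiv.arrowCongr (Equiv.refl _) τ) _ _ fun f => ?_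
    rfl
  obtain ⟨R, hR⟩ := MvPolynomial.esymmAlgHom_surjective (σ := Fin b) ℂ (n := b) (by simp) ⟨Q, hsym⟩
  have hR' : MvPolynomial.aeval (fun i : Fin b => MvPolynomial.esymm (Fin b) ℂ (i + 1)) R = Q := by
    have : (MvPolynomial.esymmAlgHom (Fin b) ℂ b R).val = Q := congrArg Subtype.val hR
    rw [← this]
    exact (MvPolynomial.esymmAlgHom_apply ..).symm
  have h1 : ∀ q, (∑ f : Fin k → Fin b, MvPolynomial.eval (α q ∘ f) W) =
      MvPolynomial.eval (fun i : Fin b =>
        MvPolynomial.eval (α q) (MvPolynomial.esymm (Fin b) ℂ (i + 1))) R := by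
    intro q
    have h2 : (∑ f : Fin k → Fin b, MvPolynomial.eval (α q ∘ f) W) =
        MvPolynomial.eval (α q) Q := by
      rw [hQ, map_sum]
      simp only [MvPolynomial.eval_rename]
    rw [h2, ← hR', eval_aeval_esymm]
  simp only [h1]
  exact mvPolynomial_hol (fun i => esymm_hol h hα _) R

/-! ### the discriminants -/

/-- the product of the differences -/
def wd {k : ℕ} (y : Fin k → ℂ) : ℂ := ∏ p ∈ (Finset.univ : Finset (Fin k)).offDiag, (y p.1 - y p.2)

/-- the polynomial with given roots -/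
def pd {k : ℕ} (y : Fin k → ℂ) : ℂ[X] := ∏ i, (X - C (y i))

theorem wd_ne_zero {k : ℕ} {y : Fin k → ℂ} : wd y ≠ 0 ↔ Function.Injective y := by
  rw [wd, Finset.prod_ne_zero_iff]
  constructor
  · intro h i j hij
    by_contra hne
    exact h (i, j) (Finset.mem_offDiag.2 ⟨Finset.mem_univ _, Finset.mem_univ _, hne⟩)
      (sub_eq_zero.2 hij)
  · intro h p hp
    exact sub_ne_zero.2 fun h1 => (Finset.mem_offDiag.1 hp).2.2 (h h1)

theorem wd_eq {k : ℕ} {y : Fin k → ℂ} (hy : Function.Injective y) :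
    wd y = ∏ p ∈ (Finset.univ.image y).offDiag, (p.1 - p.2) := by
  rw [wd]
  refine Finset.prod_nbij (Prod.map y y) ?_ ?_ ?_ ?_
  · intro p hp
    rw [Finset.mem_offDiag] at hp ⊢
    exact ⟨Finset.mem_image_of_mem _ (Finset.mem_univ _),
      Finset.mem_image_of_mem _ (Finset.mem_univ _), fun h => hp.2.2 (hy h)⟩
  · intro p _ r _ h
    have h1 := congrArg Prod.fst h
    have h2 := congrArg Prod.snd h
    exact Prod.ext (hy h1) (hy h2)
  · rintro ⟨u, v⟩ huv
    rw [Finset.mem_coe, Finset.mem_offDiag] at huv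
    obtain ⟨i, -, hi⟩ := Finset.mem_image.1 huv.1
    obtain ⟨j, -, hj⟩ := Finset.mem_image.1 huv.2.1
    refine ⟨(i, j), ?_, Prod.ext hi hj⟩
    rw [Finset.mem_coe, Finset.mem_offDiag]
    refine ⟨Finset.mem_univ _, Finset.mem_univ _, fun h => ?_⟩
    replace h : i = j := h
    subst h
    exact huv.2.2 (hi.symm.trans hj)
  · intro p _
    rfl

theorem pd_eq {k : ℕ} {y : Fin k → ℂ} (hy : Function.Injective y) :
    pd y = ∏ β ∈ Finset.univ.image y, (X - C β) := by
  rw [pd, Finset.prod_image fun i _ j _ h => hy h]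

/-- the values -/
def vals (x : Fin b → ℂ) : Finset ℂ := Finset.univ.image x

theorem vals_comp {k : ℕ} {x : Fin b → ℂ} {f : Fin k → Fin b} (hf : Function.Injective (x ∘ f))
    (hk : (vals x).card = k) : Finset.univ.image (x ∘ f) = vals x := by
  refine Finset.eq_of_subset_of_card_le ?_ ?_
  · intro z hz
    obtain ⟨i, -, rfl⟩ := Finset.mem_image.1 hz
    exact Finset.mem_image_of_mem _ (Finset.mem_univ _)
  · rw [hk, Finset.card_image_of_injective _ hf, Finset.card_univ, Fintype.card_fin]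

theorem exists_inj {k : ℕ} {x : Fin b → ℂ} (hk : k ≤ (vals x).card) :
    ∃ f : Fin k → Fin b, Function.Injective (x ∘ f) := by
  obtain ⟨S, hS, hSk⟩ := Finset.exists_subset_card_eq hk
  let e : Fin k ≃ S := (Finset.equivFinOfCardEq hSk).symm
  have h1 : ∀ i, ∃ j, x j = (e i : ℂ) := by
    intro i
    obtain ⟨j, -, hj⟩ := Finset.mem_image.1 (hS (e i).2)
    exact ⟨j, hj⟩
  choose f hf using h1
  refine ⟨f, fun i j hij => ?_⟩
  have h2 : (e i : ℂ) = e j := by rw [← hf i, ← hf j]; exact hij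
  exact e.injective (Subtype.ext h2)

/-- the generalised discriminant -/
def Dk (k : ℕ) (x : Fin b → ℂ) : ℂ := ∑ f : Fin k → Fin b, wd (x ∘ f)

theorem Dk_ne_zero {k : ℕ} {x : Fin b → ℂ} (hk : (vals x).card = k) : Dk k x ≠ 0 := by
  classical
  set Δ : ℂ := ∏ p ∈ (vals x).offDiag, (p.1 - p.2) with hΔ
  have hΔ0 : Δ ≠ 0 := by
    rw [hΔ, Finset.prod_ne_zero_iff]
    intro p hp
    exact sub_ne_zero.2 (Finset.mem_offDiag.1 hp).2.2
  have h1 : Dk k x = ∑ f : Fin k → Fin b, if Function.Injective (x ∘ f) then Δ else 0 := by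
    refine Finset.sum_congr rfl fun f _ => ?_
    split_ifs with h
    · rw [wd_eq h, vals_comp h hk]
    · by_contra h2
      exact h (wd_ne_zero.1 h2)
  rw [h1, ← Finset.sum_filter, Finset.sum_const, nsmul_eq_mul]
  refine mul_ne_zero ?_ hΔ0
  rw [Nat.cast_ne_zero, Finset.card_ne_zero]
  obtain ⟨f, hf⟩ := exists_inj hk.ge
  exact ⟨f, Finset.mem_filter.2 ⟨Finset.mem_univ _, hf⟩⟩

theorem le_of_Dk {k : ℕ} {x : Fin b → ℂ} (h : Dk k x ≠ 0) : k ≤ (vals x).card := by
  obtain ⟨f, -, hf⟩ := Finset.exists_ne_zero_of_sum_ne_zero h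
  have h1 := wd_ne_zero.1 hf
  have h2 : (Finset.univ.image (x ∘ f)).card = k := by
    rw [Finset.card_image_of_injective _ h1, Finset.card_univ, Fintype.card_fin]
  rw [← h2]
  refine Finset.card_le_card ?_
  intro z hz
  obtain ⟨i, -, rfl⟩ := Finset.mem_image.1 hz
  exact Finset.mem_image_of_mem _ (Finset.mem_univ _)

/-- the coefficients -/
def Ek (k l : ℕ) (x : Fin b → ℂ) : ℂ := ∑ f : Fin k → Fin b, wd (x ∘ f) * (pd (x ∘ f)).coeff l

theorem Ek_eq {k : ℕ} {x : Fin b → ℂ} (hk : (vals x).card = k) (l : ℕ) :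
    Ek k l x = Dk k x * (∏ β ∈ vals x, (X - C β)).coeff l := by
  rw [Ek, Dk, Finset.sum_mul]
  refine Finset.sum_congr rfl fun f _ => ?_
  by_cases h : wd (x ∘ f) = 0
  · rw [h, zero_mul, zero_mul]
  · have h1 := wd_ne_zero.1 h
    rw [pd_eq h1, vals_comp h1 hk]

theorem Dk_hol (h : PFam Ω b P) (hα : ∀ q ∈ Ω, P q = ∏ i, (X - C (α q i))) (k : ℕ) :
    DifferentiableOn ℂ (fun q => Dk k (α q)) Ω := by
  have h1 := sym_hol h hα (∏ p ∈ (Finset.univ : Finset (Fin k)).offDiag,
    (MvPolynomial.X p.1 - MvPolynomial.X p.2))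
  simp only [map_prod, map_sub, MvPolynomial.eval_X] at h1
  exact h1

theorem Ek_hol (h : PFam Ω b P) (hα : ∀ q ∈ Ω, P q = ∏ i, (X - C (α q i))) (k l : ℕ) :
    DifferentiableOn ℂ (fun q => Ek k l (α q)) Ω := by
  have h1 := sym_hol h hα ((∏ p ∈ (Finset.univ : Finset (Fin k)).offDiag,
    (MvPolynomial.X p.1 - MvPolynomial.X p.2)) *
      (∏ i : Fin k, (X - C (MvPolynomial.X i : MvPolynomial (Fin k) ℂ))).coeff l)
  have h2 : ∀ y : Fin k → ℂ, MvPolynomial.eval y
      ((∏ i : Fin k, (X - C (MvPolynomial.X i : MvPolynomial (Fin k) ℂ))).coeff l) =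
        (pd y).coeff l := by
    intro y
    rw [← Polynomial.coeff_map, Polynomial.map_prod]
    simp [pd]
  simp only [map_mul, map_prod, map_sub, MvPolynomial.eval_X, h2] at h1
  exact h1

end Vale.Agent.P277.H884.PL
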