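import Vale.Agent.P277.H884.PL1

/-!
# P277, T3, PLACE: the reduced polynomial of a family, main theorem
-/

open Set Filter Metric Topology Polynomial
open Vale.Agent.P298.H983

noncomputable section

namespace Vale.Agent.P277.H884.PL

variable {E : Type*} [NormedAddCommGroup E] [NormedSpace ℂ E] [FiniteDimensional ℂ E]
  {V : Set E} {b : ℕ} {P : E → ℂ[X]}

omit [FiniteDimensional ℂ E] in
theorem exists_alpha (h : PFam V b P) : ∃ α : E → Fin b → ℂ, ∀ q ∈ V, P q = ∏ i, (X - C (α q i)) := by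
  have h1 : ∀ q : E, ∃ a : Fin b → ℂ, q ∈ V → P q = ∏ i, (X - C (a i)) := by
    intro q
    by_cases hq : q ∈ V
    · have h2 : (P q).roots.card = b := by
        rw [← h.deg q hq]
        exact (splits_iff_card_roots.1 (IsAlgClosed.splits (P q)))
      obtain ⟨l, hl⟩ := Quot.exists_rep (P q).roots
      have hl' : (l : Multiset ℂ) = (P q).roots := hl
      have hlen : l.length = b := by
        rw [← h2, ← hl', Multiset.coe_card]
      subst hlen
      refine ⟨fun i => l.get i, fun _ => ?_⟩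
      have h3 := (IsAlgClosed.splits (P q)).eq_prod_roots_of_monic (h.monic q hq)
      rw [h3, ← hl', Multiset.map_coe, Multiset.prod_coe]
      rw [← List.prod_ofFn]
      congr 1
      apply List.ext_get
      · simp
      · intro n h1 h2
        simp
    · exact ⟨0, fun hq' => (hq hq').elim⟩
  choose α hα using h1
  exact ⟨α, hα⟩

theorem analyticOnNhd_of_diff {f : E → ℂ} (hV : IsOpen V) (hf : DifferentiableOn ℂ f V) :
    AnalyticOnNhd ℂ f V := fun _ hz => P268.analyticAt_of_differentiableOn hV hf hz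

theorem frequently_ne {f : E → ℂ} (hV : IsOpen V) (hVc : IsPreconnected V)
    (hf : DifferentiableOn ℂ f V) (hne : ∃ q ∈ V, f q ≠ 0) : ∀ p ∈ V, ∃ᶠ x in 𝓝 p, f x ≠ 0 := by
  intro p hp hcon
  obtain ⟨q, hq, hfq⟩ := hne
  have h1 : f =ᶠ[𝓝 p] 0 := by
    filter_upwards [hcon] with x hx
    by_contra h
    exact hx h
  exact hfq ((analyticOnNhd_of_diff hV hf).eqOn_zero_of_preconnected_of_eventuallyEq_zero hVc hp h1 hq)

/-- **the reduced polynomial** -/
theorem exists_reduced (hV : IsOpen V) (hVc : IsPreconnected V) (hVn : V.Nonempty)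
    (h : PFam V b P) : ∃ (k : ℕ) (D : E → ℂ) (R : E → ℂ[X]), DifferentiableOn ℂ D V ∧
      (∃ q ∈ V, D q ≠ 0) ∧ PFam V k R ∧
      ∀ q ∈ V, D q ≠ 0 → (∀ z, (R q).eval z = 0 → (derivative (R q)).eval z ≠ 0) ∧
        ∀ z, (R q).eval z = 0 ↔ (P q).eval z = 0 := by
  classical
  obtain ⟨α, hα⟩ := exists_alpha h
  -- the maximal number of roots
  have hex : ∃ j, j ≤ b ∧ ∃ q ∈ V, Dk j (α q) ≠ 0 := by
    obtain ⟨q, hq⟩ := hVn
    refine ⟨(vals (α q)).card, ?_, q, hq, Dk_ne_zero rfl⟩
    exact (Finset.card_image_le).trans (by simp)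
  set k := Nat.findGreatest (fun j => ∃ q ∈ V, Dk j (α q) ≠ 0) b with hk
  have hkD : ∃ q ∈ V, Dk k (α q) ≠ 0 := by
    obtain ⟨j, hj, hq⟩ := hex
    exact Nat.findGreatest_spec (P := fun j => ∃ q ∈ V, Dk j (α q) ≠ 0) hj hq
  have hle : ∀ q ∈ V, (vals (α q)).card ≤ k := by
    intro q hq
    have h1 : (vals (α q)).card ≤ b := (Finset.card_image_le).trans (by simp)
    exact Nat.le_findGreatest h1 ⟨q, hq, Dk_ne_zero rfl⟩
  have hcard : ∀ q ∈ V, Dk k (α q) ≠ 0 → (vals (α q)).card = k := fun q hq hD =>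
    le_antisymm (hle q hq) (le_of_Dk hD)
  have hDh : DifferentiableOn ℂ (fun q => Dk k (α q)) V := Dk_hol h hα k
  have hfr := frequently_ne hV hVc hDh hkD
  -- the coefficients
  have hroot : ∀ q ∈ V, ∀ i, (P q).eval (α q i) = 0 := by
    intro q hq i
    rw [hα q hq, eval_prod]
    exact Finset.prod_eq_zero (Finset.mem_univ i) (by simp)
  have hbound : ∀ l, ∀ p ∈ V, ∃ C : ℝ, ∀ᶠ x in 𝓝 p, Dk k (α x) ≠ 0 →
      ‖Ek k l (α x) / Dk k (α x)‖ ≤ C := by
    intro l p hp
    obtain ⟨C, hC⟩ := h.bdd_near hV hp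
    have hcont : ContinuousOn (fun y : Fin k → ℂ => (pd y).coeff l) (closedBall 0 (max C 0)) :=
      continuousOn_coeff_prod (fun i => (continuous_apply i).continuousOn) l
    obtain ⟨M, hM⟩ := (isCompact_closedBall (0 : Fin k → ℂ) (max C 0)).exists_bound_of_continuousOn
      hcont
    refine ⟨M, ?_⟩
    filter_upwards [hC, hV.mem_nhds hp] with x hx hxV hxD
    have hc := hcard x hxV hxD
    obtain ⟨f, hf⟩ := exists_inj hc.ge
    rw [Ek_eq hc, mul_comm, mul_div_assoc, div_self hxD, mul_one, ← vals_comp hf hc, ← pd_eq hf]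
    refine hM _ ?_
    rw [mem_closedBall_zero_iff, pi_norm_le_iff_of_nonneg (le_max_right _ _)]
    intro i
    exact (hx _ (hroot x hxV (f i))).trans (le_max_left _ _)
  have hext : ∀ l, ∃ U : E → ℂ, DifferentiableOn ℂ U V ∧ ∀ x ∈ V, Dk k (α x) ≠ 0 →
      U x = Ek k l (α x) / Dk k (α x) := by
    intro l
    refine riemann_global hV hDh hfr ?_ (hbound l)
    have h1 : DifferentiableOn ℂ (fun x => Ek k l (α x)) (V ∩ {x | Dk k (α x) ≠ 0}) :=
      (Ek_hol h hα k l).mono inter_subset_left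
    have h2 : DifferentiableOn ℂ (fun x => (Dk k (α x))⁻¹) (V ∩ {x | Dk k (α x) ≠ 0}) :=
      (hDh.mono inter_subset_left).fun_inv fun x hx => hx.2
    simp only [div_eq_mul_inv]
    exact h1.mul h2
  choose U hUd hUe using hext
  -- the polynomial
  set R : E → ℂ[X] := fun q => X ^ k + ∑ l ∈ Finset.range k, C (U l q) * X ^ l with hR
  have hdeg : ∀ q, (∑ l ∈ Finset.range k, C (U l q) * X ^ l : ℂ[X]).degree < k := by
    intro q
    rw [degree_lt_iff_coeff_zero]
    intro m hm
    rw [finsetSum_coeff]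
    refine Finset.sum_eq_zero fun l hl => ?_
    rw [coeff_C_mul, coeff_X_pow, if_neg (by have := Finset.mem_range.1 hl; omega), mul_zero]
  have hmon : ∀ q, (R q).Monic := fun q => monic_X_pow_add (hdeg q)
  have hnat : ∀ q, (R q).natDegree = k := fun q => by
    rw [hR]
    exact natDegree_eq_of_degree_eq_some (by
      rw [degree_add_eq_left_of_degree_lt (by rw [degree_X_pow]; exact hdeg q), degree_X_pow])
  have hcoef : ∀ q l, (R q).coeff l = if l < k then U l q else if l = k then 1 else 0 := by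
    intro q l
    rw [hR]
    simp only [coeff_add, coeff_X_pow, finsetSum_coeff, coeff_C_mul]
    by_cases hl : l < k
    · rw [if_pos hl, if_neg hl.ne, zero_add, Finset.sum_eq_single l]
      · simp
      · intro m _ hm
        rw [if_neg (Ne.symm hm), mul_zero]
      · intro hl'
        exact absurd (Finset.mem_range.2 hl) hl'
    · rw [if_neg hl, Finset.sum_eq_zero, add_zero]
      intro m hm
      rw [if_neg, mul_zero]
      have := Finset.mem_range.1 hm
      omega
  have hReq : ∀ q ∈ V, Dk k (α q) ≠ 0 → R q = ∏ β ∈ vals (α q), (X - C β) := by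
    intro q hq hD
    have hc := hcard q hq hD
    ext l
    rw [hcoef]
    have hnd : (∏ β ∈ vals (α q), (X - C β) : ℂ[X]).natDegree = k := by
      rw [natDegree_prod_of_monic _ _ fun β _ => monic_X_sub_C β]
      simp [hc]
    by_cases hl : l < k
    · rw [if_pos hl, hUe l q hq hD, Ek_eq hc, mul_comm, mul_div_assoc, div_self hD, mul_one]
    · rw [if_neg hl]
      by_cases hl' : l = k
      · rw [if_pos hl', hl']
        have h1 := (monic_prod_of_monic (vals (α q)) (fun β => (X - C β : ℂ[X]))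
          fun β _ => monic_X_sub_C β).coeff_natDegree
        rw [hnd] at h1
        exact h1.symm
      · rw [if_neg hl']
        exact (coeff_eq_zero_of_natDegree_lt (by omega)).symm
  refine ⟨k, fun q => Dk k (α q), R, hDh, hkD, ⟨fun q _ => hmon q, fun q _ => hnat q, fun l => ?_⟩, ?_⟩
  · by_cases hl : l < k
    · exact (hUd l).congr fun q _ => by rw [hcoef, if_pos hl]
    · have : ∀ q, (R q).coeff l = if l = k then 1 else 0 := fun q => by rw [hcoef, if_neg hl]
      simp only [this]
      exact differentiableOn_const _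
  · intro q hq hD
    rw [hReq q hq hD]
    have hc := hcard q hq hD
    obtain ⟨f, hf⟩ := exists_inj hc.ge
    refine ⟨?_, fun z => ?_⟩
    · have h1 : (∏ β ∈ vals (α q), (X - C β) : ℂ[X]) = ∏ i, (X - C ((α q ∘ f) i)) := by
        rw [← vals_comp hf hc, ← pd_eq hf, pd]
      have h2 : (∏ i, (X - C ((α q ∘ f) i)) : ℂ[X]).Separable := separable_prod_X_sub_C_iff.2 hf
      intro z hz h3
      rw [h1] at hz h3
      have h4 := h2.aeval_derivative_ne_zero (x := z) (by rw [coe_aeval_eq_eval]; exact hz)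
      rw [coe_aeval_eq_eval] at h4
      exact h4 h3
    · rw [hα q hq, eval_prod, eval_prod, Finset.prod_eq_zero_iff, Finset.prod_eq_zero_iff]
      constructor
      · rintro ⟨β, hβ, hz⟩
        obtain ⟨i, -, rfl⟩ := Finset.mem_image.1 hβ
        exact ⟨i, Finset.mem_univ _, hz⟩
      · rintro ⟨i, -, hz⟩
        exact ⟨α q i, Finset.mem_image_of_mem _ (Finset.mem_univ _), hz⟩

end Vale.Agent.P277.H884.PL
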