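import Vale.Agent.P277.H884.PL2
import Vale.Agent.P277.Stmts9

/-!
# P277, T3, PLACE: the parametrisation at a good point
-/

open Set Filter Metric Topology Polynomial
open Vale.Agent.P298.H983 Vale.Agent.P272.K

noncomputable section

namespace Vale.Agent.P277.H884.PL

/-- coordinates on `ℂ⁴ = ℂ² × ℂ²` -/
def emb4 (z c : Cm 2) : Cm 4 := ![z 0, z 1, c 0, c 1]

theorem emb4_eta (y : Cm 4) : emb4 ![y 0, y 1] ![y 2, y 3] = y := by
  funext i
  fin_cases i <;> rfl

theorem differentiable_emb4 : Differentiable ℂ fun p : Cm 2 × Cm 2 => emb4 p.1 p.2 := by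
  refine differentiable_pi.2 fun i => ?_
  fin_cases i <;> simp only [emb4] <;> simp <;> fun_prop

/-- the last two coordinates of `ℂ³` -/
def tl (w : Cm 3) : Cm 2 := ![w 1, w 2]

theorem differentiable_tl : Differentiable ℂ tl := by
  refine differentiable_pi.2 fun i => ?_
  fin_cases i <;> simp only [tl] <;> simp <;> fun_prop

theorem mem_ball3 {w : Cm 3} {a b : ℂ} {r : ℝ} (hr : 0 < r) :
    w ∈ ball (![0, a, b] : Cm 3) r ↔ ‖w 0‖ < r ∧ tl w ∈ ball (![a, b] : Cm 2) r := by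
  rw [mem_ball, mem_ball, dist_pi_lt_iff hr, dist_pi_lt_iff hr]
  constructor
  · intro h
    refine ⟨by simpa using h 0, fun i => ?_⟩
    fin_cases i
    · exact h 1
    · exact h 2
  · rintro ⟨h0, h⟩ i
    fin_cases i
    · simpa using h0
    · exact h 0
    · exact h 1

theorem place_of {σ : Cm 4 → ℂ} (L : (ℂ × ℂ) ≃L[ℂ] Cm 2) {c₂ : Cm 2} {A ε₀ : ℝ} (hA : 0 < A)
    (hε₀ : 0 < ε₀) {b n : ℕ} {P R : Cm 2 × ℂ → ℂ[X]}
    (hPF : PFam (ball c₂ A ×ˢ ball 0 A) b P) (hRF : PFam (ball c₂ A ×ˢ ball 0 A) n R)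
    (hσ : ∀ t : ℂ, ‖t‖ < ε₀ → ∀ q ∈ ball c₂ A ×ˢ ball (0 : ℂ) A,
      (σ (emb4 (L (t, q.2)) q.1) = 0 ↔ (P q).eval t = 0))
    (hP0 : ∀ c ∈ ball c₂ A, ∀ t, (P (c, 0)).eval t = 0 → t = 0)
    (hsimple : Simple ((ball c₂ A ×ˢ ball 0 A) ∩ {q | q.2 ≠ 0}) R)
    (hroots : ∀ q ∈ ball c₂ A ×ˢ ball (0 : ℂ) A, q.2 ≠ 0 → ∀ z, (R q).eval z = 0 ↔ (P q).eval z = 0) :
    T3.PlaceAt σ (emb4 0 c₂) := by
  obtain ⟨N, s, η, hN0, hs, hη1, hη2, hη3⟩ :=
    roots_puiseux (isOpen_ball (x := c₂) (ε := A)) (convex_ball _ _) hA hRF hsimple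
  -- the functions are roots of `P`
  have hPη : ∀ k, ∀ q ∈ ball c₂ A ×ˢ powBall (s k) A, (P (q.1, q.2 ^ s k)).eval (η k q) = 0 := by
    intro k
    have hSo : IsOpen (ball c₂ A ×ˢ powBall (s k) A) := isOpen_ball.prod (isOpen_powBall _ A)
    have hm : MapsTo (fun q : Cm 2 × ℂ => ((q.1, q.2 ^ s k) : Cm 2 × ℂ)) (ball c₂ A ×ˢ powBall (s k) A)
        (ball c₂ A ×ˢ ball 0 A) := fun q hq => ⟨hq.1, pow_mem_ball hq.2⟩
    have h1 := hPF.comp (φ := fun q : Cm 2 × ℂ => ((q.1, q.2 ^ s k) : Cm 2 × ℂ))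
      (differentiable_fst.prodMk (differentiable_snd.pow (s k))).differentiableOn hm
    have h2 : ContinuousOn (fun q : Cm 2 × ℂ => (P (q.1, q.2 ^ s k)).eval (η k q))
        (ball c₂ A ×ˢ powBall (s k) A) := by
      have h3 := h1.differentiableOn_eval.continuousOn
      refine h3.comp (f := fun q : Cm 2 × ℂ => ((q, η k q) : (Cm 2 × ℂ) × ℂ))
        (continuousOn_id.prodMk (hη1 k).continuousOn) ?_
      intro q hq
      exact ⟨hq, mem_univ _⟩
    refine eqOn_of_snd_ne hSo (a := fun q : Cm 2 × ℂ => (P (q.1, q.2 ^ s k)).eval (η k q))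
      (b := fun _ => 0) h2 continuousOn_const ?_
    rintro ⟨x, t⟩ ⟨hx, ht⟩ ht0
    exact (hroots _ (hm ⟨hx, ht⟩) (pow_ne_zero _ ht0) _).1 (hη2 k (x, t) ⟨hx, ht⟩)
  have h0pow : ∀ k, (0 : ℂ) ∈ powBall (s k) A := by
    intro k
    change ‖(0 : ℂ)‖ ^ s k < A
    rw [norm_zero, zero_pow (by have := (hs k).1; omega)]
    exact hA
  have hη0 : ∀ k, ∀ c ∈ ball c₂ A, η k (c, 0) = 0 := by
    intro k c hc
    have h1 := hPη k (c, 0) ⟨hc, h0pow k⟩
    simp only [zero_pow (show s k ≠ 0 by have := (hs k).1; omega)] at h1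
    exact hP0 c hc _ h1
  -- the radius
  have hsmall : ∀ᶠ q : Cm 2 × ℂ in 𝓝 (c₂, 0), ∀ k, ‖η k q‖ < ε₀ := by
    rw [eventually_all]
    intro k
    have hSo : IsOpen (ball c₂ A ×ˢ powBall (s k) A) := isOpen_ball.prod (isOpen_powBall _ A)
    have h1 : ContinuousAt (η k) (c₂, 0) := (hη1 k).continuousOn.continuousAt
      (hSo.mem_nhds ⟨mem_ball_self hA, h0pow k⟩)
    refine h1.norm.eventually_lt_const ?_
    show ‖η k (c₂, 0)‖ < ε₀
    rw [hη0 k c₂ (mem_ball_self hA), norm_zero]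
    exact hε₀
  obtain ⟨r₁, hr₁, hball⟩ := Metric.eventually_nhds_iff_ball.1 hsmall
  set r : ℝ := min (min r₁ A) 1 with hr
  have hr0 : 0 < r := lt_min (lt_min hr₁ hA) one_pos
  have hrA : r ≤ A := (min_le_left _ _).trans (min_le_right _ _)
  have hr1 : r ≤ 1 := min_le_right _ _
  have hrr₁ : r ≤ r₁ := (min_le_left _ _).trans (min_le_left _ _)
  have hpow : ∀ k, ∀ t : ℂ, ‖t‖ < r → t ∈ powBall (s k) A := by
    intro k t ht
    change ‖t‖ ^ s k < A
    refine lt_of_le_of_lt ?_ (ht.trans_le hrA)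
    exact pow_le_of_le_one (norm_nonneg t) (ht.le.trans hr1) (by have := (hs k).1; omega)
  -- the maps
  set γ : Fin n → Cm 3 → Cm 4 := fun k w => emb4 (L (η k (tl w, w 0), w 0 ^ s k)) (tl w) with hγ
  have hx2 : (![0, (emb4 0 c₂ : Cm 4) 2, (emb4 0 c₂ : Cm 4) 3] : Cm 3) = ![0, c₂ 0, c₂ 1] := rfl
  have hc₂ : (![c₂ 0, c₂ 1] : Cm 2) = c₂ := by
    funext i
    fin_cases i <;> rfl
  refine ⟨n, r, γ, hr0, fun k w hw => ?_, ?_⟩
  · rw [hx2, mem_ball3 hr0, hc₂] at hw
    have hwt : tl w ∈ ball c₂ A := ball_subset_ball hrA hw.2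
    have hwp : (tl w, w 0) ∈ ball c₂ A ×ˢ powBall (s k) A := ⟨hwt, hpow k _ hw.1⟩
    have hSo : IsOpen (ball c₂ A ×ˢ powBall (s k) A) := isOpen_ball.prod (isOpen_powBall _ A)
    have hm : Differentiable ℂ fun w : Cm 3 => ((tl w, w 0) : Cm 2 × ℂ) :=
      differentiable_tl.prodMk (differentiable_apply 0)
    have hSo' : IsOpen ((fun w : Cm 3 => ((tl w, w 0) : Cm 2 × ℂ)) ⁻¹' (ball c₂ A ×ˢ powBall (s k) A)) :=
      hSo.preimage hm.continuous
    refine ⟨?_, ?_, rfl, rfl, ?_⟩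
    · have h1 : DifferentiableOn ℂ (γ k)
          ((fun w : Cm 3 => ((tl w, w 0) : Cm 2 × ℂ)) ⁻¹' (ball c₂ A ×ˢ powBall (s k) A)) := by
        have h2 : DifferentiableOn ℂ (fun w : Cm 3 => η k (tl w, w 0))
            ((fun w : Cm 3 => ((tl w, w 0) : Cm 2 × ℂ)) ⁻¹' (ball c₂ A ×ˢ powBall (s k) A)) :=
          (hη1 k).comp hm.differentiableOn fun w hw => hw
        have h3 : DifferentiableOn ℂ (fun w : Cm 3 => L (η k (tl w, w 0), w 0 ^ s k))
            ((fun w : Cm 3 => ((tl w, w 0) : Cm 2 × ℂ)) ⁻¹' (ball c₂ A ×ˢ powBall (s k) A)) := by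
          refine (L.differentiable).comp_differentiableOn ?_
          exact h2.prodMk (((differentiable_apply (0 : Fin 3)).pow (s k)).differentiableOn)
        exact differentiable_emb4.comp_differentiableOn (h3.prodMk differentiable_tl.differentiableOn)
      exact P268.analyticAt_of_differentiableOn hSo' h1 hwp
    · refine (hσ _ ?_ (tl w, w 0 ^ s k) ⟨hwt, pow_mem_ball (hpow k _ hw.1)⟩).2
        (hPη k _ hwp)
      refine hball (tl w, w 0) ?_ k
      rw [mem_ball, Prod.dist_eq, max_lt_iff]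
      refine ⟨lt_of_lt_of_le hw.2 hrr₁, ?_⟩
      rw [dist_zero_right]
      exact hw.1.trans_le hrr₁
    · constructor
      · intro h0
        have h1 : L (η k (tl w, w 0), w 0 ^ s k) = 0 := by
          rw [h0, hη0 k _ hwt, zero_pow (by have := (hs k).1; omega)]
          exact L.map_zero
        refine ⟨?_, ?_⟩
        · show L (η k (tl w, w 0), w 0 ^ s k) 0 = 0
          rw [h1]; rfl
        · show L (η k (tl w, w 0), w 0 ^ s k) 1 = 0
          rw [h1]; rfl
      · rintro ⟨h1, h2⟩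
        have h3 : L (η k (tl w, w 0), w 0 ^ s k) = 0 := by
          funext i
          fin_cases i
          · exact h1
          · exact h2
        have h4 := (L.map_eq_zero_iff).1 h3
        exact eq_zero_of_pow_eq_zero (congrArg Prod.snd h4)
  · intro x' hx' hx'0 hx'1 ε hε
    set c' : Cm 2 := ![x' 2, x' 3] with hc'
    have hc'b : c' ∈ ball c₂ A := by
      rw [mem_ball, dist_pi_lt_iff hr0] at hx'
      refine ball_subset_ball hrA ?_
      rw [mem_ball, dist_pi_lt_iff hr0]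
      intro i
      fin_cases i
      · exact hx' 2
      · exact hx' 3
    set ε₁ : ℝ := min ε 1 with hε₁
    have hε₁0 : 0 < ε₁ := lt_min hε one_pos
    -- convergence of the coordinates
    have hcA : Continuous fun y : Cm 4 => (![y 2, y 3] : Cm 2) := by
      refine continuous_pi fun i => ?_
      fin_cases i
      · exact continuous_apply (2 : Fin 4)
      · exact continuous_apply (3 : Fin 4)
    have hcB : Continuous fun y : Cm 4 => (![y 0, y 1] : Cm 2) := by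
      refine continuous_pi fun i => ?_
      fin_cases i
      · exact continuous_apply (0 : Fin 4)
      · exact continuous_apply (1 : Fin 4)
    have h1 : Tendsto (fun y : Cm 4 => (![y 2, y 3] : Cm 2)) (𝓝 x') (𝓝 c') :=
      hcA.tendsto' _ _ rfl
    have h2 : Tendsto (fun y : Cm 4 => L.symm ![y 0, y 1]) (𝓝 x') (𝓝 (0, 0)) := by
      refine (L.symm.continuous.comp hcB).tendsto' _ _ ?_
      have : (![x' 0, x' 1] : Cm 2) = 0 := by
        funext i
        fin_cases i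
        · exact hx'0
        · exact hx'1
      simp only [Function.comp_apply, this]
      exact L.symm.map_zero
    have h3 : ∀ᶠ p : ℂ × ℂ in 𝓝 (0, 0), ‖p.1‖ < ε₀ ∧ ‖p.2‖ < A ∧ ‖p.2‖ < ε₁ ^ n := by
      have h4 : Tendsto (fun p : ℂ × ℂ => ‖p.1‖) (𝓝 (0, 0)) (𝓝 0) :=
        (continuous_fst.norm).tendsto' _ _ (by simp)
      have h5 : Tendsto (fun p : ℂ × ℂ => ‖p.2‖) (𝓝 (0, 0)) (𝓝 0) :=
        (continuous_snd.norm).tendsto' _ _ (by simp)
      exact (h4.eventually_lt_const hε₀).and ((h5.eventually_lt_const hA).and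
        (h5.eventually_lt_const (pow_pos hε₁0 n)))
    filter_upwards [h1.eventually (isOpen_ball.mem_nhds hc'b), h1.eventually (ball_mem_nhds c' hε),
      h2.eventually h3] with y hy1 hy2 hy3 hσy hy0
    set t := (L.symm ![y 0, y 1]).1 with ht
    set s' := (L.symm ![y 0, y 1]).2 with hs'
    set c : Cm 2 := ![y 2, y 3] with hc
    have hL : L (t, s') = ![y 0, y 1] := L.apply_symm_apply _
    have hyeq : emb4 (L (t, s')) c = y := by rw [hL]; exact emb4_eta y
    have hcs : (c, s') ∈ ball c₂ A ×ˢ ball (0 : ℂ) A := ⟨hy1, by simpa using hy3.2.1⟩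
    have hPt : (P (c, s')).eval t = 0 := by
      refine (hσ t hy3.1 (c, s') hcs).1 ?_
      show σ (emb4 (L (t, s')) c) = 0
      rw [hyeq]; exact hσy
    have hs0 : s' ≠ 0 := by
      intro h0
      rw [h0] at hPt
      have ht0 := hP0 c hy1 t hPt
      rw [ht0, h0] at hL
      have h4 : (![y 0, y 1] : Cm 2) = 0 := by
        rw [← hL]
        exact L.map_zero
      exact hy0 ⟨congrFun h4 0, congrFun h4 1⟩
    obtain ⟨a, ha⟩ := IsAlgClosed.exists_pow_nat_eq s' (Nat.pos_of_ne_zero hN0)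
    have ha0 : a ≠ 0 := by
      rintro rfl
      rw [zero_pow hN0] at ha
      exact hs0 ha.symm
    have haN : a ∈ powBall N A := by
      change ‖a‖ ^ N < A
      rw [← norm_pow, ha]
      exact hy3.2.1
    have hdiv : ∀ k, (a ^ (N / s k)) ^ s k = s' := by
      intro k
      rw [← pow_mul, Nat.div_mul_cancel (hs k).2.2, ha]
    have hmem : ∀ k, a ^ (N / s k) ∈ powBall (s k) A := by
      intro k
      change ‖a ^ (N / s k)‖ ^ s k < A
      rw [← norm_pow, hdiv]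
      exact hy3.2.1
    have hRr : ∀ k, (R (c, s')).eval (η k (c, a ^ (N / s k))) = 0 := by
      intro k
      have := hη2 k (c, a ^ (N / s k)) ⟨hy1, hmem k⟩
      simp only [hdiv] at this
      exact this
    have hprod := hRF.eq_prod hcs (hη3 c hy1 a haN ha0) hRr
    have hRt : (R (c, s')).eval t = 0 := (hroots _ hcs hs0 t).2 hPt
    rw [hprod, eval_prod, Finset.prod_eq_zero_iff] at hRt
    obtain ⟨k, -, hk⟩ := hRt
    simp only [eval_sub, eval_X, eval_C, sub_eq_zero] at hk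
    refine ⟨k, ![a ^ (N / s k), y 2, y 3], ?_, ?_⟩
    · rw [mem_ball3 hε]
      refine ⟨?_, hy2⟩
      show ‖a ^ (N / s k)‖ < ε
      by_contra hcon
      push Not at hcon
      have h4 : ε₁ ≤ ‖a ^ (N / s k)‖ := (min_le_left _ _).trans hcon
      have h5 : ε₁ ^ s k ≤ ‖a ^ (N / s k)‖ ^ s k := pow_le_pow_left₀ hε₁0.le h4 _
      rw [← norm_pow, hdiv] at h5
      have h6 : ε₁ ^ n ≤ ε₁ ^ s k := pow_le_pow_of_le_one hε₁0.le (min_le_right _ _) (hs k).2.1
      exact absurd hy3.2.2 (not_lt.2 (h6.trans h5))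
    · show emb4 (L (η k (tl ![a ^ (N / s k), y 2, y 3], a ^ (N / s k)), (a ^ (N / s k)) ^ s k))
        (tl ![a ^ (N / s k), y 2, y 3]) = y
      have h7 : tl ![a ^ (N / s k), y 2, y 3] = c := rfl
      rw [h7, hdiv, ← hk, hyeq]

end Vale.Agent.P277.H884.PL
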