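import Vale.Agent.P277.H884.F5d
import Vale.Agent.P277.H619.StFfin
import Vale.Agent.P277.H335.Pos2
import Vale.Agent.P277.H335.E8
import Vale.Agent.P277.H619.Pair2

/-!
# P277, F5/F6: the proof of `StF'` and `StF`
-/

set_option maxSynthPendingDepth 3

open scoped Manifold ContDiff Topology
open Vale.Agent.P272.K Vale.Agent.P285.H281.FD Vale.Agent.P267.H175 Set Filter
open Vale.Agent.P267.H928.Int ContinuousAlternatingMap

noncomputable section

namespace Vale.Agent.P277.H884.F

open Vale.Agent.P277

theorem stEta : H619.StEta := by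
  intro Y _ _ _ _ T _ v P W hW hv hU hcov hg n F hF C₀ hC hCc h2
  obtain ⟨η, h3, h4, h5, h6⟩ := exists_eta v P W hW hv hU hcov hg F hF C₀ hC hCc h2
  exact ⟨η, h3, h4, h5, fun y hy i hi f f' c hR e he hye =>
    (h6 y hy i hi f f' c hR e he hye).1⟩

theorem stE8 : H619.StE8 := H335.stE8

theorem stF' : StF' := H619.stF'_of stE8 stEta H619.stPair

theorem stF : StF := H619.stF_of stF' H619.stPair

end Vale.Agent.P277.H884.F
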