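import Vale.Agent.P277.H615.R.WgDef
import Vale.Agent.P277.H615.R.OrdV
import Vale.Agent.P277.H762.L1a
import Vale.Agent.P277.H884.Conn
import Vale.Agent.P277.H29.Bet

/-!
# P277, boundary: orders along wedges of `Y`, pointwise part
-/

open scoped Manifold ContDiff Topology
open Vale.Agent.P272.K Vale.Agent.P285.H281.FD Vale.Agent.P267.H175 Set Filter Metric

noncomputable section

namespace Vale.Agent.P277.H884.W

open Vale.Agent.P277 Vale.Agent.P277.T2 Vale.Agent.P277.H335 Vale.Agent.P277.H615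
open Vale.Agent.P277.H762 (Cv)

/-- the inverse of a local isomorphism which preserves `{w 0 = 0}` -/
theorem locIso_data {χ : Cm 4 → Cm 4} {w₂ : Cm 4} (hχ : T3.LocIso χ w₂) (h0 : w₂ 0 = 0)
    (hz : ∀ᶠ w in 𝓝 w₂, χ w 0 = 0 ↔ w 0 = 0) :
    ∃ (χ' : Cm 4 → Cm 4) (C : ℝ), AnalyticAt ℂ χ' (χ w₂) ∧ χ' (χ w₂) = w₂ ∧ χ w₂ 0 = 0 ∧
      (∀ᶠ w in 𝓝 w₂, χ' (χ w) = w) ∧ (∀ᶠ z in 𝓝 (χ w₂), χ (χ' z) = z) ∧
      (∀ᶠ z in 𝓝 (χ w₂), χ' z 0 = 0 ↔ z 0 = 0) ∧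
      (∀ᶠ w in 𝓝 w₂, ‖χ w 0‖ ≤ C * ‖w 0‖ ∧ ‖w 0‖ ≤ C * ‖χ w 0‖) := by
  have hinj : Function.Injective (fderiv ℂ χ w₂) := by
    have h1 : LinearMap.det (fderiv ℂ χ w₂ : Cm 4 →ₗ[ℂ] Cm 4) ≠ 0 := hχ.2
    exact (LinearMap.equivOfDetNeZero _ h1).injective
  obtain ⟨θ, hθ, hθs, -, hθt⟩ := H73.exists_localInv hχ.1 hinj
  have htar : χ w₂ ∈ θ.target := by rw [← hθ]; exact θ.map_source hθs
  have hinv : θ.symm (χ w₂) = w₂ := by
    have := θ.left_inv hθs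
    rwa [hθ] at this
  have h1 : ∀ᶠ w in 𝓝 w₂, θ.symm (χ w) = w := by
    filter_upwards [θ.open_source.mem_nhds hθs] with w hw
    have := θ.left_inv hw
    rwa [hθ] at this
  have h2 : ∀ᶠ z in 𝓝 (χ w₂), χ (θ.symm z) = z := by
    filter_upwards [θ.open_target.mem_nhds htar] with z hz
    have := θ.right_inv hz
    rwa [hθ] at this
  have ht : Tendsto θ.symm (𝓝 (χ w₂)) (𝓝 w₂) := by
    have := (hθt _ htar).continuousAt.tendsto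
    rwa [hinv] at this
  have hχ0 : χ w₂ 0 = 0 := hz.self_of_nhds.2 h0
  obtain ⟨g, hg, hgχ⟩ := H19.exists_div ((analyticAt_pi_iff.1 hχ.1) 0) h0 (hz.mono fun w h h' => h.2 h')
  have hg0 : g w₂ ≠ 0 := by
    intro hg0
    apply hχ.2
    rw [H29.FC.det_eq_Jm]
    have h1 : ∀ j, H29.FC.Jm χ w₂ 0 j = 0 := by
      intro j
      rw [H29.FC.Jm_apply hχ.1.differentiableAt, H29.FC.pd_congr hgχ,
        H29.FC.pd_mul (H29.FC.an_coord 0 w₂).differentiableAt hg.differentiableAt, h0, hg0]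
      ring
    exact Matrix.det_eq_zero_of_row_eq_zero 0 h1
  refine ⟨θ.symm, max (‖g w₂‖ + 1) (2 / ‖g w₂‖), hθt _ htar, hinv, hχ0, h1, h2, ?_, ?_⟩
  · filter_upwards [ht.eventually hz, h2] with z k1 k2
    rw [← k1, k2]
  · have e1 : ∀ᶠ w in 𝓝 w₂, ‖g w‖ < ‖g w₂‖ + 1 :=
      hg.continuousAt.norm.eventually_lt continuousAt_const (by simp)
    have hpos : 0 < ‖g w₂‖ := norm_pos_iff.2 hg0
    have e2 : ∀ᶠ w in 𝓝 w₂, ‖g w₂‖ / 2 < ‖g w‖ :=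
      continuousAt_const.eventually_lt hg.continuousAt.norm (by linarith)
    filter_upwards [hgχ, e1, e2] with w k1 k2 k3
    rw [k1, norm_mul]
    have hn := norm_nonneg (w 0)
    refine ⟨?_, ?_⟩
    · rw [mul_comm]
      exact mul_le_mul_of_nonneg_right (k2.le.trans (le_max_left _ _)) hn
    · have k4 : 1 ≤ max (‖g w₂‖ + 1) (2 / ‖g w₂‖) * ‖g w‖ := by
        calc (1 : ℝ) = 2 / ‖g w₂‖ * (‖g w₂‖ / 2) := by field_simp
          _ ≤ max (‖g w₂‖ + 1) (2 / ‖g w₂‖) * ‖g w‖ := by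
            refine mul_le_mul (le_max_right _ _) k3.le (by positivity) ?_
            exact (by positivity : (0 : ℝ) ≤ ‖g w₂‖ + 1).trans (le_max_left _ _)
      nlinarith

variable {Y : Type} [TopologicalSpace Y] [ChartedSpace (Cm 4) Y]

theorem IsWg.isOpen_pre {Γ : Cm 4 → Y} {D : Set (Cm 4)} (h : IsWg Γ D) {O : Set Y}
    (hO : IsOpen O) : IsOpen (D ∩ {w | Γ w ∈ O}) := by
  have h1 : ContinuousOn Γ D := fun w hw => (h.cont w hw).continuousWithinAt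
  exact h1.isOpen_inter_preimage h.isOpen hO

theorem IsWg.denseNear {Γ : Cm 4 → Y} {D : Set (Cm 4)} (h : IsWg Γ D) {O : Set Y}
    (hO : IsOpen O) (hd : Dense O) {w : Cm 4} (hw : w ∈ D) : DenseNear {w | Γ w ∈ O} w :=
  denseNear_of h.isOpen (IsWg.isOpen_pre h hO) (h.dense O hO hd) hw

section

variable {k : ℕ} {V X Z X' : CSp} {vV : Y → V.pt} {G₀ : Set Y} {N : Fin k → Bd Y}
  {L : Fin k → Bd X.pt} {L' : Fin k → Bd X'.pt} {c c' : Fin k → ℕ} {O : Set Y}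
  {v : Y → X.pt} {P Q : Fin k → ℕ} {T : ∀ e, (L e).ι → (N e).ι → Y → ℂ} {ρ : Fin k → ℝ}
  {S : Set X.pt} {f : X.pt → Z.pt} {f' : X'.pt → Z.pt} {p q : Fin k → ℕ}
  {s : ∀ e, (L e).ι → (L' e).ι → Z.pt → ℂ} {a : Fin k → ℤ}
  {Γ Γ' : Cm 4 → Y} {D D' : Set (Cm 4)} {w₀ w₀' : Cm 4} {r r' : ℝ} {γ γ' : Cm 4 → X.pt}
  {i i' : ∀ e, (L e).ι} {n n' : ∀ e, (N e).ι} {x x' : Fin k → ℚ}

theorem NiceW.restrict (h : NiceW O v T Γ D w₀ r γ i n x) {w₁ : Cm 4} {r₁ : ℝ}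
    (h0 : w₁ 0 = 0) (hr : 0 < r₁) (hs : ball w₁ r₁ ⊆ ball w₀ r) :
    NiceW O v T Γ D w₁ r₁ γ i n x where
  zero := h0
  pos := hr
  sub := hs.trans h.sub
  hol w hw := h.hol w (hs hw)
  memU w hw := h.memU w (hs hw)
  memN w hw := h.memN w (hs hw)
  eq w hw := h.eq w (hs hw)
  ord w hw := h.ord w (hs hw)

theorem NiceW.at (h : NiceW O v T Γ D w₀ r γ i n x) {w : Cm 4} (hw : w ∈ ball w₀ r)
    (h0 : w 0 = 0) : ∃ r₁, ball w r₁ ⊆ ball w₀ r ∧ NiceW O v T Γ D w r₁ γ i n x := by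
  obtain ⟨r₁, hr₁, hs⟩ := Metric.isOpen_iff.1 isOpen_ball w hw
  exact ⟨r₁, hs, NiceW.restrict h h0 hr₁ hs⟩

/-- uniqueness of the orders -/
theorem NiceW.unique (hW : IsWg Γ D) (hOo : IsOpen O) (hO : Dense O)
    (hTw : TwV vV G₀ N X L c O v P Q T ρ S) (hN : ∀ e, CtBd (N e))
    (h : NiceW O v T Γ D w₀ r γ i n x) (h' : NiceW O v T Γ D' w₀ r' γ' i' n' x') : x = x' := by
  have hw₀ : w₀ ∈ ball w₀ r := mem_ball_self h.pos
  have hw₀' : w₀ ∈ ball w₀ r' := mem_ball_self h'.pos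
  set W : Set (Cm 4) := ball w₀ r ∩ ball w₀ r' with hWdef
  have hWo : IsOpen W := isOpen_ball.inter isOpen_ball
  have hw₀W : w₀ ∈ W := ⟨hw₀, hw₀'⟩
  have hag : ∀ w ∈ W, γ w = γ' w := by
    refine eqOn_of_closure (D := {w | Γ w ∈ O}) hWo (fun w hw => (h.hol w hw.1).1)
      (fun w hw => (h'.hol w hw.2).1) ?_ ?_
    · intro w hw
      rw [mem_closure_iff_nhds]
      intro U hU
      obtain ⟨z, h1, h2⟩ := mem_closure_iff_nhds.1 (hW.dense O hOo hO (h.sub hw.1)) (U ∩ W)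
        (inter_mem hU (hWo.mem_nhds hw))
      exact ⟨z, h1.1, h1.2, h2.2⟩
    · intro w hw hwO
      rw [h.eq w hw.1 hwO, h'.eq w hw.2 hwO]
  funext e
  have hord := h.ord w₀ hw₀ h.zero e
  have hord' := h'.ord w₀ hw₀' h.zero e
  refine hord.unique' (τ' := fun w => T e (i' e) (n' e) (Γ w)) h.zero
    (IsWg.denseNear hW hOo hO (h.sub hw₀)) ?_ hord'
    (u := fun w => (L e).g (i e) (i' e) (γ w) ^ P e * (N e).g (n' e) (n e) (Γ w) ^ Q e) ?_ ?_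
  · filter_upwards [isOpen_ball.mem_nhds hw₀] with w hw hwO _
    refine T_ne hTw hwO e ?_ (h.memN w hw e)
    rw [← h.eq w hw hwO]; exact h.memU w hw e
  · filter_upwards [hWo.mem_nhds hw₀W] with w hw
    have k1 : γ w ∈ (L e).U (i' e) := by rw [hag w hw]; exact h'.memU _ hw.2 e
    have k2 : Γ w ∈ (N e).U (n' e) := h'.memN _ hw.2 e
    have k3 := (hTw.lb e).holo (i e) (i' e) (γ w) (h.memU w hw.1 e) k1
    have k4 : ContinuousAt (fun w => (L e).g (i e) (i' e) (γ w)) w :=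
      ((h.hol w hw.1).analyticAt k3).continuousAt
    have k5 : ContinuousAt (fun w => (N e).g (n' e) (n e) (Γ w)) w :=
      ContinuousAt.comp (g := (N e).g (n' e) (n e)) ((hN e).cont _ _ _ k2 (h.memN w hw.1 e))
        (hW.cont w (h.sub hw.1))
    exact ⟨(k4.pow _).mul (k5.pow _), mul_ne_zero (pow_ne_zero _ ((hTw.lb e).ne_zero _ _ _
      (h.memU w hw.1 e) k1)) (pow_ne_zero _ ((hN e).ne_zero _ _ _ k2 (h.memN w hw.1 e)))⟩
  · filter_upwards [hWo.mem_nhds hw₀W] with w hw hwO _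
    have k1 : γ w ∈ (L e).U (i' e) := by rw [hag w hw]; exact h'.memU _ hw.2 e
    have k2 : Γ w ∈ (N e).U (n' e) := h'.memN _ hw.2 e
    have k3 := h.eq w hw.1 hwO
    have k4 : T e (i' e) (n' e) (Γ w) = (L e).g (i e) (i' e) (v (Γ w)) ^ P e *
        T e (i e) (n e) (Γ w) * (N e).g (n' e) (n e) (Γ w) ^ Q e :=
      (hTw.tw e).iso.change (Γ w) hwO (i e) (i' e) (n e) (n' e)
        (by rw [← k3]; exact h.memU w hw.1 e) (by rw [← k3]; exact k1) (h.memN w hw.1 e) k2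
    rw [k4, k3]
    ring

/-- change of coordinates -/
theorem NiceW.comp (hD : IsOpen D) (hw₀ : w₀ ∈ D) (h0 : w₀ 0 = 0) {χ : Cm 4 → Cm 4}
    (hχ : T3.LocIso χ w₀) (hz : ∀ᶠ w in 𝓝 w₀, (χ w 0 = 0 ↔ w 0 = 0) ∧ Γ' (χ w) = Γ w)
    (h : NiceW O v T Γ' D' (χ w₀) r γ i n x) :
    ∃ r₁, NiceW O v T Γ D w₀ r₁ (fun w => γ (χ w)) i n x := by
  have hw₀' : χ w₀ ∈ ball (χ w₀) r := mem_ball_self h.pos
  have hev : ∀ᶠ w in 𝓝 w₀, w ∈ D ∧ χ w ∈ ball (χ w₀) r ∧ AnalyticAt ℂ χ w ∧ Γ' (χ w) = Γ w ∧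
      (w 0 = 0 → χ w 0 = 0) ∧ ∀ e, w 0 = 0 →
        HasOrd {w | Γ w ∈ O} w (fun w => T e (i e) (n e) (Γ w)) (x e) := by
    have hdet : ∀ᶠ w in 𝓝 w₀, T3.LocIso χ w := by
      have hc1 : ContinuousAt (fun w => (fderiv ℂ χ w).det) w₀ :=
        (ContinuousLinearMap.continuous_det (𝕜 := ℂ) (E := Cm 4)).continuousAt.comp
          hχ.1.fderiv.continuousAt
      filter_upwards [hχ.1.eventually_analyticAt, hc1.eventually_ne hχ.2] with w h1 h2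
      exact ⟨h1, h2⟩
    filter_upwards [hD.mem_nhds hw₀, hχ.1.continuousAt.eventually_mem (isOpen_ball.mem_nhds hw₀'),
      hdet, hz.eventually_nhds] with w h1 h2 h3 h4
    refine ⟨h1, h2, h3.1, h4.self_of_nhds.2, h4.self_of_nhds.1.2, fun e hw0 => ?_⟩
    obtain ⟨χ', C, hχ', hχ'0, hχ0, m1, m2, m3, m4⟩ :=
      locIso_data h3 hw0 (h4.mono fun w hw => hw.1)
    have ht' : Tendsto χ' (𝓝 (χ w)) (𝓝 w) := by
      have := hχ'.continuousAt.tendsto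
      rwa [hχ'0] at this
    have hord := (h.ord (χ w) h2 hχ0 e).comp (C := C) hw0 h3.1 rfl m4 ht'
      (m2.and (m3.mono fun z hz h => hz.2 h) )
    refine (hord.mono ?_).congr ?_
    · filter_upwards [h4] with z hz hzO
      show Γ' (χ z) ∈ O
      rw [hz.2]; exact hzO
    · filter_upwards [h4] with z hz _ _
      rw [hz.2]
  obtain ⟨r₁, hr₁, hball⟩ := Metric.eventually_nhds_iff_ball.1 hev
  refine ⟨r₁, h0, hr₁, fun w hw => (hball w hw).1, fun w hw => ?_, fun w hw e => ?_,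
    fun w hw e => ?_, fun w hw hwO => ?_, fun w hw hw0 e => (hball w hw).2.2.2.2.2 e hw0⟩
  · obtain ⟨-, h2, h3, -⟩ := hball w hw
    exact HolAt.comp (γ := χ) (h.hol _ h2) h3
  · exact h.memU _ (hball w hw).2.1 e
  · rw [← (hball w hw).2.2.2.1]
    exact h.memN _ (hball w hw).2.1 e
  · have h4 := (hball w hw).2.2.2.1
    show γ (χ w) = v (Γ w)
    rw [← h4]
    exact h.eq _ (hball w hw).2.1 (by rw [h4]; exact hwO)

/-- extension through a flip -/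
theorem nice_upW (hk : 1 ≤ k) (hTw : TwV vV G₀ N X L c O v P Q T ρ S)
    (hf : FlipD f f' L L' p q s a) {d : ℕ} (hd : 1 ≤ d)
    (hda : ∀ e, (a e : ℝ) ≤ d * (ρ e / (c e * p e)) ∧ d * (ρ e / (c e * p e)) ≤ a e + 1)
    {b : ∀ e, X.pt → (L e).ι} (hb : ∀ e x, x ∈ (L e).U (b e x)) (hW : IsWg Γ D)
    (hOo' : IsOpen {y | y ∈ O ∧ f (v y) ∉ Amin f})
    (hO' : Dense {y | y ∈ O ∧ f (v y) ∉ Amin f}) (h : NiceW O v T Γ D w₀ r γ i n x) :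
    ∃ (r₁ : ℝ) (g : Cm 4 → ℂ), 0 < r₁ ∧ ball w₀ r₁ ⊆ ball w₀ r ∧
      (∀ w ∈ ball w₀ r₁, AnalyticAt ℂ g w) ∧ (∃ w₁ ∈ ball w₀ r₁, w₁ 0 = 0 ∧ g w₁ ≠ 0) ∧
      ∀ w₁ ∈ ball w₀ r₁, w₁ 0 = 0 → g w₁ ≠ 0 →
        ∃ (r₂ : ℝ) (γ₁ : Cm 4 → X'.pt) (j : ∀ e, (L' e).ι) (x₁ : Fin k → ℚ),
          ball w₁ r₂ ⊆ ball w₀ r ∧
          NiceW {y | y ∈ O ∧ f (v y) ∉ Amin f} (fun y => hf.small'.sec (f (v y)))
            (fun e => stT v f (P e) (p e) (T e) (s e) (b e)) Γ D w₁ r₂ γ₁ j n x₁ ∧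
          (∀ w ∈ ball w₁ r₂, f' (γ₁ w) = f (γ w)) ∧
          ∑ e, ρ e / Q e * x e ≤ ∑ e, ρ e / ((Q e * p e : ℕ) : ℝ) * x₁ e ∧
          ((∀ w ∈ ball w₀ r, w 0 = 0 → f (γ w) ∈ Amin f) →
            ∑ e, ρ e / Q e * x e < ∑ e, ρ e / ((Q e * p e : ℕ) : ℝ) * x₁ e) := by
  set O' : Set Y := {y | y ∈ O ∧ f (v y) ∉ Amin f} with hO'def
  have hγA : ∀ w ∈ ball w₀ r, Γ w ∈ O' → f (γ w) ∉ Amin f := by
    intro w hw hwO
    rw [h.eq w hw hwO.1]; exact hwO.2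
  have hdense : ball w₀ r ⊆ closure {w | w ∈ ball w₀ r ∧ f (γ w) ∉ Amin f} := by
    intro w hw
    rw [mem_closure_iff_nhds]
    intro U hU
    obtain ⟨w', k1, k2, k3⟩ := mem_closure_iff_nhds.1 (hW.dense O' hOo' hO' (h.sub hw))
      (U ∩ ball w₀ r) (inter_mem hU (isOpen_ball.mem_nhds hw))
    exact ⟨w', k1.1, k1.2, hγA w' k1.2 k3⟩
  obtain ⟨r₁, g, hr₁, hsub, hg, hgne, hgood⟩ := hf.up hk isOpen_ball (mem_ball_self h.pos)
    h.zero h.hol hdense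
  refine ⟨r₁, g, hr₁, hsub, hg, hgne, ?_⟩
  intro w₁ hw₁ hw₁0 hgw₁
  obtain ⟨W₁, γ₁, hW₁, hw₁W₁, hW₁s, hγ₁, hord⟩ := hgood w₁ hw₁ hw₁0 hgw₁
  choose j hj using fun e => (hf.lb' e).cover (γ₁ w₁)
  obtain ⟨σ, hσ, hsum⟩ := hord i j (h.memU w₁ (hsub hw₁)) hj
  have hev : ∀ᶠ w in 𝓝 w₁, w ∈ W₁ ∧ (∀ e, γ₁ w ∈ (L' e).U (j e)) ∧ ∀ e, w 0 = 0 →
      HasOrd {w | f (γ w) ∉ Amin f} w (fun w => s e (i e) (j e) (f (γ w))) (σ e) := by
    refine (hW₁.eventually_mem hw₁W₁).and (Filter.Eventually.and ?_ ?_)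
    · rw [eventually_all]
      exact fun e => (hγ₁ w₁ hw₁W₁).1.1.eventually_mem (((hf.lb' e).isOpen (j e)).mem_nhds (hj e))
    · rw [eventually_all]
      exact fun e => (hσ e).eventually hw₁0
  obtain ⟨r₂, hr₂, hball⟩ := Metric.eventually_nhds_iff_ball.1 hev
  have hs2 : ball w₁ r₂ ⊆ ball w₀ r := fun w hw => hW₁s (hball w hw).1
  have hsec : ∀ w ∈ ball w₁ r₂, Γ w ∈ O' → hf.small'.sec (f (v (Γ w))) = γ₁ w := by
    intro w hw hwO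
    have k3 : γ w = v (Γ w) := h.eq w (hs2 hw) hwO.1
    refine hf.small'.inj _ _ ?_ ?_
    · rw [(hγ₁ w (hball w hw).1).2, k3]; exact hwO.2
    · rw [hf.small'.sec_eq, (hγ₁ w (hball w hw).1).2, k3]
  refine ⟨r₂, γ₁, j, fun e => x e * p e - σ e * P e, hs2, ⟨hw₁0, hr₂, hs2.trans h.sub,
    fun w hw => (hγ₁ w (hball w hw).1).1, fun w hw => (hball w hw).2.1,
    fun w hw => h.memN w (hs2 hw), fun w hw hwO => (hsec w hw hwO).symm, ?_⟩,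
    fun w hw => (hγ₁ w (hball w hw).1).2, ?_⟩
  · intro w hw hw0 e
    have hnb : ∀ᶠ z in 𝓝 w, z ∈ ball w₁ r₂ := isOpen_ball.mem_nhds hw
    have hD' : ∀ᶠ z in 𝓝 w, z ∈ {w | Γ w ∈ O'} →
        z ∈ {w | Γ w ∈ O} ∧ z ∈ {w | f (γ w) ∉ Amin f} :=
      hnb.mono fun z hz hzO => ⟨hzO.1, hγA z (hs2 hz) hzO⟩
    have hsne : ∀ᶠ z in 𝓝 w, z ∈ {w | Γ w ∈ O'} → z 0 ≠ 0 → s e (i e) (j e) (f (γ z)) ≠ 0 := by
      filter_upwards [hnb] with z hz hzO _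
      exact ((hf.iso e).holo (γ z) (γ₁ z) (i e) (j e) (hγA z (hs2 hz) hzO)
        (hγ₁ z (hball z hz).1).2 (h.memU z (hs2 hz) e) ((hball z hz).2.1 e)).2
    have h1 := ((h.ord w (hs2 hw) hw0 e).pow (p e)).mono (hD'.mono fun w hw hwO => (hw hwO).1)
    have h2 := (((hball w hw).2.2 e hw0).mono (hD'.mono fun w hw hwO => (hw hwO).2)).pow (P e)
    have h3 := h1.mul hw0 (h2.inv (hsne.mono fun w hw m1 m2 => pow_ne_zero _ (hw m1 m2)))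
    rw [← sub_eq_add_neg] at h3
    refine h3.congr ?_
    filter_upwards [hnb] with z hz hzO _
    have k3 : γ z = v (Γ z) := h.eq z (hs2 hz) hzO.1
    have h6 := stT_eq' (hTw.tw e).iso (hTw.tw e).lb hf.small' (IsLBx.pow (hf.lb e) (p e))
      (IsLBx.pow (hf.lb' e) (q e)) (hf.iso e) (hb e) hzO.1 hzO.2 (a₁ := i e) (b := j e)
      (c := n e) (by rw [← k3]; exact h.memU z (hs2 hz) e)
      (by rw [hsec z hz hzO]; exact (hball z hz).2.1 e) (h.memN z (hs2 hz) e)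
    rw [h6]
    show T e (i e) (n e) (Γ z) ^ p e / s e (i e) (j e) (f (v (Γ z))) ^ P e = _
    rw [k3, div_eq_mul_inv]
  · have h1 := sum_step (c := c) hd (fun e => (hTw.tw e).hP) (fun e => (hTw.tw e).hQ) hf.hp
      hTw.mult ρ x σ
    have h2 := hsum (fun e => d * (ρ e / (c e * p e))) hda
    have hd0 : (0 : ℝ) < d := by exact_mod_cast hd
    rw [h1]
    refine ⟨?_, fun hC => ?_⟩
    · have h3 := div_nonpos_of_nonpos_of_nonneg h2.1 hd0.le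
      linarith
    · have h3 := div_neg_of_neg_of_pos (h2.2 hC) hd0
      linarith

end

end Vale.Agent.P277.H884.W
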